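import Vale.Agent.P107.H706.Symm
import Vale.Agent.P107.Bdl.B4

/-!
Conservation of all the integrals `∬ Φ(f) dx dv`.
-/

attribute [-instance] ProperSMul.toContinuousSMul IsTopologicalTorsor.toContinuousSMul
  IdemSemiring.toCanonicallyOrderedAdd IdemSemiring.toMulLeftMono IdemSemiring.toMulRightMono
  AddQuantale.instAddLeftMono AddQuantale.instAddRightMono Quantale.instMulLeftMono
  Quantale.instMulRightMono FiniteDimensional.rclike_to_real IsScalarTower.complexToReal
  FiniteDimensional.complexToReal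

open MeasureTheory Set Filter Topology
open scoped RealInnerProductSpace ENNReal NNReal

namespace Vale.Agent.P107.H706

lemma inner_cross_self (a b : E3) : ⟪a, cross a b⟫ = 0 := by
  simp only [PiLp.inner_apply, Fin.sum_univ_three, cross]
  simp
  ring

/-- The Vlasov vector field is divergence free. -/
lemma vlasov_ibp_one {g : E3 × E3 → ℝ} (hg : ContDiff ℝ 1 g) (hc : HasCompactSupport g)
    {F H : E3 → E3} (hF : ContDiff ℝ 1 F) (hH : ContDiff ℝ 1 H) :
    ∫ z : E3 × E3, fderiv ℝ g z (u z.2, F z.1 + cross (u z.2) (H z.1)) = 0 := by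
  have := isAddHaar_prod
  set p : E3 × E3 → ℝ := fun z => (q z.2)⁻¹ with hp
  have hpc : ContDiff ℝ 1 p :=
    (q_contDiff.comp contDiff_snd).inv fun z => (q_pos z.2).ne'
  have hpd : ∀ z w : E3 × E3, fderiv ℝ p z w = - ((q z.2) ^ 2)⁻¹ * ⟪u z.2, w.2⟫ := by
    intro z w
    have h1 : HasFDerivAt (fun y : E3 × E3 => q y.2)
        (((q z.2)⁻¹ • innerSL ℝ z.2).comp (ContinuousLinearMap.snd ℝ E3 E3)) z :=
      (hasFDerivAt_q z.2).comp z (hasFDerivAt_snd (p := z))
    have h2 := (hasDerivAt_inv (q_pos z.2).ne').comp_hasFDerivAt z h1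
    have h3 : fderiv ℝ p z = (-((q z.2) ^ 2)⁻¹) •
        (((q z.2)⁻¹ • innerSL ℝ z.2).comp (ContinuousLinearMap.snd ℝ E3 E3)) := h2.fderiv
    rw [h3]
    rw [inner_u_eq]
    simp only [_root_.smul_apply, ContinuousLinearMap.comp_apply,
      ContinuousLinearMap.coe_snd', innerSL_apply_apply, smul_eq_mul]
    ring
  have hm : ContDiff ℝ 1 fun z => p z * g z := hpc.mul hg
  have hmc : HasCompactSupport fun z => p z * g z := HasCompactSupport.mul_left hc
  have key := vlasov_ibp hm hmc hF hH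
  have hprod : ∀ z w : E3 × E3, fderiv ℝ (fun z => p z * g z) z w
      = p z * fderiv ℝ g z w + g z * fderiv ℝ p z w := by
    intro z w
    have h1 := (hpc.differentiable (by norm_num) z).hasFDerivAt.mul
      (hg.differentiable (by norm_num) z).hasFDerivAt
    have h2 : fderiv ℝ (fun z => p z * g z) z = p z • fderiv ℝ g z + g z • fderiv ℝ p z := h1.fderiv
    rw [h2]
    simp
  have hpt : ∀ z : E3 × E3, q z.2 * fderiv ℝ (fun z => p z * g z) z
        (u z.2, F z.1 + cross (u z.2) (H z.1))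
      = fderiv ℝ g z (u z.2, F z.1 + cross (u z.2) (H z.1)) - p z * g z * ⟪u z.2, F z.1⟫ := by
    intro z
    rw [hprod, hpd]
    have h1 : ⟪u z.2, F z.1 + cross (u z.2) (H z.1)⟫ = ⟪u z.2, F z.1⟫ := by
      rw [inner_add_right, inner_cross_self, add_zero]
    have h2 : q z.2 * p z = 1 := mul_inv_cancel₀ (q_pos z.2).ne'
    have h3 : q z.2 * ((q z.2) ^ 2)⁻¹ = p z := by
      have := (q_pos z.2).ne'
      simp only [hp]
      field_simp
    simp only [h1]
    linear_combination (fderiv ℝ g z (u z.2, F z.1 + cross (u z.2) (H z.1))) * h2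
      - (g z * ⟪u z.2, F z.1⟫) * h3
  have i1 : Integrable fun z : E3 × E3 => fderiv ℝ g z (u z.2, F z.1 + cross (u z.2) (H z.1)) := by
    refine Continuous.integrable_of_hasCompactSupport ?_ ?_
    · refine (hg.continuous_fderiv (by norm_num)).clm_apply ?_
      refine (continuous_u.comp continuous_snd).prodMk ?_
      refine (hF.continuous.comp continuous_fst).add ?_
      exact (contDiff_cross (u_contDiff.comp contDiff_snd) (hH.comp contDiff_fst)).continuous
    · refine (hc.fderiv (𝕜 := ℝ)).mono ?_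
      intro z hz
      rw [Function.mem_support] at hz ⊢
      intro h0
      exact hz (by rw [h0]; rfl)
  have i2 : Integrable fun z : E3 × E3 => p z * g z * ⟪u z.2, F z.1⟫ := by
    refine Continuous.integrable_of_hasCompactSupport ?_ ?_
    · exact hm.continuous.mul
        ((continuous_u.comp continuous_snd).inner (hF.continuous.comp continuous_fst))
    · exact hmc.mul_right
  simp_rw [hpt] at key
  rw [integral_sub i1 i2] at key
  linarith

variable {T : ℝ} {f : ℝ → E3 → E3 → ℝ} {E B : ℝ → E3 → E3}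

/-- The derivative of `∬ Φ(f)` vanishes. -/
lemma hasDerivAt_casimir (h : IsClassicalSolution T f E B) {Φ : ℝ → ℝ} (hΦ : ContDiff ℝ 1 Φ)
    (h0 : Φ 0 = 0) {t : ℝ} (ht : t ∈ Ioo 0 T) :
    HasDerivAt (fun s => ∫ z : E3 × E3, Φ (f s z.1 z.2)) 0 t := by
  have := isAddHaar_prod
  obtain ⟨b, htb, hbT⟩ := exists_between ht.2
  have hb : b ∈ Ico 0 T := ⟨(ht.1.trans htb).le, hbT⟩
  obtain ⟨R, hR⟩ := h.exists_support hb
  have hsub : Ioo 0 b ⊆ Ioo 0 T := Ioo_subset_Ioo_right hbT.le
  have hΦd : ∀ y, HasDerivAt Φ (deriv Φ y) y := fun y =>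
    (hΦ.differentiable (by norm_num) y).hasDerivAt
  have hΦc : Continuous (deriv Φ) := hΦ.continuous_deriv (by norm_num)
  have h1 := hasDerivAt_integral_of_compact (μ := (volume : Measure (E3 × E3))) (a := 0) (b := b)
    (F := fun s (z : E3 × E3) => Φ (f s z.1 z.2))
    (F' := fun s (z : E3 × E3) => deriv Φ (f s z.1 z.2)
      * fderiv ℝ (fun y : ℝ × E3 × E3 => f y.1 y.2.1 y.2.2) (s, z) (1, 0))
    (isCompact_KR R) ?_ ?_ ?_ ?_ ⟨ht.1, htb⟩
  · have ht' : t ∈ Ico 0 T := Ioo_subset_Ico_self ht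
    have hg : ContDiff ℝ 1 fun z : E3 × E3 => Φ (f t z.1 z.2) := hΦ.comp (h.f_slice ht')
    have hgc : HasCompactSupport fun z : E3 × E3 => Φ (f t z.1 z.2) :=
      (h.hasCompactSupport ht').comp_left h0
    have h2 : (∫ z : E3 × E3, deriv Φ (f t z.1 z.2)
        * fderiv ℝ (fun y : ℝ × E3 × E3 => f y.1 y.2.1 y.2.2) (t, z) (1, 0)) = 0 := by
      have h3 := vlasov_ibp_one hg hgc (h.E_slice ht') (h.B_slice ht')
      have h4 : ∀ z : E3 × E3, deriv Φ (f t z.1 z.2)
          * fderiv ℝ (fun y : ℝ × E3 × E3 => f y.1 y.2.1 y.2.2) (t, z) (1, 0)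
          = - fderiv ℝ (fun z : E3 × E3 => Φ (f t z.1 z.2)) z
            (u z.2, E t z.1 + cross (u z.2) (B t z.1)) := by
        intro z
        rw [h.vlasov_fderiv ht z]
        have h5 : HasFDerivAt (fun y : E3 × E3 => f t y.1 y.2)
            (fderiv ℝ (fun y : E3 × E3 => f t y.1 y.2) z) z :=
          ((h.f_slice ht').differentiable (by norm_num) z).hasFDerivAt
        have h6 := (hΦd (f t z.1 z.2)).comp_hasFDerivAt z h5
        have h7 : fderiv ℝ (fun z : E3 × E3 => Φ (f t z.1 z.2)) z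
            = deriv Φ (f t z.1 z.2) • fderiv ℝ (fun y : E3 × E3 => f t y.1 y.2) z := h6.fderiv
        rw [h7]
        simp
      simp_rw [h4]
      rw [integral_neg, h3, neg_zero]
    rwa [h2] at h1
  · intro s hs z hz
    show Φ (f s z.1 z.2) = 0
    rw [hR s (Ioo_subset_Icc_self hs) z hz, h0]
  · intro s hs z
    exact (hΦd (f s z.1 z.2)).comp s (hasDerivAt_of_slab h.f_contDiff (hsub hs) z)
  · intro s hs
    exact hΦ.continuous.comp (h.f_slice (Ioo_subset_Ico_self (hsub hs))).continuous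
  · refine ContinuousOn.mul ?_ ?_
    · refine hΦc.comp_continuousOn ?_
      exact h.f_contDiff.continuousOn.mono
        (prod_mono (hsub.trans Ioo_subset_Ico_self) (subset_refl _))
    · exact (continuousOn_fderiv_of_slab h.f_contDiff).mono (prod_mono hsub (subset_refl _))

/-- Conservation of the regular Casimir functionals. -/
lemma casimir_smooth (h : IsClassicalSolution T f E B) {Φ : ℝ → ℝ} (hΦ : ContDiff ℝ 1 Φ)
    (h0 : Φ 0 = 0) {t : ℝ} (ht : t ∈ Ico 0 T) :
    ∫ z : E3 × E3, Φ (f t z.1 z.2) = ∫ z : E3 × E3, Φ (f 0 z.1 z.2) := by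
  have := isAddHaar_prod
  obtain ⟨R, hR⟩ := h.exists_support ht
  have hcont : ContinuousOn (fun s => ∫ z : E3 × E3, Φ (f s z.1 z.2)) (Icc 0 t) := by
    refine continuousOn_integral_of_compact_support (isCompact_KR R) ?_ ?_
    · refine hΦ.continuous.comp_continuousOn ?_
      exact h.f_contDiff.continuousOn.mono
        (prod_mono (Icc_subset_Ico_right ht.2) (subset_refl _))
    · intro s z hs hz
      rw [hR s hs z hz, h0]
  rcases eq_or_lt_of_le ht.1 with ht0 | ht0
  · rw [← ht0]
  · obtain ⟨c, hc, hc'⟩ := exists_hasDerivAt_eq_slope (fun s => ∫ z : E3 × E3, Φ (f s z.1 z.2))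
      (fun _ => 0) ht0 hcont
      (fun s hs => hasDerivAt_casimir h hΦ h0 ⟨hs.1, hs.2.trans ht.2⟩)
    have h1 : (∫ z : E3 × E3, Φ (f t z.1 z.2)) - ∫ z : E3 × E3, Φ (f 0 z.1 z.2) = 0 := by
      have h2 : (t - 0) ≠ 0 := by rw [sub_zero]; exact ht0.ne'
      have h3 := hc'.symm
      rw [div_eq_iff h2, zero_mul] at h3
      exact h3
    linarith

/-- The measure of the superlevel sets is conserved. -/
lemma measure_superlevel (h : IsClassicalSolution T f E B) {t : ℝ} (ht : t ∈ Ico 0 T) {a : ℝ}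
    (ha : 0 < a) :
    volume {z : E3 × E3 | a ≤ f t z.1 z.2} = volume {z : E3 × E3 | a ≤ f 0 z.1 z.2} := by
  have hT : (0 : ℝ) ∈ Ico 0 T := ⟨le_rfl, ht.1.trans_lt ht.2⟩
  set Ψ : ℕ → ℝ → ℝ := fun n y => Real.smoothTransition (((n : ℝ) + 1) * (y - a) / a + 1) with hΨ
  have hΨc : ∀ n, ContDiff ℝ 1 (Ψ n) := by
    intro n
    refine Real.smoothTransition.contDiff.comp ?_
    fun_prop
  have hΨ0 : ∀ n, ∀ y ≤ (0 : ℝ), Ψ n y = 0 := by
    intro n y hy
    refine Real.smoothTransition.zero_of_nonpos ?_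
    have h1 : ((n : ℝ) + 1) * (y - a) / a ≤ -1 := by
      rw [div_le_iff₀ ha]
      have h2 : (0 : ℝ) ≤ n := Nat.cast_nonneg n
      nlinarith
    linarith
  have hlim : ∀ y, Tendsto (fun n => Ψ n y) atTop (𝓝 ((Ici a).indicator (fun _ => (1 : ℝ)) y)) := by
    intro y
    by_cases hy : a ≤ y
    · rw [indicator_of_mem (show y ∈ Ici a from hy)]
      have : ∀ n, Ψ n y = 1 := by
        intro n
        refine Real.smoothTransition.one_of_one_le ?_
        have h1 : 0 ≤ ((n : ℝ) + 1) * (y - a) / a := by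
          have : 0 ≤ y - a := by linarith
          positivity
        linarith
      simp [this]
    · rw [indicator_of_notMem (show y ∉ Ici a from hy)]
      push Not at hy
      have h1 : ∀ᶠ n : ℕ in atTop, a / (a - y) ≤ (n : ℝ) :=
        tendsto_natCast_atTop_atTop.eventually_ge_atTop _
      refine tendsto_const_nhds.congr' ?_
      filter_upwards [h1] with n hn
      symm
      refine Real.smoothTransition.zero_of_nonpos ?_
      have h2 : 0 < a - y := by linarith
      rw [div_le_iff₀ h2] at hn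
      have h3 : ((n : ℝ) + 1) * (y - a) / a ≤ -1 := by
        rw [div_le_iff₀ ha]
        nlinarith
      linarith
  have hbound : ∀ s ∈ Ico 0 T, Tendsto (fun n => ∫ z : E3 × E3, Ψ n (f s z.1 z.2)) atTop
      (𝓝 (volume.real {z : E3 × E3 | a ≤ f s z.1 z.2})) := by
    intro s hs
    have := isAddHaar_prod
    obtain ⟨R, hR⟩ := h.exists_support hs
    have hR' := hR s ⟨hs.1, le_rfl⟩
    set K : Set (E3 × E3) := Metric.closedBall (0 : E3) R ×ˢ Metric.closedBall (0 : E3) R with hK
    have hKc : IsCompact K := isCompact_KR R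
    have hfc : Continuous fun z : E3 × E3 => f s z.1 z.2 := (h.f_slice hs).continuous
    have hms : MeasurableSet {z : E3 × E3 | a ≤ f s z.1 z.2} :=
      (isClosed_le continuous_const hfc).measurableSet
    have h1 : volume.real {z : E3 × E3 | a ≤ f s z.1 z.2}
        = ∫ z : E3 × E3, (Ici a).indicator (fun _ => (1 : ℝ)) (f s z.1 z.2) := by
      rw [← integral_indicator_one hms]
      rfl
    rw [h1]
    refine tendsto_integral_of_dominated_convergence (K.indicator fun _ => (1 : ℝ)) ?_ ?_ ?_ ?_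
    · intro n
      exact ((hΨc n).continuous.comp hfc).aestronglyMeasurable
    · rw [integrable_indicator_iff hKc.measurableSet]
      exact integrableOn_const hKc.measure_ne_top
    · intro n
      refine ae_of_all _ fun z => ?_
      by_cases hz : z ∈ K
      · rw [indicator_of_mem hz, Real.norm_eq_abs, abs_of_nonneg (Real.smoothTransition.nonneg _)]
        exact Real.smoothTransition.le_one _
      · rw [indicator_of_notMem hz, hR' z hz, hΨ0 n 0 le_rfl, norm_zero]
    · exact ae_of_all _ fun z => hlim _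
  have heq : volume.real {z : E3 × E3 | a ≤ f t z.1 z.2}
      = volume.real {z : E3 × E3 | a ≤ f 0 z.1 z.2} := by
    refine tendsto_nhds_unique (hbound t ht) ?_
    refine (hbound 0 hT).congr fun n => ?_
    exact (casimir_smooth h (hΨc n) (hΨ0 n 0 le_rfl) ht).symm
  have hfin : ∀ s ∈ Ico 0 T, volume {z : E3 × E3 | a ≤ f s z.1 z.2} ≠ ⊤ := by
    intro s hs
    have := isAddHaar_prod
    obtain ⟨R, hR⟩ := h.exists_support hs
    have hsub : {z : E3 × E3 | a ≤ f s z.1 z.2}
        ⊆ Metric.closedBall (0 : E3) R ×ˢ Metric.closedBall (0 : E3) R := by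
      intro z hz
      by_contra hz'
      have h1 : a ≤ f s z.1 z.2 := hz
      rw [hR s ⟨hs.1, le_rfl⟩ z hz'] at h1
      linarith
    exact ((measure_mono hsub).trans_lt (isCompact_KR R).measure_lt_top).ne
  exact (ENNReal.toReal_eq_toReal_iff' (hfin t ht) (hfin 0 hT)).1 heq

/-- The density at time `t` and the initial density have the same distribution on `(0,∞)`. -/
lemma map_restrict_eq (h : IsClassicalSolution T f E B) {t : ℝ} (ht : t ∈ Ico 0 T) :
    (Measure.map (fun z : E3 × E3 => f t z.1 z.2) volume).restrict (Ioi 0)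
      = (Measure.map (fun z : E3 × E3 => f 0 z.1 z.2) volume).restrict (Ioi 0) := by
  have hT : (0 : ℝ) ∈ Ico 0 T := ⟨le_rfl, ht.1.trans_lt ht.2⟩
  have hme : ∀ s ∈ Ico 0 T, Measurable fun z : E3 × E3 => f s z.1 z.2 := fun s hs =>
    (h.f_slice hs).continuous.measurable
  have hpos : ∀ s ∈ Ico 0 T, ∀ a, 0 < a →
      (Measure.map (fun z : E3 × E3 => f s z.1 z.2) volume).restrict (Ioi 0) (Ici a)
        = volume {z : E3 × E3 | a ≤ f s z.1 z.2} := by
    intro s hs a ha
    rw [Measure.restrict_apply measurableSet_Ici, inter_eq_left.2 (Ici_subset_Ioi.2 ha),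
      Measure.map_apply (hme s hs) measurableSet_Ici]
    rfl
  have hbig : ∀ s ∈ Ico 0 T, ∀ a, a ≤ 0 →
      (Measure.map (fun z : E3 × E3 => f s z.1 z.2) volume).restrict (Ioi 0) (Ici a)
        = ⨆ n : ℕ, (Measure.map (fun z : E3 × E3 => f s z.1 z.2) volume).restrict (Ioi 0)
            (Ici (1 / ((n : ℝ) + 1))) := by
    intro s hs a ha
    set ν := Measure.map (fun z : E3 × E3 => f s z.1 z.2) volume with hν
    have h1 : ν.restrict (Ioi 0) (Ici a) = ν.restrict (Ioi 0) (Ioi 0) := by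
      rw [Measure.restrict_apply measurableSet_Ici, Measure.restrict_apply measurableSet_Ioi,
        inter_self, inter_eq_right.2]
      intro y hy
      exact ha.trans (le_of_lt hy)
    have h2 : (Ioi (0 : ℝ)) = ⋃ n : ℕ, Ici (1 / ((n : ℝ) + 1)) := by
      ext y
      simp only [mem_Ioi, mem_iUnion, mem_Ici]
      constructor
      · intro hy
        obtain ⟨n, hn⟩ := exists_nat_one_div_lt hy
        exact ⟨n, hn.le⟩
      · rintro ⟨n, hn⟩
        exact lt_of_lt_of_le (by positivity) hn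
    rw [h1]
    conv_lhs => rw [h2]
    have h3 : Monotone fun n : ℕ => Ici (1 / ((n : ℝ) + 1)) := by
      intro m n hmn
      refine Ici_subset_Ici.2 ?_
      exact one_div_le_one_div_of_le (by positivity) (by gcongr)
    have h4 : (⋃ n : ℕ, Ici (1 / ((n : ℝ) + 1))) = Ioi (0 : ℝ) := h2.symm
    rw [h3.measure_iUnion, h4]
  have hfin : IsFiniteMeasure
      ((Measure.map (fun z : E3 × E3 => f t z.1 z.2) volume).restrict (Ioi 0)) := by
    have := isAddHaar_prod
    obtain ⟨R, hR⟩ := h.exists_support ht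
    refine ⟨?_⟩
    rw [Measure.restrict_apply_univ, Measure.map_apply (hme t ht) measurableSet_Ioi]
    have hsub : (fun z : E3 × E3 => f t z.1 z.2) ⁻¹' Ioi 0
        ⊆ Metric.closedBall (0 : E3) R ×ˢ Metric.closedBall (0 : E3) R := by
      intro z hz
      by_contra hz'
      have h1 : 0 < f t z.1 z.2 := hz
      rw [hR t ⟨ht.1, le_rfl⟩ z hz'] at h1
      exact lt_irrefl _ h1
    exact (measure_mono hsub).trans_lt (isCompact_KR R).measure_lt_top
  refine Measure.ext_of_Ici _ _ fun a => ?_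
  rcases lt_or_ge 0 a with ha | ha
  · rw [hpos t ht a ha, hpos 0 hT a ha]
    exact measure_superlevel h ht ha
  · rw [hbig t ht a ha, hbig 0 hT a ha]
    refine iSup_congr fun n => ?_
    have hn : (0 : ℝ) < 1 / ((n : ℝ) + 1) := by positivity
    rw [hpos t ht _ hn, hpos 0 hT _ hn]
    exact measure_superlevel h ht hn

/-- **Conservation of all the Casimir functionals.** -/
theorem casimir (h : IsClassicalSolution T f E B) {t : ℝ} (ht : t ∈ Ico 0 T) {Φ : ℝ → ℝ≥0∞}
    (hΦ : Measurable Φ) (h0 : Φ 0 = 0) :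
    ∫⁻ z : E3 × E3, Φ (f t z.1 z.2) = ∫⁻ z : E3 × E3, Φ (f 0 z.1 z.2) := by
  have hT : (0 : ℝ) ∈ Ico 0 T := ⟨le_rfl, ht.1.trans_lt ht.2⟩
  have key : ∀ s ∈ Ico 0 T, ∫⁻ z : E3 × E3, Φ (f s z.1 z.2)
      = ∫⁻ y, Φ y ∂((Measure.map (fun z : E3 × E3 => f s z.1 z.2) volume).restrict (Ioi 0)) := by
    intro s hs
    have hme : Measurable fun z : E3 × E3 => f s z.1 z.2 := (h.f_slice hs).continuous.measurable
    rw [setLIntegral_map measurableSet_Ioi hΦ hme, ← lintegral_indicator
      (hme measurableSet_Ioi)]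
    refine lintegral_congr fun z => ?_
    by_cases hz : z ∈ (fun z : E3 × E3 => f s z.1 z.2) ⁻¹' Ioi 0
    · rw [indicator_of_mem hz]
    · rw [indicator_of_notMem hz]
      have h1 : f s z.1 z.2 ≤ 0 := not_lt.1 hz
      have h2 : f s z.1 z.2 = 0 := le_antisymm h1 (h.f_nonneg s hs _ _)
      rw [h2, h0]
  rw [key t ht, key 0 hT, map_restrict_eq h ht]

end Vale.Agent.P107.H706
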