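import Vale.Agent.P107.H706.Defs

/-!
Time reversal and time translation of classical solutions of the relativistic Vlasov-Maxwell system.
-/

open MeasureTheory Set Filter Topology
open scoped ContDiff

namespace Vale.Agent.P107.RVM.H706

/-- The equations hold at time `t`. -/
structure SolvesAt (t : ℝ) (f : ℝ → V3 → V3 → ℝ) (E B : ℝ → V3 → V3) : Prop where
  vlasov : ∀ x v,
    deriv (fun s => f s x v) t + ∑ i, u v i * pd i (fun y => f t y v) x
      + ∑ i, (E t x i + cross (u v) (B t x) i) * pd i (fun w => f t x w) v = 0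
  ampere : ∀ x i, deriv (fun s => E s x i) t - curl (B t) x i = - cur f t x i
  faraday : ∀ x i, deriv (fun s => B s x i) t + curl (E t) x i = 0
  gauss : ∀ x, div (E t) x = rho f t x
  gauss_mag : ∀ x, div (B t) x = 0

/-- The reversed density. -/
def revf (f : ℝ → V3 → V3 → ℝ) (t : ℝ) (x v : V3) : ℝ := f (-t) x (-v)

/-- The reversed electric field. -/
def revE (E : ℝ → V3 → V3) (t : ℝ) (x : V3) : V3 := E (-t) x

/-- The reversed magnetic field. -/
def revB (B : ℝ → V3 → V3) (t : ℝ) (x : V3) : V3 := - B (-t) x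

lemma len_neg (v : V3) : len (-v) = len v := by
  unfold RVM.len
  simp

lemma q_neg (v : V3) : q (-v) = q v := by
  unfold RVM.q
  rw [len_neg]

lemma u_neg (v : V3) : u (-v) = - u v := by
  funext i
  unfold RVM.u
  rw [q_neg]
  simp [neg_div]

lemma cross_neg_right (a b : V3) : cross a (-b) = - cross a b := by
  funext i
  unfold RVM.cross
  simp
  ring

lemma cross_neg_left (a b : V3) : cross (-a) b = - cross a b := by
  funext i
  unfold RVM.cross
  simp
  ring

lemma pd_neg (i : Fin 3) (g : V3 → ℝ) (x : V3) : pd i (fun y => - g y) x = - pd i g x := by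
  unfold RVM.pd
  rw [fderiv_fun_neg]
  simp

lemma pd_comp_neg (i : Fin 3) (g : V3 → ℝ) (v : V3) :
    pd i (fun w => g (-w)) v = - pd i g (-v) := by
  unfold RVM.pd
  have h1 := (ContinuousLinearEquiv.neg ℝ (M := V3)).comp_right_fderiv (f := g) (x := v)
  have h2 : fderiv ℝ (fun w => g (-w)) v
      = (fderiv ℝ g (-v)).comp ((ContinuousLinearEquiv.neg ℝ (M := V3)) : V3 →L[ℝ] V3) := h1
  rw [h2]
  simp

lemma curl_neg (F : V3 → V3) (x : V3) (i : Fin 3) :
    curl (fun y => - F y) x i = - curl F x i := by
  unfold RVM.curl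
  simp only [Pi.neg_apply]
  rw [pd_neg, pd_neg]
  ring

lemma div_neg (F : V3 → V3) (x : V3) : div (fun y => - F y) x = - div F x := by
  unfold RVM.div
  simp only [Pi.neg_apply]
  rw [← Finset.sum_neg_distrib]
  exact Finset.sum_congr rfl fun i _ => pd_neg i _ x

lemma rho_rev (f : ℝ → V3 → V3 → ℝ) (t : ℝ) (x : V3) : rho (revf f) t x = rho f (-t) x := by
  unfold RVM.rho revf
  exact integral_neg_eq_self (fun v => f (-t) x v) volume

lemma cur_rev (f : ℝ → V3 → V3 → ℝ) (t : ℝ) (x : V3) (i : Fin 3) :
    cur (revf f) t x i = - cur f (-t) x i := by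
  unfold RVM.cur revf
  have h1 : ∀ v : V3, u v i * f (-t) x (-v) = - (u (-v) i * f (-t) x (-v)) := by
    intro v
    rw [u_neg]
    simp
  simp only [h1]
  rw [integral_neg]
  congr 1
  exact integral_neg_eq_self (fun v => u v i * f (-t) x v) volume

/-- Time reversal of the equations at one time. -/
lemma SolvesAt.reverse {t : ℝ} {f : ℝ → V3 → V3 → ℝ} {E B : ℝ → V3 → V3}
    (h : SolvesAt (-t) f E B) : SolvesAt t (revf f) (revE E) (revB B) := by
  refine ⟨fun x v => ?_, fun x i => ?_, fun x i => ?_, fun x => ?_, fun x => ?_⟩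
  · have h1 := h.vlasov x (-v)
    have e1 : deriv (fun s => revf f s x v) t = - deriv (fun s => f s x (-v)) (-t) := by
      unfold revf
      exact deriv_comp_neg (fun s => f s x (-v)) t
    have e2 : ∀ i, u v i * pd i (fun y => revf f t y v) x
        = - (u (-v) i * pd i (fun y => f (-t) y (-v)) x) := by
      intro i
      rw [u_neg]
      simp [revf]
    have e3 : ∀ i, (revE E t x i + cross (u v) (revB B t x) i)
        * pd i (fun w => revf f t x w) v
        = - ((E (-t) x i + cross (u (-v)) (B (-t) x) i)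
          * pd i (fun w => f (-t) x w) (-v)) := by
      intro i
      have a1 : pd i (fun w => revf f t x w) v = - pd i (fun w => f (-t) x w) (-v) :=
        pd_comp_neg i (fun w => f (-t) x w) v
      rw [a1, u_neg, cross_neg_left]
      unfold revE revB
      rw [cross_neg_right]
      ring
    rw [e1]
    simp only [e2, e3, Finset.sum_neg_distrib]
    linarith
  · have h1 := h.ampere x i
    have e1 : deriv (fun s => revE E s x i) t = - deriv (fun s => E s x i) (-t) := by
      unfold revE
      exact deriv_comp_neg (fun s => E s x i) t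
    have e2 : curl (revB B t) x i = - curl (B (-t)) x i := curl_neg (B (-t)) x i
    rw [e1, e2, cur_rev]
    linarith
  · have h1 := h.faraday x i
    have e1 : deriv (fun s => revB B s x i) t = deriv (fun s => B s x i) (-t) := by
      unfold revB
      have h2 : (fun s => (- B (-s) x) i) = fun s => -(B (-s) x i) := by
        funext s
        simp
      have h3 : deriv (fun s => B (-s) x i) t = - deriv (fun s => B s x i) (-t) :=
        deriv_comp_neg (fun s => B s x i) t
      rw [h2, deriv.fun_neg, h3, neg_neg]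
    have e2 : curl (revE E t) x i = curl (E (-t)) x i := rfl
    rw [e1, e2]
    exact h1
  · rw [rho_rev]
    exact h.gauss x
  · have e1 : div (revB B t) x = - div (B (-t)) x := div_neg (B (-t)) x
    rw [e1, h.gauss_mag x, neg_zero]

/-- Time translation of the equations at one time. -/
lemma SolvesAt.translate {t a : ℝ} {f : ℝ → V3 → V3 → ℝ} {E B : ℝ → V3 → V3}
    (h : SolvesAt (t + a) f E B) :
    SolvesAt t (fun s => f (s + a)) (fun s => E (s + a)) (fun s => B (s + a)) := by
  refine ⟨fun x v => ?_, fun x i => ?_, fun x i => ?_, fun x => ?_, fun x => ?_⟩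
  · have h1 := h.vlasov x v
    rw [deriv_comp_add_const (fun s => f s x v) a t]
    exact h1
  · have h1 := h.ampere x i
    rw [deriv_comp_add_const (fun s => E s x i) a t]
    exact h1
  · have h1 := h.faraday x i
    rw [deriv_comp_add_const (fun s => B s x i) a t]
    exact h1
  · exact h.gauss x
  · exact h.gauss_mag x

/-- The equations at one time depend only on the germs in time. -/
lemma SolvesAt.congr {t : ℝ} {f g : ℝ → V3 → V3 → ℝ} {E B E' B' : ℝ → V3 → V3}
    (h : SolvesAt t f E B) (hf : ∀ᶠ s in 𝓝 t, g s = f s) (hE : ∀ᶠ s in 𝓝 t, E' s = E s)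
    (hB : ∀ᶠ s in 𝓝 t, B' s = B s) : SolvesAt t g E' B' := by
  have f0 : g t = f t := hf.self_of_nhds
  have E0 : E' t = E t := hE.self_of_nhds
  have B0 : B' t = B t := hB.self_of_nhds
  have dE : ∀ x i, deriv (fun s => E' s x i) t = deriv (fun s => E s x i) t := fun x i =>
    Filter.EventuallyEq.deriv_eq (hE.mono fun s hs => by simp only [hs])
  have dB : ∀ x i, deriv (fun s => B' s x i) t = deriv (fun s => B s x i) t := fun x i =>
    Filter.EventuallyEq.deriv_eq (hB.mono fun s hs => by simp only [hs])
  have df : ∀ x v, deriv (fun s => g s x v) t = deriv (fun s => f s x v) t := fun x v =>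
    Filter.EventuallyEq.deriv_eq (hf.mono fun s hs => by simp only [hs])
  refine ⟨fun x v => ?_, fun x i => ?_, fun x i => ?_, fun x => ?_, fun x => ?_⟩
  · rw [df, f0, E0, B0]
    exact h.vlasov x v
  · rw [dE, B0]
    have : cur g t x i = cur f t x i := by
      unfold RVM.cur
      rw [f0]
    rw [this]
    exact h.ampere x i
  · rw [dB, E0]
    exact h.faraday x i
  · rw [E0]
    have : rho g t x = rho f t x := by
      unfold RVM.rho
      rw [f0]
    rw [this]
    exact h.gauss x
  · rw [B0]
    exact h.gauss_mag x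

/-- A classical solution solves the equations at every interior time. -/
lemma solvesAt_of_classical {T t : ℝ} {f : ℝ → V3 → V3 → ℝ} {E B : ℝ → V3 → V3}
    (h : IsClassicalSolution T f E B) (ht : t ∈ Ioo 0 T) : SolvesAt t f E B := by
  have ht' : t ∈ Ico 0 T := Ioo_subset_Ico_self ht
  have hn : Ico 0 T ∈ 𝓝 t := Ico_mem_nhds ht.1 ht.2
  refine ⟨fun x v => ?_, fun x i => ?_, fun x i => ?_, h.gauss t ht', h.gauss_mag t ht'⟩
  · have := h.vlasov t ht' x v
    rwa [derivWithin_of_mem_nhds hn] at this
  · have := h.ampere t ht' x i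
    rwa [derivWithin_of_mem_nhds hn] at this
  · have := h.faraday t ht' x i
    rwa [derivWithin_of_mem_nhds hn] at this

variable {f : ℝ → V3 → V3 → ℝ} {E B : ℝ → V3 → V3}

lemma _root_.Vale.Agent.P107.RVM.IsEternalSolution.solvesAt (h : IsEternalSolution f E B)
    (t : ℝ) : SolvesAt t f E B :=
  ⟨h.vlasov t, h.ampere t, h.faraday t, h.gauss t, h.gauss_mag t⟩

/-- Time reversal of a solution on the whole time axis. -/
lemma _root_.Vale.Agent.P107.RVM.IsEternalSolution.reverse (h : IsEternalSolution f E B) :
    IsEternalSolution (revf f) (revE E) (revB B) := by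
  have hs : ∀ t, SolvesAt t (revf f) (revE E) (revB B) := fun t => (h.solvesAt (-t)).reverse
  refine
    { f_nonneg := fun t x v => h.f_nonneg _ _ _
      f_c1 := ?_
      E_c1 := ?_
      B_c1 := ?_
      E_l2 := fun t => h.E_l2 (-t)
      B_l2 := fun t => (h.B_l2 (-t)).neg
      E_cont := fun t => ?_
      B_cont := fun t => ?_
      vlasov := fun t => (hs t).vlasov
      ampere := fun t => (hs t).ampere
      faraday := fun t => (hs t).faraday
      gauss := fun t => (hs t).gauss
      gauss_mag := fun t => (hs t).gauss_mag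
      compact_support := fun T => ?_ }
  · have h1 : ContDiff ℝ 1 fun z : ℝ × V3 × V3 => (-z.1, z.2.1, -z.2.2) := by fun_prop
    exact h.f_c1.comp h1
  · have h1 : ContDiff ℝ 1 fun z : ℝ × V3 => (-z.1, z.2) := by fun_prop
    exact h.E_c1.comp h1
  · have h1 : ContDiff ℝ 1 fun z : ℝ × V3 => (-z.1, z.2) := by fun_prop
    exact (h.B_c1.comp h1).neg
  · have h1 : Tendsto (fun s : ℝ => -s) (𝓝 t) (𝓝 (-t)) := (continuous_neg.tendsto t)
    exact (h.E_cont (-t)).comp h1
  · have h1 : Tendsto (fun s : ℝ => -s) (𝓝 t) (𝓝 (-t)) := (continuous_neg.tendsto t)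
    have h2 := (h.B_cont (-t)).comp h1
    refine h2.congr fun s => ?_
    show eLpNorm (fun x => B (-s) x - B (-t) x) 2 volume
      = eLpNorm (fun x => - B (-s) x - - B (-t) x) 2 volume
    have : (fun x => - B (-s) x - - B (-t) x) = -(fun x => B (-s) x - B (-t) x) := by
      funext x
      simp [sub_eq_add_neg, add_comm]
    rw [this, eLpNorm_neg]
  · obtain ⟨R, hR⟩ := h.compact_support T
    refine ⟨R, fun t x v ht hne => ?_⟩
    have h1 := hR (-t) x (-v) (by rwa [abs_neg]) hne
    rwa [len_neg] at h1

/-- Time translation of a solution on the whole time axis. -/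
lemma _root_.Vale.Agent.P107.RVM.IsEternalSolution.translate (h : IsEternalSolution f E B)
    (a : ℝ) :
    IsEternalSolution (fun s => f (s + a)) (fun s => E (s + a)) (fun s => B (s + a)) := by
  have hs : ∀ t, SolvesAt t (fun s => f (s + a)) (fun s => E (s + a)) (fun s => B (s + a)) :=
    fun t => (h.solvesAt (t + a)).translate
  have hc : ∀ t, Tendsto (fun s : ℝ => s + a) (𝓝 t) (𝓝 (t + a)) := fun t =>
    (continuous_add_const a).tendsto t
  refine
    { f_nonneg := fun t x v => h.f_nonneg _ _ _
      f_c1 := ?_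
      E_c1 := ?_
      B_c1 := ?_
      E_l2 := fun t => h.E_l2 (t + a)
      B_l2 := fun t => h.B_l2 (t + a)
      E_cont := fun t => (h.E_cont (t + a)).comp (hc t)
      B_cont := fun t => (h.B_cont (t + a)).comp (hc t)
      vlasov := fun t => (hs t).vlasov
      ampere := fun t => (hs t).ampere
      faraday := fun t => (hs t).faraday
      gauss := fun t => (hs t).gauss
      gauss_mag := fun t => (hs t).gauss_mag
      compact_support := fun T => ?_ }
  · have h1 : ContDiff ℝ 1 fun z : ℝ × V3 × V3 => (z.1 + a, z.2.1, z.2.2) := by fun_prop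
    exact h.f_c1.comp h1
  · have h1 : ContDiff ℝ 1 fun z : ℝ × V3 => (z.1 + a, z.2) := by fun_prop
    exact h.E_c1.comp h1
  · have h1 : ContDiff ℝ 1 fun z : ℝ × V3 => (z.1 + a, z.2) := by fun_prop
    exact h.B_c1.comp h1
  · obtain ⟨R, hR⟩ := h.compact_support (T + |a|)
    refine ⟨R, fun t x v ht hne => ?_⟩
    exact hR (t + a) x v ((abs_add_le t a).trans (by linarith)) hne

/-- The restriction of a solution on the whole time axis is a classical solution. -/
lemma _root_.Vale.Agent.P107.RVM.IsEternalSolution.classical (h : IsEternalSolution f E B)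
    (T : ℝ) : IsClassicalSolution T f E B := by
  have hud : ∀ t ∈ Ico 0 T, UniqueDiffWithinAt ℝ (Ico 0 T) t := fun t ht =>
    uniqueDiffOn_Ico 0 T t ht
  have hfd : ∀ t x v, DifferentiableAt ℝ (fun s => f s x v) t := by
    intro t x v
    have h1 : ContDiff ℝ 1 fun s : ℝ => f s x v :=
      h.f_c1.comp (f := fun s : ℝ => (s, x, v)) (by fun_prop)
    exact (h1.differentiable (by norm_num)) t
  have hEd : ∀ t x i, DifferentiableAt ℝ (fun s => E s x i) t := by
    intro t x i
    have h1 : ContDiff ℝ 1 fun s : ℝ => E s x :=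
      h.E_c1.comp (f := fun s : ℝ => (s, x)) (by fun_prop)
    exact differentiableAt_pi.1 ((h1.differentiable (by norm_num)) t) i
  have hBd : ∀ t x i, DifferentiableAt ℝ (fun s => B s x i) t := by
    intro t x i
    have h1 : ContDiff ℝ 1 fun s : ℝ => B s x :=
      h.B_c1.comp (f := fun s : ℝ => (s, x)) (by fun_prop)
    exact differentiableAt_pi.1 ((h1.differentiable (by norm_num)) t) i
  refine
    { f_nonneg := fun t _ x v => h.f_nonneg t x v
      f_c1 := h.f_c1.contDiffOn
      E_field := ⟨h.E_c1.contDiffOn, fun t _ => h.E_l2 t,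
        fun t _ => (h.E_cont t).mono_left nhdsWithin_le_nhds⟩
      B_field := ⟨h.B_c1.contDiffOn, fun t _ => h.B_l2 t,
        fun t _ => (h.B_cont t).mono_left nhdsWithin_le_nhds⟩
      vlasov := fun t ht x v => ?_
      ampere := fun t ht x i => ?_
      faraday := fun t ht x i => ?_
      gauss := fun t _ x => h.gauss t x
      gauss_mag := fun t _ x => h.gauss_mag t x
      compact_support := fun t ht => ?_ }
  · rw [(hfd t x v).derivWithin (hud t ht)]
    exact h.vlasov t x v
  · rw [(hEd t x i).derivWithin (hud t ht)]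
    exact h.ampere t x i
  · rw [(hBd t x i).derivWithin (hud t ht)]
    exact h.faraday t x i
  · obtain ⟨R, hR⟩ := h.compact_support t
    refine ⟨R, fun s hs x v hne => hR s x v ?_ hne⟩
    rw [abs_of_nonneg hs.1]
    exact hs.2

end Vale.Agent.P107.RVM.H706
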