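import Vale.Agent.P107.H706.Symm
import Vale.Agent.P107.Bdl.B4

/-!
Conservation of the total energy.
-/

open MeasureTheory Set Filter Topology
open scoped ContDiff

namespace Vale.Agent.P107.RVM.H706

variable {T : ℝ} {f : ℝ → V3 → V3 → ℝ} {E B : ℝ → V3 → V3}

/-- Integrals over the phase space in coordinates. -/
lemma integral_prod_coo {g : V3 → V3 → ℝ}
    (hg : Integrable fun z : E3 × E3 => g (coo z.1) (coo z.2)) :
    ∫ z : E3 × E3, g (coo z.1) (coo z.2) = ∫ x, ∫ v, g x v := by
  rw [Measure.volume_eq_prod] at hg ⊢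
  rw [integral_prod _ hg]
  have h1 : ∀ x : E3, (∫ v : E3, g (coo x) (coo v)) = ∫ v, g (coo x) v := fun x =>
    integral_coo (fun v => g (coo x) v)
  simp only [h1]
  exact integral_coo (fun x => ∫ v, g x v)

/-- The kinetic energy in coordinates. -/
lemma kin_ff (h : IsClassicalSolution T f E B) {t : ℝ} (ht : t ∈ Ico 0 T) :
    kin (ff f) t = ∫ x, ∫ v, q v * f t x v := by
  have hs := isClassicalSolution_ff h
  have := isAddHaar_prod
  have hc : Continuous fun z : E3 × E3 => P107.q z.2 * ff f t z.1 z.2 :=
    (continuous_q.comp continuous_snd).mul (hs.f_slice ht).continuous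
  have hi : Integrable fun z : E3 × E3 => P107.q z.2 * ff f t z.1 z.2 :=
    hc.integrable_of_hasCompactSupport (HasCompactSupport.mul_left (hs.hasCompactSupport ht))
  have h1 : (fun z : E3 × E3 => P107.q z.2 * ff f t z.1 z.2)
      = fun z : E3 × E3 => q (coo z.2) * f t (coo z.1) (coo z.2) := by
    funext z
    rw [q_coo]
    rfl
  rw [h1] at hi
  unfold kin
  rw [h1]
  exact integral_prod_coo (g := fun x v => q v * f t x v) hi

/-- The field energy in coordinates. -/
lemma field_energy_ff (E B : ℝ → V3 → V3) (t : ℝ) :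
    ∫ x, (‖FF E t x‖ ^ 2 + ‖FF B t x‖ ^ 2) / 2
      = (∫ x, (len (E t x) ^ 2 + len (B t x) ^ 2)) / 2 := by
  rw [← integral_div, ← integral_coo]
  refine integral_congr_ae (ae_of_all _ fun x => ?_)
  simp only [← len_coo, coo_FF]

lemma totalEnergy_ff (h : IsClassicalSolution T f E B) {t : ℝ} (ht : t ∈ Ico 0 T) :
    totalEnergy f E B t
      = (∫ x, (‖FF E t x‖ ^ 2 + ‖FF B t x‖ ^ 2) / 2) + kin (ff f) t := by
  rw [kin_ff h ht, field_energy_ff, add_comm]
  rfl

/-- The total energy of a classical solution does not exceed its initial value. -/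
lemma totalEnergy_le (h : IsClassicalSolution T f E B) {t : ℝ} (ht : t ∈ Ico 0 T) :
    totalEnergy f E B t ≤ totalEnergy f E B 0 := by
  have hs := isClassicalSolution_ff h
  have h0 : (0 : ℝ) ∈ Ico 0 T := ⟨le_rfl, ht.1.trans_lt ht.2⟩
  have h1 := hs.energy_le ht
  have hint : Integrable fun x : E3 => (‖FF E t x‖ ^ 2 + ‖FF B t x‖ ^ 2) / 2 :=
    ((integrable_norm_sq (hs.E_memLp t ht)).add (integrable_norm_sq (hs.B_memLp t ht))).div_const 2
  have hn : ∀ s : ℝ, 0 ≤ ∫ x, (‖FF E s x‖ ^ 2 + ‖FF B s x‖ ^ 2) / 2 := fun s =>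
    integral_nonneg fun x => by positivity
  unfold energy0 at h1
  rw [← ofReal_integral_eq_lintegral_ofReal hint (ae_of_all _ fun x => by positivity),
    ← ENNReal.ofReal_add (hn t) (hs.kin_nonneg ht),
    ENNReal.ofReal_le_ofReal_iff (add_nonneg (hn 0) (hs.kin_nonneg h0))] at h1
  rw [totalEnergy_ff h ht, totalEnergy_ff h h0]
  exact h1

lemma totalEnergy_reverse (f : ℝ → V3 → V3 → ℝ) (E B : ℝ → V3 → V3) (t : ℝ) :
    totalEnergy (revf f) (revE E) (revB B) t = totalEnergy f E B (-t) := by
  unfold totalEnergy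
  congr 1
  · refine integral_congr_ae (ae_of_all _ fun x => ?_)
    have h1 : ∀ v : V3, q v * revf f t x v = (fun w => q w * f (-t) x w) (-v) := by
      intro v
      simp only [revf, q_neg]
    simp only [h1]
    exact integral_neg_eq_self (fun w => q w * f (-t) x w) volume
  · simp only [revE, revB, len_neg]

lemma totalEnergy_antitone (h : IsEternalSolution f E B) {a b : ℝ} (hab : a ≤ b) :
    totalEnergy f E B b ≤ totalEnergy f E B a := by
  have h1 := totalEnergy_le ((h.translate a).classical (b - a + 1)) (t := b - a)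
    ⟨by linarith, by linarith⟩
  have e1 : totalEnergy (fun s => f (s + a)) (fun s => E (s + a)) (fun s => B (s + a)) (b - a)
      = totalEnergy f E B b := by
    unfold totalEnergy
    simp only [sub_add_cancel]
  have e2 : totalEnergy (fun s => f (s + a)) (fun s => E (s + a)) (fun s => B (s + a)) 0
      = totalEnergy f E B a := by
    unfold totalEnergy
    simp only [zero_add]
  rwa [e1, e2] at h1

/-- **Conservation of the total energy.** -/
theorem totalEnergy_eq (h : IsEternalSolution f E B) (a b : ℝ) :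
    totalEnergy f E B a = totalEnergy f E B b := by
  have key : ∀ {a b : ℝ}, a ≤ b → totalEnergy f E B a = totalEnergy f E B b := by
    intro a b hab
    refine le_antisymm ?_ (totalEnergy_antitone h hab)
    have h1 := totalEnergy_antitone h.reverse (neg_le_neg hab)
    rwa [totalEnergy_reverse, totalEnergy_reverse, neg_neg, neg_neg] at h1
  rcases le_total a b with hab | hab
  · exact key hab
  · exact (key hab).symm

end Vale.Agent.P107.RVM.H706
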