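import Vale.Agent.P107.H706.Paste
import Vale.Agent.P107.H706.Symm
import Vale.Agent.P107.H15.Main

/-!
Existence and uniqueness of classical solutions on the whole time axis.
-/

open MeasureTheory Set Filter Topology
open scoped ContDiff

namespace Vale.Agent.P107.RVM.H706

/-! ### The reversed datum -/

lemma foldr_pd_neg (s : List (Fin 3)) (g : V3 → ℝ) :
    s.foldr pd (fun y => - g y) = fun y => - s.foldr pd g y := by
  induction s with
  | nil => rfl
  | cons k s ih =>
    rw [List.foldr_cons, List.foldr_cons, ih]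
    funext x
    exact pd_neg k _ x

lemma isDataField_neg {F : V3 → V3} (h : IsDataField F) : IsDataField (fun x => - F x) := by
  refine ⟨fun i => (h.smooth i).neg, fun i s => ?_, h.mem_l2.neg⟩
  obtain ⟨C, hC⟩ := h.bounded i s
  refine ⟨C, fun x => ?_⟩
  have h1 : s.foldr pd (fun y => (- F y) i) x = - s.foldr pd (fun y => F y i) x :=
    congrFun (foldr_pd_neg s fun y => F y i) x
  rw [h1, abs_neg]
  exact hC x

lemma isAdmissible_reverse {f₀ : V3 → V3 → ℝ} {E₀ B₀ : V3 → V3} (h : IsAdmissible f₀ E₀ B₀) :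
    IsAdmissible (fun x v => f₀ x (-v)) E₀ (fun x => - B₀ x) := by
  refine ⟨?_, ?_, fun x v => h.f_nonneg _ _, h.E_field, isDataField_neg h.B_field, fun x => ?_,
    fun x => ?_⟩
  · have h1 : ContDiff ℝ ∞ fun z : V3 × V3 => (z.1, -z.2) := by fun_prop
    exact h.f_smooth.comp h1
  · exact h.f_supp.comp_homeomorph ((Homeomorph.refl V3).prodCongr (Homeomorph.neg V3))
  · rw [h.gauss x]
    exact (integral_neg_eq_self (fun v => f₀ x v) volume).symm
  · rw [div_neg, h.gauss_mag x, neg_zero]

/-! ### Continuity in `L²` -/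

lemma nhdsWithin_Ici_eq (t : ℝ) : 𝓝[Ici 0] t = 𝓝[Ico 0 (t + 1)] t := by
  rw [← Ici_inter_Iio, nhdsWithin_inter_of_mem']
  exact mem_nhdsWithin_of_mem_nhds (Iio_mem_nhds (by linarith))

lemma field_tendsto {K : ℝ → V3 → V3} (h : ∀ T, 0 < T → IsField T K) {t : ℝ} (ht : 0 ≤ t) :
    Tendsto (fun s => eLpNorm (fun x => K s x - K t x) 2 volume) (𝓝[Ici 0] t) (𝓝 0) := by
  rw [nhdsWithin_Ici_eq t]
  exact (h (t + 1) (by linarith)).cont_l2 t ⟨ht, by linarith⟩

/-- The pasted field. -/
noncomputable def paste (F G : ℝ → V3 → V3) (t : ℝ) (x : V3) : V3 := if 0 ≤ t then F t x else G (-t) x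

lemma paste_of_nonneg (F G : ℝ → V3 → V3) {t : ℝ} (ht : 0 ≤ t) : paste F G t = F t := by
  funext x
  simp [paste, ht]

lemma paste_of_nonpos {F G : ℝ → V3 → V3} (h0 : F 0 = G 0) {t : ℝ} (ht : t ≤ 0) :
    paste F G t = G (-t) := by
  funext x
  rcases eq_or_lt_of_le ht with h | h
  · subst h
    simp [paste, h0]
  · simp [paste, not_le.2 h]

lemma paste_tendsto {F G : ℝ → V3 → V3} (hF : ∀ T, 0 < T → IsField T F)
    (hG : ∀ T, 0 < T → IsField T G) (h0 : F 0 = G 0) (t : ℝ) :
    Tendsto (fun s => eLpNorm (fun x => paste F G s x - paste F G t x) 2 volume) (𝓝 t)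
      (𝓝 0) := by
  have hr : ∀ t, 0 ≤ t → Tendsto
      (fun s => eLpNorm (fun x => paste F G s x - paste F G t x) 2 volume) (𝓝[Ici 0] t)
      (𝓝 0) := by
    intro t ht
    refine (field_tendsto hF ht).congr' ?_
    filter_upwards [self_mem_nhdsWithin] with s hs
    rw [paste_of_nonneg F G ht, paste_of_nonneg F G hs]
  have hl : ∀ t, t ≤ 0 → Tendsto
      (fun s => eLpNorm (fun x => paste F G s x - paste F G t x) 2 volume) (𝓝[Iic 0] t)
      (𝓝 0) := by
    intro t ht
    have h1 : Tendsto (fun s : ℝ => -s) (𝓝[Iic 0] t) (𝓝[Ici 0] (-t)) := by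
      refine tendsto_nhdsWithin_of_tendsto_nhds_of_eventually_within _
        ((continuous_neg.tendsto t).mono_left nhdsWithin_le_nhds) ?_
      filter_upwards [self_mem_nhdsWithin] with s hs
      have : s ≤ 0 := hs
      show (0 : ℝ) ≤ -s
      linarith
    refine ((field_tendsto hG (t := -t) (by linarith)).comp h1).congr' ?_
    filter_upwards [self_mem_nhdsWithin] with s hs
    rw [paste_of_nonpos h0 ht, paste_of_nonpos h0 hs]
    rfl
  rcases lt_trichotomy t 0 with ht | ht | ht
  · have := hl t ht.le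
    rwa [nhdsWithin_eq_nhds.2 (Iic_mem_nhds ht)] at this
  · subst ht
    have h1 := (hl 0 le_rfl).sup (hr 0 le_rfl)
    rwa [nhdsLE_sup_nhdsGE] at h1
  · have := hr t ht.le
    rwa [nhdsWithin_eq_nhds.2 (Ici_mem_nhds ht)] at this

lemma derivWithin_Ici_zero {Y : Type*} [NormedAddCommGroup Y] [NormedSpace ℝ Y] (g : ℝ → Y) :
    derivWithin g (Ici 0) 0 = derivWithin g (Ico 0 1) 0 := by
  refine derivWithin_congr_set ?_
  filter_upwards [Iio_mem_nhds (one_pos : (0 : ℝ) < 1)] with s hs
  have hs' : s < 1 := hs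
  apply propext
  constructor
  · intro h
    exact ⟨h, hs'⟩
  · intro h
    exact h.1

lemma field_derivWithin_apply {K : ℝ → V3 → V3}
    (h : ContDiffOn ℝ 1 (fun z : ℝ × V3 => K z.1 z.2) (Ico 0 1 ×ˢ univ)) (x : V3) (i : Fin 3) :
    derivWithin (fun s => K s x) (Ici 0) 0 i = derivWithin (fun s => K s x i) (Ico 0 1) 0 := by
  have h0 : (0 : ℝ) ∈ Ico (0 : ℝ) 1 := ⟨le_rfl, one_pos⟩
  have h2 : ContDiffOn ℝ 1 (fun s : ℝ => K s x) (Ico 0 1) :=
    h.comp (f := fun s : ℝ => (s, x)) (by fun_prop) (fun z hz => ⟨hz, mem_univ _⟩)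
  have h3 : DifferentiableWithinAt ℝ (fun s : ℝ => K s x) (Ico 0 1) 0 :=
    (h2.differentiableOn (by norm_num)) 0 h0
  rw [derivWithin_Ici_zero, derivWithin_pi (fun j => differentiableWithinAt_pi.1 h3 j)]

/-! ### Existence -/

theorem exists_eternal {f₀ : V3 → V3 → ℝ} {E₀ B₀ : V3 → V3} (h : IsAdmissible f₀ E₀ B₀) :
    ∃ (f : ℝ → V3 → V3 → ℝ) (E B : ℝ → V3 → V3), IsEternalSolution f E B ∧
      f 0 = f₀ ∧ E 0 = E₀ ∧ B 0 = B₀ := by
  obtain ⟨f1, E1, B1, hs1, hf1, hE1, hB1⟩ := RVM.globalExistence f₀ E₀ B₀ h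
  obtain ⟨f2, E2, B2, hs2, hf2, hE2, hB2⟩ := RVM.globalExistence _ _ _ (isAdmissible_reverse h)
  have hf1' : f1 0 = f₀ := funext fun x => funext fun v => hf1 x v
  have hE1' : E1 0 = E₀ := funext hE1
  have hB1' : B1 0 = B₀ := funext hB1
  have hf2' : f2 0 = fun x v => f₀ x (-v) := funext fun x => funext fun v => hf2 x v
  have hE2' : E2 0 = E₀ := funext hE2
  have hB2' : B2 0 = fun x => - B₀ x := funext hB2
  have t0 : (0 : ℝ) ∈ Ico (0 : ℝ) 1 := ⟨le_rfl, one_pos⟩
  set N : ℝ → V3 → V3 := fun s y => - B2 s y with hN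
  set f : ℝ → V3 → V3 → ℝ := fun t x v => if 0 ≤ t then f1 t x v else f2 (-t) x (-v) with hf
  set E : ℝ → V3 → V3 := paste E1 E2 with hE
  set B : ℝ → V3 → V3 := paste B1 N with hB
  have hNf : ∀ T, 0 < T → IsField T N := by
    intro T hT
    have hb := (hs2 T hT).B_field
    refine ⟨hb.c1.neg, fun t ht => (hb.mem_l2 t ht).neg, fun t ht => ?_⟩
    refine (hb.cont_l2 t ht).congr fun s => ?_
    have : (fun x => N s x - N t x) = -(fun x => B2 s x - B2 t x) := by
      funext x
      simp [hN, sub_eq_add_neg, add_comm]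
    rw [this, eLpNorm_neg]
  have hE0 : E1 0 = E2 0 := by rw [hE1', hE2']
  have hB0 : B1 0 = N 0 := by
    funext x
    simp [hN, hB1', hB2']
  -- regularity
  have cE : ContDiff ℝ 1 fun z : ℝ × V3 => E z.1 z.2 := by
    refine contDiff_paste (F := E1) (G := E2)
      (contDiffOn_Ici fun T hT => (hs1 T hT).E_field.c1)
      (contDiffOn_Ici fun T hT => (hs2 T hT).E_field.c1) (fun x => congrFun hE0 x)
      (fun x => ?_)
    funext i
    rw [Pi.neg_apply, field_derivWithin_apply (hs1 1 one_pos).E_field.c1,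
      field_derivWithin_apply (hs2 1 one_pos).E_field.c1]
    have a1 := (hs1 1 one_pos).ampere 0 t0 x i
    have a2 := (hs2 1 one_pos).ampere 0 t0 x i
    have c1 : curl (B2 0) x i = - curl (B1 0) x i := by
      rw [hB2', hB1']
      exact curl_neg B₀ x i
    have c2 : cur f2 0 x i = - cur f1 0 x i := by
      have e1 : f2 0 = revf (fun _ => f₀) 0 := by
        rw [hf2']
        rfl
      have e2 : cur f2 0 x i = cur (revf (fun _ => f₀)) 0 x i := by
        unfold RVM.cur
        rw [e1]
      have e3 : cur f1 0 x i = cur (fun _ => f₀) (-0) x i := by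
        unfold RVM.cur
        rw [hf1']
      rw [e2, e3, cur_rev]
    rw [c1, c2] at a2
    linarith
  have cB : ContDiff ℝ 1 fun z : ℝ × V3 => B z.1 z.2 := by
    refine contDiff_paste (F := B1) (G := N)
      (contDiffOn_Ici fun T hT => (hs1 T hT).B_field.c1)
      (contDiffOn_Ici fun T hT => (hNf T hT).c1) (fun x => congrFun hB0 x)
      (fun x => ?_)
    funext i
    rw [Pi.neg_apply, field_derivWithin_apply (hs1 1 one_pos).B_field.c1,
      field_derivWithin_apply (hNf 1 one_pos).c1]
    have a1 := (hs1 1 one_pos).faraday 0 t0 x i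
    have a2 := (hs2 1 one_pos).faraday 0 t0 x i
    have c1 : curl (E2 0) x i = curl (E1 0) x i := by rw [hE0]
    have c2 : derivWithin (fun s => N s x i) (Ico 0 1) 0
        = - derivWithin (fun s => B2 s x i) (Ico 0 1) 0 := by
      have : (fun s => N s x i) = fun s => - (B2 s x i) := by
        funext s
        simp [hN]
      rw [this, derivWithin.fun_neg]
    rw [c1] at a2
    rw [c2]
    linarith
  have cf : ContDiff ℝ 1 fun z : ℝ × V3 × V3 => f z.1 z.2.1 z.2.2 := by
    have h1 : ContDiff ℝ 1 fun z : ℝ × V3 × V3 => (z.1, z.2.1, -z.2.2) := by fun_prop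
    have hf2c : ContDiffOn ℝ 1 (fun z : ℝ × V3 × V3 => f2 z.1 z.2.1 (-z.2.2))
        (Ici 0 ×ˢ univ) :=
      (contDiffOn_Ici (X := V3 × V3) fun T hT => (hs2 T hT).f_c1).comp
        (f := fun z : ℝ × V3 × V3 => (z.1, z.2.1, -z.2.2)) h1.contDiffOn
        (fun z hz => ⟨hz.1, mem_univ _⟩)
    refine contDiff_paste (X := V3 × V3) (F := fun s z => f1 s z.1 z.2)
      (G := fun s z => f2 s z.1 (-z.2))
      (contDiffOn_Ici fun T hT => (hs1 T hT).f_c1) hf2c (fun z => ?_) (fun z => ?_)
    · rw [hf1', hf2']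
      simp
    · rw [derivWithin_Ici_zero, derivWithin_Ici_zero]
      have a1 := (hs1 1 one_pos).vlasov 0 t0 z.1 z.2
      have a2 := (hs2 1 one_pos).vlasov 0 t0 z.1 (-z.2)
      have e1 : ∀ i, u (-z.2) i * pd i (fun y => f2 0 y (-z.2)) z.1
          = - (u z.2 i * pd i (fun y => f1 0 y z.2) z.1) := by
        intro i
        rw [u_neg, hf1', hf2']
        simp
      have e2 : ∀ i, (E2 0 z.1 i + cross (u (-z.2)) (B2 0 z.1) i)
            * pd i (fun w => f2 0 z.1 w) (-z.2)
          = - ((E1 0 z.1 i + cross (u z.2) (B1 0 z.1) i)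
            * pd i (fun w => f1 0 z.1 w) z.2) := by
        intro i
        have b1 : pd i (fun w => f2 0 z.1 w) (-z.2) = - pd i (fun w => f1 0 z.1 w) z.2 := by
          rw [hf2', hf1']
          have := pd_comp_neg i (fun w => f₀ z.1 w) (-z.2)
          rw [neg_neg] at this
          exact this
        have b2 : cross (u (-z.2)) (B2 0 z.1) = cross (u z.2) (B1 0 z.1) := by
          rw [u_neg, cross_neg_left, hB2', hB1', cross_neg_right, neg_neg]
        rw [b1, b2, hE2', hE1']
        ring
      simp only [e1, e2, Finset.sum_neg_distrib] at a2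
      linarith
  have hfr : ∀ {t : ℝ}, 0 ≤ t → f t = f1 t := by
    intro t ht
    funext x v
    simp [hf, ht]
  have hfl : ∀ {t : ℝ}, t < 0 → f t = revf f2 t := by
    intro t ht
    funext x v
    simp [hf, not_le.2 ht, revf]
  have hEr : ∀ {t : ℝ}, 0 ≤ t → E t = E1 t := fun ht => paste_of_nonneg _ _ ht
  have hEl : ∀ {t : ℝ}, t < 0 → E t = revE E2 t := fun ht => paste_of_nonpos hE0 ht.le
  have hBr : ∀ {t : ℝ}, 0 ≤ t → B t = B1 t := fun ht => paste_of_nonneg _ _ ht
  have hBl : ∀ {t : ℝ}, t < 0 → B t = revB B2 t := fun ht => paste_of_nonpos hB0 ht.le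
  -- the equations
  have hsol : ∀ t, SolvesAt t f E B := by
    intro t
    rcases lt_trichotomy t 0 with ht | ht | ht
    · have h1 : SolvesAt (-t) f2 E2 B2 :=
        solvesAt_of_classical (hs2 (-t + 1) (by linarith)) ⟨by linarith, by linarith⟩
      refine h1.reverse.congr ?_ ?_ ?_
      · filter_upwards [Iio_mem_nhds ht] with s hs using hfl hs
      · filter_upwards [Iio_mem_nhds ht] with s hs using hEl hs
      · filter_upwards [Iio_mem_nhds ht] with s hs using hBl hs
    · subst ht
      have hud : UniqueDiffWithinAt ℝ (Ico (0 : ℝ) 1) 0 := uniqueDiffOn_Ico 0 1 0 t0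
      have g1 := hs1 1 one_pos
      refine ⟨fun x v => ?_, fun x i => ?_, fun x i => ?_, fun x => ?_, fun x => ?_⟩
      · have h1 : ContDiff ℝ 1 fun s : ℝ => f s x v :=
          cf.comp (f := fun s : ℝ => (s, x, v)) (by fun_prop)
        have h2 : DifferentiableAt ℝ (fun s => f s x v) 0 :=
          (h1.differentiable (by norm_num)) 0
        rw [← h2.derivWithin hud, derivWithin_congr (f := fun s => f1 s x v)
          (fun s hs => by rw [hfr hs.1]) (by rw [hfr le_rfl]), hfr le_rfl, hEr le_rfl,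
          hBr le_rfl]
        exact g1.vlasov 0 t0 x v
      · have h1 : ContDiff ℝ 1 fun s : ℝ => E s x :=
          cE.comp (f := fun s : ℝ => (s, x)) (by fun_prop)
        have h2 : DifferentiableAt ℝ (fun s => E s x i) 0 :=
          differentiableAt_pi.1 ((h1.differentiable (by norm_num)) 0) i
        have h3 : cur f 0 x i = cur f1 0 x i := by
          unfold RVM.cur
          rw [hfr le_rfl]
        rw [← h2.derivWithin hud, derivWithin_congr (f := fun s => E1 s x i)
          (fun s hs => by rw [hEr hs.1]) (by rw [hEr le_rfl]), h3, hBr le_rfl]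
        exact g1.ampere 0 t0 x i
      · have h1 : ContDiff ℝ 1 fun s : ℝ => B s x :=
          cB.comp (f := fun s : ℝ => (s, x)) (by fun_prop)
        have h2 : DifferentiableAt ℝ (fun s => B s x i) 0 :=
          differentiableAt_pi.1 ((h1.differentiable (by norm_num)) 0) i
        rw [← h2.derivWithin hud, derivWithin_congr (f := fun s => B1 s x i)
          (fun s hs => by rw [hBr hs.1]) (by rw [hBr le_rfl]), hEr le_rfl]
        exact g1.faraday 0 t0 x i
      · have h3 : rho f 0 x = rho f1 0 x := by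
          unfold RVM.rho
          rw [hfr le_rfl]
        rw [h3, hEr le_rfl]
        exact g1.gauss 0 t0 x
      · rw [hBr le_rfl]
        exact g1.gauss_mag 0 t0 x
    · have h1 : SolvesAt t f1 E1 B1 :=
        solvesAt_of_classical (hs1 (t + 1) (by linarith)) ⟨ht, by linarith⟩
      refine h1.congr ?_ ?_ ?_
      · filter_upwards [Ioi_mem_nhds ht] with s hs using hfr (le_of_lt hs)
      · filter_upwards [Ioi_mem_nhds ht] with s hs using hEr (le_of_lt hs)
      · filter_upwards [Ioi_mem_nhds ht] with s hs using hBr (le_of_lt hs)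
  have hmem1 : ∀ {t : ℝ}, 0 ≤ t → t ∈ Ico (0 : ℝ) (t + 1) := fun ht => ⟨ht, by linarith⟩
  refine ⟨f, E, B,
    { f_nonneg := fun t x v => ?_
      f_c1 := cf
      E_c1 := cE
      B_c1 := cB
      E_l2 := fun t => ?_
      B_l2 := fun t => ?_
      E_cont := paste_tendsto (fun T hT => (hs1 T hT).E_field) (fun T hT => (hs2 T hT).E_field)
        hE0
      B_cont := paste_tendsto (fun T hT => (hs1 T hT).B_field) hNf hB0
      vlasov := fun t => (hsol t).vlasov
      ampere := fun t => (hsol t).ampere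
      faraday := fun t => (hsol t).faraday
      gauss := fun t => (hsol t).gauss
      gauss_mag := fun t => (hsol t).gauss_mag
      compact_support := fun T => ?_ },
    (hfr le_rfl).trans hf1', (hEr le_rfl).trans hE1', (hBr le_rfl).trans hB1'⟩
  · rcases le_or_gt 0 t with ht | ht
    · rw [hfr ht]
      exact (hs1 (t + 1) (by linarith)).f_nonneg t (hmem1 ht) x v
    · rw [hfl ht]
      exact (hs2 (-t + 1) (by linarith)).f_nonneg (-t) (hmem1 (by linarith)) x (-v)
  · rcases le_or_gt 0 t with ht | ht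
    · rw [hEr ht]
      exact (hs1 (t + 1) (by linarith)).E_field.mem_l2 t (hmem1 ht)
    · rw [hEl ht]
      exact (hs2 (-t + 1) (by linarith)).E_field.mem_l2 (-t) (hmem1 (by linarith))
  · rcases le_or_gt 0 t with ht | ht
    · rw [hBr ht]
      exact (hs1 (t + 1) (by linarith)).B_field.mem_l2 t (hmem1 ht)
    · rw [hBl ht]
      exact ((hs2 (-t + 1) (by linarith)).B_field.mem_l2 (-t) (hmem1 (by linarith))).neg
  · rcases lt_or_ge T 0 with hT | hT
    · exact ⟨0, fun t x v ht => absurd (abs_nonneg t) (not_le.2 (lt_of_le_of_lt ht hT))⟩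
    obtain ⟨R1, hR1⟩ := (hs1 (T + 1) (by linarith)).compact_support T (hmem1 hT)
    obtain ⟨R2, hR2⟩ := (hs2 (T + 1) (by linarith)).compact_support T (hmem1 hT)
    refine ⟨max R1 R2, fun t x v ht hne => ?_⟩
    rw [abs_le] at ht
    rcases le_or_gt 0 t with h' | h'
    · rw [hfr h'] at hne
      obtain ⟨a, b⟩ := hR1 t ⟨h', ht.2⟩ x v hne
      exact ⟨a.trans (le_max_left _ _), b.trans (le_max_left _ _)⟩
    · rw [hfl h'] at hne
      obtain ⟨a, b⟩ := hR2 (-t) ⟨by linarith, by linarith⟩ x (-v) hne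
      rw [len_neg] at b
      exact ⟨a.trans (le_max_right _ _), b.trans (le_max_right _ _)⟩

/-! ### Uniqueness -/

variable {f g : ℝ → V3 → V3 → ℝ} {E B E' B' : ℝ → V3 → V3}

/-- A solution on the whole time axis and a classical solution on `[0,T)` with the same initial
values agree on `[0,T)`. -/
theorem eternal_eq_classical (h : IsEternalSolution f E B) {T : ℝ}
    (h' : IsClassicalSolution T g E' B') (hf : g 0 = f 0) (hE : E' 0 = E 0) (hB : B' 0 = B 0) :
    ∀ t ∈ Ico 0 T, g t = f t ∧ E' t = E t ∧ B' t = B t := fun t ht =>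
  RVM.local_unique h'.isLocalSolution (h.classical T).isLocalSolution
    (fun x v => by rw [hf]) (fun x => by rw [hE]) (fun x => by rw [hB]) ht

theorem eternal_unique (h : IsEternalSolution f E B) (h' : IsEternalSolution g E' B')
    (hf : g 0 = f 0) (hE : E' 0 = E 0) (hB : B' 0 = B 0) : g = f ∧ E' = E ∧ B' = B := by
  have key : ∀ t, g t = f t ∧ E' t = E t ∧ B' t = B t := by
    intro t
    rcases le_or_gt 0 t with ht | ht
    · exact eternal_eq_classical h (h'.classical (t + 1)) hf hE hB t ⟨ht, by linarith⟩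
    · have h1 := eternal_eq_classical h.reverse (h'.reverse.classical (-t + 1))
        (by
          funext x v
          simp [revf, hf])
        (by
          funext x
          simp [revE, hE])
        (by
          funext x
          simp [revB, hB]) (-t) ⟨by linarith, by linarith⟩
      obtain ⟨a, b, c⟩ := h1
      refine ⟨?_, ?_, ?_⟩
      · funext x v
        have := congrFun (congrFun a x) (-v)
        simpa [revf] using this
      · funext x
        have := congrFun b x
        simpa [revE] using this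
      · funext x
        have := congrFun c x
        simpa [revB] using this
  exact ⟨funext fun t => (key t).1, funext fun t => (key t).2.1, funext fun t => (key t).2.2⟩

end Vale.Agent.P107.RVM.H706
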