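import Vale.Agent.P107.H706.Stab4
import Vale.Agent.P107.H706.Exist
import Vale.Agent.P107.Bdl.B5

/-!
The fields of the solution of a smooth admissible datum are bounded on bounded time intervals.
-/

attribute [-instance] ProperSMul.toContinuousSMul IsTopologicalTorsor.toContinuousSMul
  IdemSemiring.toCanonicallyOrderedAdd IdemSemiring.toMulLeftMono IdemSemiring.toMulRightMono
  AddQuantale.instAddLeftMono AddQuantale.instAddRightMono Quantale.instMulLeftMono
  Quantale.instMulRightMono FiniteDimensional.rclike_to_real IsScalarTower.complexToReal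
  FiniteDimensional.complexToReal

open MeasureTheory Set Filter Topology
open scoped RealInnerProductSpace ENNReal NNReal

namespace Vale.Agent.P107.H706

open Cn

variable {T : ℝ}

/-- A solution with bounded fields. -/
theorem exists_bounded {f₀ : E3 × E3 → ℝ} {E₀ B₀ : E3 → E3} (hD : LE.Dat f₀ E₀ B₀)
    (hT : 0 < T) :
    ∃ (g : ℝ → E3 → E3 → ℝ) (E' B' : ℝ → E3 → E3), IsClassicalSolution T g E' B' ∧
      (∀ x v, g 0 x v = f₀ (x, v)) ∧ E' 0 = E₀ ∧ B' 0 = B₀ ∧
      ∃ C : ℝ, ∀ t x, 0 ≤ t → t < T → ‖E' t x‖ + ‖B' t x‖ ≤ C := by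
  obtain ⟨fL, EL, BL, hL⟩ := LE.exists_layer hD
  have hε : ∀ n : ℕ, (0 : ℝ) < 1 / (n + 1) := fun n => by positivity
  choose f E B h using fun n : ℕ => LE.exists_eps hD hL (hε n)
  have hb : ∀ T : ℝ, ∃ P : ℝ, ∀ᶠ n in atTop, LE.MB P T (f n) := fun T =>
    LE.momenta_bounded (fun _ _ _ _ hT hs => momentum_bounded hT hs) hD hL
      (LE.extend_MB hD hL) (fun f E B h T hT hb => LE.exists_limit hD hL h hT hb)
      (fun f E B h T P hT hb g hg R hR => LE.MB_of_limit hD hL h hT hb hg hR) h T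
  obtain ⟨g, E', B', hcl, hg, hE, hB, hconv⟩ := LE.exists_limit hD hL h hT fun T' _ => hb T'
  obtain ⟨P, hP⟩ := hb T
  obtain ⟨C, hC0, hC⟩ := LE.sup_bound hD hL T P
  refine ⟨g, E', B', hcl, hg, hE, hB, C, fun t x ht0 ht => ?_⟩
  have h1 : Tendsto (fun n => ‖E n (t, x)‖ + ‖B n (t, x)‖) atTop
      (𝓝 (‖E' t x‖ + ‖B' t x‖)) :=
    ((hconv t x 0 ht0 ht).2.1.norm).add ((hconv t x 0 ht0 ht).2.2.norm)
  refine le_of_tendsto h1 ?_
  filter_upwards [hP] with n hn
  exact hC _ _ _ _ (hε n) (h n) T le_rfl hn t x ht0 ht.le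

/-- A classical solution belongs to the class of the finite speed of propagation. -/
lemma lSol_of_classical {f : ℝ → E3 → E3 → ℝ} {E B : ℝ → E3 → E3}
    (h : IsClassicalSolution T f E B) : LSol T f E B :=
  { f_contDiff := h.f_contDiff
    E_contDiff := h.E_contDiff
    B_contDiff := h.B_contDiff
    vlasov := h.vlasov
    ampere := h.ampere
    faraday := h.faraday
    local_support := fun t ht _ => by
      obtain ⟨P, hP⟩ := h.compact_support t ht
      exact ⟨P, fun s hs x v _ hne => (hP s hs x v hne).2⟩ }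

/-- The fields of a classical solution of a smooth admissible datum are bounded on bounded time
intervals. -/
theorem bounded_ff {f : ℝ → RVM.V3 → RVM.V3 → ℝ} {E B : ℝ → RVM.V3 → RVM.V3}
    (h : ∀ T, RVM.IsClassicalSolution T f E B) (h0 : RVM.IsAdmissible (f 0) (E 0) (B 0))
    (T : ℝ) :
    ∃ C : ℝ, 0 ≤ C ∧ ∀ t ∈ Icc 0 T, ∀ x, RVM.len (E t x) ≤ C ∧ RVM.len (B t x) ≤ C := by
  rcases lt_or_ge T 0 with hT | hT
  · exact ⟨0, le_rfl, fun t ht => absurd (ht.1.trans ht.2) (not_le.2 hT)⟩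
  have hT1 : 0 < T + 1 := by linarith
  obtain ⟨g, E', B', hcl, hg, hE, hB, C, hC⟩ := exists_bounded (LE.dat_of_isAdmissible h0) hT1
  refine ⟨max C 0, le_max_right _ _, fun t ht x => ?_⟩
  have htT : t ∈ Ico 0 (T + 1) := ⟨ht.1, by linarith [ht.2]⟩
  have hG := LE.isClassicalSolution_gg hcl
  obtain ⟨-, e1, e2⟩ := RVM.local_unique hG.isLocalSolution (h (T + 1)).isLocalSolution
    (fun x v => by
      show g 0 (LE.co.symm x) (LE.co.symm v) = f 0 x v
      rw [hg]
      simp)
    (fun x => by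
      show LE.co (E' 0 (LE.co.symm x)) = E 0 x
      rw [hE]
      simp)
    (fun x => by
      show LE.co (B' 0 (LE.co.symm x)) = B 0 x
      rw [hB]
      simp) htT
  have hb := hC t (LE.co.symm x) ht.1 htT.2
  have n1 := norm_nonneg (E' t (LE.co.symm x))
  have n2 := norm_nonneg (B' t (LE.co.symm x))
  constructor
  · rw [← e1]
    show RVM.len (LE.co (E' t (LE.co.symm x))) ≤ max C 0
    rw [LE.len_co]
    exact le_trans (by linarith) (le_max_left _ _)
  · rw [← e2]
    show RVM.len (LE.co (B' t (LE.co.symm x))) ≤ max C 0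
    rw [LE.len_co]
    exact le_trans (by linarith) (le_max_left _ _)

end Vale.Agent.P107.H706
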