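import Vale.Agent.P107.LE.Datum

/-!
Classical solutions of the three-dimensional one-species relativistic Vlasov-Maxwell system on the
whole time axis, the total energy, and the distance in the energy space.
-/

open MeasureTheory Set Filter Topology

namespace Vale.Agent.P107.RVM

/-- `(f, E, B)` is a classical solution of the relativistic Vlasov-Maxwell system on the whole time
axis `ℝ`: a `C¹` triple with `f ≥ 0`, solving the equations pointwise, with `E, B ∈ C(ℝ; L²)`, and
such that the `(x,v)`-support of `f` stays in a compact set on compact time intervals. -/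
structure IsEternalSolution (f : ℝ → V3 → V3 → ℝ) (E B : ℝ → V3 → V3) : Prop where
  f_nonneg : ∀ t x v, 0 ≤ f t x v
  f_c1 : ContDiff ℝ 1 (fun z : ℝ × V3 × V3 => f z.1 z.2.1 z.2.2)
  E_c1 : ContDiff ℝ 1 (fun z : ℝ × V3 => E z.1 z.2)
  B_c1 : ContDiff ℝ 1 (fun z : ℝ × V3 => B z.1 z.2)
  E_l2 : ∀ t, MemLp (E t) 2 volume
  B_l2 : ∀ t, MemLp (B t) 2 volume
  E_cont : ∀ t, Tendsto (fun s => eLpNorm (fun x => E s x - E t x) 2 volume) (𝓝 t) (𝓝 0)
  B_cont : ∀ t, Tendsto (fun s => eLpNorm (fun x => B s x - B t x) 2 volume) (𝓝 t) (𝓝 0)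
  vlasov : ∀ t x v,
    deriv (fun s => f s x v) t + ∑ i, u v i * pd i (fun y => f t y v) x
      + ∑ i, (E t x i + cross (u v) (B t x) i) * pd i (fun w => f t x w) v = 0
  ampere : ∀ t x i, deriv (fun s => E s x i) t - curl (B t) x i = - cur f t x i
  faraday : ∀ t x i, deriv (fun s => B s x i) t + curl (E t) x i = 0
  gauss : ∀ t x, div (E t) x = rho f t x
  gauss_mag : ∀ t x, div (B t) x = 0
  compact_support : ∀ T : ℝ, ∃ R : ℝ, ∀ t x v, |t| ≤ T → f t x v ≠ 0 → len x ≤ R ∧ len v ≤ R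

/-- The total energy at time `t`: the energy of the particles plus that of the fields. -/
noncomputable def totalEnergy (f : ℝ → V3 → V3 → ℝ) (E B : ℝ → V3 → V3) (t : ℝ) : ℝ :=
  (∫ x, ∫ v, q v * f t x v) + (∫ x, (len (E t x) ^ 2 + len (B t x) ^ 2)) / 2

/-- The squared distance of `(f, E, B)` and `(g, E', B')` in the energy space at time `t`, that is
`∬ (q |f - g| + |f - g|²) dx dv + ∫ (|E - E'|² + |B - B'|²) dx`. -/
noncomputable def gap (f g : ℝ → V3 → V3 → ℝ) (E B E' B' : ℝ → V3 → V3) (t : ℝ) : ℝ :=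
  (∫ z : V3 × V3, (q z.2 * |f t z.1 z.2 - g t z.1 z.2| + (f t z.1 z.2 - g t z.1 z.2) ^ 2))
    + ∫ x, (len (E t x - E' t x) ^ 2 + len (B t x - B' t x) ^ 2)

end Vale.Agent.P107.RVM
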