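import Vale.Agent.P107.H706.Bounded
import Vale.Agent.P107.H706.Energy

/-!
Casimir functionals and stability in coordinates, in both time directions.
-/

open MeasureTheory Set Filter Topology
open scoped ENNReal

namespace Vale.Agent.P107.RVM.H706

variable {f g : ℝ → V3 → V3 → ℝ} {E B E' B' : ℝ → V3 → V3}

/-! ### Coordinates in the phase space -/

/-- The coordinates of a point of the phase space. -/
noncomputable def coo2 : E3 × E3 → V3 × V3 := Prod.map coo coo

lemma mp_coo2 : MeasurePreserving coo2 := mp_coo.prod mp_coo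

lemma me_coo2 : MeasurableEmbedding coo2 :=
  (coo.toHomeomorph.prodCongr coo.toHomeomorph).measurableEmbedding

/-- The reflection of the momentum. -/
def refl2 : V3 × V3 → V3 × V3 := fun z => (z.1, -z.2)

lemma mp_refl2 : MeasurePreserving refl2 :=
  (MeasurePreserving.id volume).prod (Measure.measurePreserving_neg volume)

lemma me_refl2 : MeasurableEmbedding refl2 :=
  ((Homeomorph.refl V3).prodCongr (Homeomorph.neg V3)).measurableEmbedding

/-! ### Casimir functionals -/

lemma slice_continuous (h : IsEternalSolution f E B) (t : ℝ) :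
    Continuous fun z : V3 × V3 => f t z.1 z.2 :=
  h.f_c1.continuous.comp (by fun_prop : Continuous fun z : V3 × V3 => (t, z.1, z.2))

lemma casimir_nonneg (h : IsEternalSolution f E B) {Φ : ℝ → ℝ≥0∞} (hΦ : Measurable Φ)
    (h0 : Φ 0 = 0) {t : ℝ} (ht : 0 ≤ t) :
    ∫⁻ z : V3 × V3, Φ (f t z.1 z.2) = ∫⁻ z : V3 × V3, Φ (f 0 z.1 z.2) := by
  have key : ∀ s, ∫⁻ z : V3 × V3, Φ (f s z.1 z.2) = ∫⁻ z : E3 × E3, Φ (ff f s z.1 z.2) := by
    intro s
    have hm : Measurable fun z : V3 × V3 => Φ (f s z.1 z.2) :=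
      hΦ.comp (slice_continuous h s).measurable
    exact (mp_coo2.lintegral_comp hm).symm
  rw [key, key]
  exact P107.H706.casimir (isClassicalSolution_ff (h.classical (t + 1))) ⟨ht, by linarith⟩ hΦ h0

/-- **Conservation of all the Casimir functionals.** -/
theorem casimir_eq (h : IsEternalSolution f E B) {Φ : ℝ → ℝ≥0∞} (hΦ : Measurable Φ)
    (h0 : Φ 0 = 0) (t : ℝ) :
    ∫⁻ z : V3 × V3, Φ (f t z.1 z.2) = ∫⁻ z : V3 × V3, Φ (f 0 z.1 z.2) := by
  rcases le_or_gt 0 t with ht | ht
  · exact casimir_nonneg h hΦ h0 ht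
  · have h1 := casimir_nonneg h.reverse hΦ h0 (t := -t) (by linarith)
    have key : ∀ s, ∫⁻ z : V3 × V3, Φ (revf f s z.1 z.2)
        = ∫⁻ z : V3 × V3, Φ (f (-s) z.1 z.2) := by
      intro s
      have hm : Measurable fun z : V3 × V3 => Φ (f (-s) z.1 z.2) :=
        hΦ.comp (slice_continuous h (-s)).measurable
      exact mp_refl2.lintegral_comp hm
    rwa [key, key, neg_neg, neg_zero] at h1

/-! ### Stability -/

lemma gap_ff (f g : ℝ → V3 → V3 → ℝ) (E B E' B' : ℝ → V3 → V3) (t : ℝ) :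
    P107.H706.gap3 (ff f) (ff g) (FF E) (FF B) (FF E') (FF B') t = gap f g E B E' B' t := by
  unfold P107.H706.gap3 gap
  congr 1
  · rw [← mp_coo2.integral_comp me_coo2]
    refine integral_congr_ae (ae_of_all _ fun z => ?_)
    show P107.q z.2 * |ff f t z.1 z.2 - ff g t z.1 z.2| + (ff f t z.1 z.2 - ff g t z.1 z.2) ^ 2
      = q (coo z.2) * |f t (coo z.1) (coo z.2) - g t (coo z.1) (coo z.2)|
        + (f t (coo z.1) (coo z.2) - g t (coo z.1) (coo z.2)) ^ 2
    rw [q_coo]
    rfl
  · rw [← integral_coo]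
    refine integral_congr_ae (ae_of_all _ fun x => ?_)
    have key : ∀ (F F' : ℝ → V3 → V3), ‖FF F t x - FF F' t x‖
        = len (F t (coo x) - F' t (coo x)) := by
      intro F F'
      rw [← len_coo, map_sub, coo_FF, coo_FF]
    show ‖FF E t x - FF E' t x‖ ^ 2 + ‖FF B t x - FF B' t x‖ ^ 2
      = len (E t (coo x) - E' t (coo x)) ^ 2 + len (B t (coo x) - B' t (coo x)) ^ 2
    rw [key, key]

lemma gap_reverse (f g : ℝ → V3 → V3 → ℝ) (E B E' B' : ℝ → V3 → V3) (t : ℝ) :
    gap (revf f) (revf g) (revE E) (revB B) (revE E') (revB B') t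
      = gap f g E B E' B' (-t) := by
  unfold gap
  congr 1
  · rw [← mp_refl2.integral_comp me_refl2]
    refine integral_congr_ae (ae_of_all _ fun z => ?_)
    show q (-z.2) * |f (-t) z.1 (- -z.2) - g (-t) z.1 (- -z.2)|
        + (f (-t) z.1 (- -z.2) - g (-t) z.1 (- -z.2)) ^ 2
      = q z.2 * |f (-t) z.1 z.2 - g (-t) z.1 z.2| + (f (-t) z.1 z.2 - g (-t) z.1 z.2) ^ 2
    rw [q_neg, neg_neg]
  · refine integral_congr_ae (ae_of_all _ fun x => ?_)
    have h1 : - B (-t) x - - B' (-t) x = -(B (-t) x - B' (-t) x) := by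
      rw [neg_sub_neg, neg_sub]
    show len (E (-t) x - E' (-t) x) ^ 2 + len (- B (-t) x - - B' (-t) x) ^ 2
      = len (E (-t) x - E' (-t) x) ^ 2 + len (B (-t) x - B' (-t) x) ^ 2
    rw [h1, len_neg]

/-- Stability forward in time. -/
theorem stability_forward (h' : IsEternalSolution g E' B')
    (h0 : IsAdmissible (g 0) (E' 0) (B' 0)) {T : ℝ} (hT : 0 ≤ T) :
    ∃ C : ℝ, 0 ≤ C ∧ ∀ (f : ℝ → V3 → V3 → ℝ) (E B : ℝ → V3 → V3), IsEternalSolution f E B →
      ∀ t ∈ Icc 0 T, gap f g E B E' B' t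
        ≤ C * (gap f g E B E' B' 0 + Real.sqrt (gap f g E B E' B' 0)) := by
  obtain ⟨c, hc0, hc⟩ := P107.H706.bounded_ff h'.classical h0 T
  have hcl := isClassicalSolution_ff (h'.classical (T + 1))
  obtain ⟨C, hC0, hC⟩ := P107.H706.stability_uniform hcl (P107.H706.lSol_of_classical hcl)
    (b := T) ⟨hT, by linarith⟩ hc0 (fun s hs x => by
      rw [← len_coo, coo_FF]
      exact (hc s hs (coo x)).1)
  refine ⟨C, hC0, fun f E B h t ht => ?_⟩
  have hf := isClassicalSolution_ff (h.classical (T + 1))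
  have h1 := hC _ _ _ hf (P107.H706.lSol_of_classical hf) t ht
  rwa [gap_ff, gap_ff] at h1

/-- **Continuous dependence on the data**, in both time directions. -/
theorem stability_eternal (h' : IsEternalSolution g E' B')
    (h0 : IsAdmissible (g 0) (E' 0) (B' 0)) (T : ℝ) :
    ∃ C : ℝ, ∀ (f : ℝ → V3 → V3 → ℝ) (E B : ℝ → V3 → V3), IsEternalSolution f E B →
      ∀ t, |t| ≤ T → gap f g E B E' B' t
        ≤ C * (gap f g E B E' B' 0 + Real.sqrt (gap f g E B E' B' 0)) := by
  rcases lt_or_ge T 0 with hT | hT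
  · exact ⟨0, fun f E B _ t ht => absurd ((abs_nonneg t).trans ht) (not_le.2 hT)⟩
  obtain ⟨C₁, hC₁0, hC₁⟩ := stability_forward h' h0 hT
  have h0' : IsAdmissible (revf g 0) (revE E' 0) (revB B' 0) := by
    have := isAdmissible_reverse h0
    have e1 : revf g 0 = fun x v => g 0 x (-v) := by
      funext x v
      simp [revf]
    have e2 : revE E' 0 = E' 0 := by
      funext x
      simp [revE]
    have e3 : revB B' 0 = fun x => - B' 0 x := by
      funext x
      simp [revB]
    rw [e1, e2, e3]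
    exact this
  obtain ⟨C₂, hC₂0, hC₂⟩ := stability_forward h'.reverse h0' hT
  have hgn : ∀ (f : ℝ → V3 → V3 → ℝ) (E B : ℝ → V3 → V3),
      0 ≤ gap f g E B E' B' 0 + Real.sqrt (gap f g E B E' B' 0) := by
    intro f E B
    refine add_nonneg ?_ (Real.sqrt_nonneg _)
    rw [← gap_ff]
    exact P107.H706.gap3_nonneg _ _ _ _ _ _ _
  refine ⟨max C₁ C₂, fun f E B h t ht => ?_⟩
  rw [abs_le] at ht
  rcases le_or_gt 0 t with h1 | h1
  · exact (hC₁ f E B h t ⟨h1, ht.2⟩).trans
      (mul_le_mul_of_nonneg_right (le_max_left _ _) (hgn f E B))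
  · have h2 := hC₂ _ _ _ h.reverse (-t) ⟨by linarith, by linarith⟩
    rw [gap_reverse, gap_reverse, neg_neg, neg_zero] at h2
    exact h2.trans (mul_le_mul_of_nonneg_right (le_max_right _ _) (hgn f E B))

/-- The fields are bounded on bounded time intervals. -/
theorem bounded_eternal (h : IsEternalSolution f E B) (h0 : IsAdmissible (f 0) (E 0) (B 0))
    (T : ℝ) : ∃ C : ℝ, ∀ t x, |t| ≤ T → len (E t x) ≤ C ∧ len (B t x) ≤ C := by
  obtain ⟨C₁, -, hC₁⟩ := P107.H706.bounded_ff h.classical h0 T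
  have h0' : IsAdmissible (revf f 0) (revE E 0) (revB B 0) := by
    have := isAdmissible_reverse h0
    have e1 : revf f 0 = fun x v => f 0 x (-v) := by
      funext x v
      simp [revf]
    have e2 : revE E 0 = E 0 := by
      funext x
      simp [revE]
    have e3 : revB B 0 = fun x => - B 0 x := by
      funext x
      simp [revB]
    rw [e1, e2, e3]
    exact this
  obtain ⟨C₂, -, hC₂⟩ := P107.H706.bounded_ff h.reverse.classical h0' T
  refine ⟨max C₁ C₂, fun t x ht => ?_⟩
  rw [abs_le] at ht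
  rcases le_or_gt 0 t with h1 | h1
  · obtain ⟨a, b⟩ := hC₁ t ⟨h1, ht.2⟩ x
    exact ⟨a.trans (le_max_left _ _), b.trans (le_max_left _ _)⟩
  · obtain ⟨a, b⟩ := hC₂ (-t) ⟨by linarith, by linarith⟩ x
    unfold revE at a
    unfold revB at b
    rw [neg_neg] at a b
    rw [len_neg] at b
    exact ⟨a.trans (le_max_right _ _), b.trans (le_max_right _ _)⟩

end Vale.Agent.P107.RVM.H706
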