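import Mathlib

/-!
Pasting two `C¹` functions on half spaces, one of them reflected in time.
-/

open Set Filter Topology

namespace Vale.Agent.P107.RVM.H706

variable {X Y : Type*} [NormedAddCommGroup X] [NormedSpace ℝ X]
  [NormedAddCommGroup Y] [NormedSpace ℝ Y]

/-- From all the intervals `[0,T)` to `[0,∞)`. -/
lemma contDiffOn_Ici {F : ℝ × X → Y}
    (h : ∀ T, 0 < T → ContDiffOn ℝ 1 F (Ico 0 T ×ˢ univ)) :
    ContDiffOn ℝ 1 F (Ici 0 ×ˢ univ) := by
  intro z hz
  have hz0 : (0 : ℝ) ≤ z.1 := hz.1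
  have h1 := h (z.1 + 1) (by linarith) z ⟨⟨hz0, by linarith⟩, mem_univ _⟩
  refine h1.mono_of_mem_nhdsWithin ?_
  have h2 : {y : ℝ × X | y.1 < z.1 + 1} ∈ 𝓝 z :=
    (isOpen_lt continuous_fst continuous_const).mem_nhds (by simp)
  filter_upwards [self_mem_nhdsWithin, mem_nhdsWithin_of_mem_nhds h2] with y hy1 hy2
  exact ⟨⟨hy1.1, hy2⟩, mem_univ _⟩

lemma uniqueDiffOn_half : UniqueDiffOn ℝ ((Ici (0 : ℝ)) ×ˢ (univ : Set X)) :=
  (uniqueDiffOn_Ici 0).prod uniqueDiffOn_univ

/-- Two `C¹` functions on the closed half spaces `t ≥ 0` and `t ≤ 0` with the same values and the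
same time derivative at `t = 0` form a `C¹` function; the second one is given after a time
reversal. -/
theorem contDiff_paste {F G : ℝ → X → Y}
    (hF : ContDiffOn ℝ 1 (fun z : ℝ × X => F z.1 z.2) (Ici 0 ×ˢ univ))
    (hG : ContDiffOn ℝ 1 (fun z : ℝ × X => G z.1 z.2) (Ici 0 ×ˢ univ))
    (h0 : ∀ x, F 0 x = G 0 x)
    (h1 : ∀ x, derivWithin (fun s => F s x) (Ici 0) 0 = - derivWithin (fun s => G s x) (Ici 0) 0) :
    ContDiff ℝ 1 (fun z : ℝ × X => if 0 ≤ z.1 then F z.1 z.2 else G (-z.1) z.2) := by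
  classical
  set S : Set (ℝ × X) := Ici 0 ×ˢ univ with hS
  set S' : Set (ℝ × X) := Iic 0 ×ˢ univ with hS'
  set ν : ℝ × X →L[ℝ] ℝ × X :=
    (-(ContinuousLinearMap.fst ℝ ℝ X)).prod (ContinuousLinearMap.snd ℝ ℝ X) with hν
  have hνa : ∀ z : ℝ × X, ν z = (-z.1, z.2) := fun z => rfl
  set DF : ℝ × X → (ℝ × X →L[ℝ] Y) := fderivWithin ℝ (fun z : ℝ × X => F z.1 z.2) S with hDF
  set DG : ℝ × X → (ℝ × X →L[ℝ] Y) := fderivWithin ℝ (fun z : ℝ × X => G z.1 z.2) S with hDG
  have hFd : ∀ z ∈ S, HasFDerivWithinAt (fun z : ℝ × X => F z.1 z.2) (DF z) S z := fun z hz =>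
    ((hF.differentiableOn (by norm_num)) z hz).hasFDerivWithinAt
  have hGd : ∀ z ∈ S, HasFDerivWithinAt (fun z : ℝ × X => G z.1 z.2) (DG z) S z := fun z hz =>
    ((hG.differentiableOn (by norm_num)) z hz).hasFDerivWithinAt
  have hFc : ContinuousOn DF S := hF.continuousOn_fderivWithin uniqueDiffOn_half (by norm_num)
  have hGc : ContinuousOn DG S := hG.continuousOn_fderivWithin uniqueDiffOn_half (by norm_num)
  have hmaps : MapsTo ν S' S := by
    intro z hz
    have : z.1 ≤ 0 := hz.1
    exact ⟨by show (0:ℝ) ≤ -z.1; linarith, mem_univ _⟩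
  have hGd' : ∀ z ∈ S', HasFDerivWithinAt (fun z : ℝ × X => G (-z.1) z.2)
      ((DG (ν z)).comp ν) S' z := by
    intro z hz
    have := (hGd (ν z) (hmaps hz)).comp z ν.hasFDerivWithinAt hmaps
    exact this
  -- the values and derivatives on the interface
  have hsplit : ∀ (L : ℝ × X →L[ℝ] Y) (p : ℝ × X), L p = p.1 • L (1, 0) + L (0, p.2) := by
    intro L p
    rw [← map_smul, ← map_add]
    congr 1
    ext <;> simp
  have htime : ∀ {H : ℝ → X → Y} {D : ℝ × X →L[ℝ] Y} (x : X),
      HasFDerivWithinAt (fun z : ℝ × X => H z.1 z.2) D S (0, x) →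
      derivWithin (fun s => H s x) (Ici 0) 0 = D (1, 0) := by
    intro H D x h
    have h2 : HasFDerivWithinAt (fun s : ℝ => (s, x)) (ContinuousLinearMap.inl ℝ ℝ X)
        (Ici 0) 0 := (hasFDerivAt_prodMk_left (0 : ℝ) x).hasFDerivWithinAt
    have h3 : HasFDerivWithinAt (fun s : ℝ => H s x) (D.comp (ContinuousLinearMap.inl ℝ ℝ X))
        (Ici 0) 0 := HasFDerivWithinAt.comp (g := fun z : ℝ × X => H z.1 z.2)
          (f := fun s : ℝ => (s, x)) (t := S) (0 : ℝ) h h2 (fun s hs => ⟨hs, mem_univ _⟩)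
    have h4 := h3.hasDerivWithinAt.derivWithin (uniqueDiffOn_Ici 0 0 self_mem_Ici)
    rw [h4]
    simp
  have hspace : ∀ {H : ℝ → X → Y} {D : ℝ × X →L[ℝ] Y} (x : X),
      HasFDerivWithinAt (fun z : ℝ × X => H z.1 z.2) D S (0, x) →
      HasFDerivAt (H 0) (D.comp (ContinuousLinearMap.inr ℝ ℝ X)) x := by
    intro H D x h
    have h2 : HasFDerivWithinAt (fun y : X => ((0 : ℝ), y)) (ContinuousLinearMap.inr ℝ ℝ X)
        univ x := (hasFDerivAt_prodMk_right (0 : ℝ) x).hasFDerivWithinAt
    have h3 : HasFDerivWithinAt (fun y : X => H 0 y) (D.comp (ContinuousLinearMap.inr ℝ ℝ X))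
        univ x := HasFDerivWithinAt.comp (g := fun z : ℝ × X => H z.1 z.2)
          (f := fun y : X => ((0 : ℝ), y)) (t := S) x h h2
          (fun s _ => ⟨self_mem_Ici, mem_univ _⟩)
    exact h3.hasFDerivAt univ_mem
  have hD0 : ∀ x : X, DF (0, x) = (DG (ν (0, x))).comp ν := by
    intro x
    have hν0 : ν ((0 : ℝ), x) = (0, x) := by rw [hνa]; simp
    rw [hν0]
    have hz : ((0 : ℝ), x) ∈ S := ⟨self_mem_Ici, mem_univ _⟩
    have a1 := htime x (hFd _ hz)
    have a2 := htime x (hGd _ hz)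
    have b1 := hspace x (hFd _ hz)
    have b2 := hspace x (hGd _ hz)
    have e0 : F 0 = G 0 := funext h0
    rw [e0] at b1
    have b3 := b1.unique b2
    refine ContinuousLinearMap.ext fun p => ?_
    rw [hsplit (DF (0, x)) p, hsplit ((DG (0, x)).comp ν) p]
    have c1 : DF (0, x) (1, 0) = - DG (0, x) (1, 0) := by
      rw [← a1, ← a2]
      exact h1 x
    have c2 : DF (0, x) (0, p.2) = DG (0, x) (0, p.2) := by
      have := congrArg (fun L : X →L[ℝ] Y => L p.2) b3
      simpa using this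
    rw [c1, c2]
    simp only [ContinuousLinearMap.comp_apply, hνa]
    congr 1
    · congr 1
      rw [← map_neg]
      simp
    · simp
  rw [contDiff_one_iff_hasFDerivAt]
  refine ⟨fun z => if 0 ≤ z.1 then DF z else (DG (ν z)).comp ν, ?_, fun z => ?_⟩
  · refine continuous_if_le continuous_const continuous_fst ?_ ?_ ?_
    · exact hFc.mono (fun z hz => ⟨hz, mem_univ _⟩)
    · have h2 : ContinuousOn (fun z => DG (ν z)) {z : ℝ × X | z.1 ≤ 0} :=
        hGc.comp ν.continuous.continuousOn (fun z hz => hmaps ⟨hz, mem_univ _⟩)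
      exact h2.clm_comp continuousOn_const
    · rintro ⟨s, x⟩ hz
      have hz' : s = 0 := hz.symm
      subst hz'
      exact hD0 x
  · rcases lt_trichotomy z.1 0 with hz | hz | hz
    · have hn : S' ∈ 𝓝 z := by
        filter_upwards [(isOpen_lt continuous_fst continuous_const).mem_nhds
          (show z.1 < 0 from hz)] with y hy
        exact ⟨le_of_lt hy, mem_univ _⟩
      have h2 := (hGd' z ⟨hz.le, mem_univ _⟩).hasFDerivAt hn
      simp only [not_le.2 hz, if_false]
      refine h2.congr_of_eventuallyEq ?_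
      filter_upwards [(isOpen_lt continuous_fst continuous_const).mem_nhds
          (show z.1 < 0 from hz)] with y hy
      have hy' : y.1 < 0 := hy
      simp only [not_le.2 hy', if_false]
    · have e1 : (if 0 ≤ z.1 then DF z else (DG (ν z)).comp ν) = DF z := by
        simp [hz]
      show HasFDerivAt _ (if 0 ≤ z.1 then DF z else (DG (ν z)).comp ν) z
      rw [e1]
      have hzS : z ∈ S := ⟨by rw [hz]; exact self_mem_Ici, mem_univ _⟩
      have hzS' : z ∈ S' := ⟨by rw [hz]; exact self_mem_Iic, mem_univ _⟩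
      have k1 : HasFDerivWithinAt
          (fun z : ℝ × X => if 0 ≤ z.1 then F z.1 z.2 else G (-z.1) z.2) (DF z) S z := by
        refine (hFd z hzS).congr (fun y hy => ?_) ?_
        · have : (0 : ℝ) ≤ y.1 := hy.1
          simp [this]
        · simp [hz]
      have k2 : HasFDerivWithinAt
          (fun z : ℝ × X => if 0 ≤ z.1 then F z.1 z.2 else G (-z.1) z.2) (DF z) S' z := by
        have e2 : DF z = (DG (ν z)).comp ν := by
          have : z = (0, z.2) := by ext <;> simp [hz]
          rw [this]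
          exact hD0 z.2
        rw [e2]
        have hval : ∀ y : ℝ × X, y.1 ≤ 0 →
            (if 0 ≤ y.1 then F y.1 y.2 else G (-y.1) y.2) = G (-y.1) y.2 := by
          intro y hy
          rcases eq_or_lt_of_le hy with h | h
          · rw [h]
            simp [h0]
          · simp [not_le.2 h]
        refine (hGd' z hzS').congr (fun y hy => hval y hy.1) (hval z hz.le)
      have k3 := k1.union k2
      refine k3.hasFDerivAt ?_
      have : S ∪ S' = univ := by
        ext y
        simp only [hS, hS', mem_union, mem_prod, mem_univ, and_true, mem_Ici, mem_Iic, iff_true]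
        exact le_total _ _
      rw [this]
      exact univ_mem
    · have hn : S ∈ 𝓝 z := by
        filter_upwards [(isOpen_lt continuous_const continuous_fst).mem_nhds
          (show 0 < z.1 from hz)] with y hy
        exact ⟨le_of_lt hy, mem_univ _⟩
      have h2 := (hFd z ⟨hz.le, mem_univ _⟩).hasFDerivAt hn
      simp only [hz.le, if_true]
      refine h2.congr_of_eventuallyEq ?_
      filter_upwards [(isOpen_lt continuous_const continuous_fst).mem_nhds
          (show 0 < z.1 from hz)] with y hy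
      have hy' : 0 < y.1 := hy
      simp only [hy'.le, if_true]

end Vale.Agent.P107.RVM.H706
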