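import Vale.Agent.P107.H15.Cone7

/-!
Stability in the energy space: the growth of the kinetic part and of the field part.
-/

attribute [-instance] ProperSMul.toContinuousSMul IsTopologicalTorsor.toContinuousSMul
  IdemSemiring.toCanonicallyOrderedAdd IdemSemiring.toMulLeftMono IdemSemiring.toMulRightMono
  AddQuantale.instAddLeftMono AddQuantale.instAddRightMono Quantale.instMulLeftMono
  Quantale.instMulRightMono FiniteDimensional.rclike_to_real IsScalarTower.complexToReal
  FiniteDimensional.complexToReal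

open MeasureTheory Set Filter Topology
open scoped RealInnerProductSpace ENNReal NNReal

namespace Vale.Agent.P107.H706

open Cn

variable {T : ℝ} {f g : ℝ → E3 → E3 → ℝ} {E B E' B' : ℝ → E3 → E3} {R P b t : ℝ} {x₀ : E3}

/-- The growth of the kinetic part. -/
lemma KK_growth2 (h : KSol T f E B) (h' : KSol T g E' B') (hb : b ∈ Ico 0 T) (hbR : b ≤ R)
    (hf : MB x₀ R P b f) (hg : MB x₀ R P b g) (ht : t ∈ Ioo 0 b) {L Pg : ℝ} (hL : 0 ≤ L)
    (hgP : ∀ x v, Pg < ‖v‖ → g t x v = 0)
    (hD : ∀ z : E3 × E3, ∀ a : E3,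
      |fderiv ℝ (fun y : E3 × E3 => g t y.1 y.2) z (0, a)| ≤ L * ‖a‖) :
    ∫ z, KK' R x₀ f g t z
      ≤ L * KK R x₀ f g t + 2 * L * (MM R x₀ E B E' B' t * vo Pg) := by
  have := isAddHaar_prod
  have htb : t ∈ Icc 0 b := Ioo_subset_Icc_self ht
  have htT : t ∈ Ioo 0 T := ⟨ht.1, ht.2.trans hb.2⟩
  have htT' : t ∈ Ico 0 T := Ioo_subset_Ico_self htT
  have htR : t ≤ R := ht.2.le.trans hbR
  set w : E3 × E3 → ℝ := fun z => f t z.1 z.2 - g t z.1 z.2 with hw
  have hf1 := h.f_slice htT'
  have hg1 := h'.f_slice htT'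
  have hw1 : ContDiff ℝ 1 w := hf1.sub hg1
  have hph1 : ContDiff ℝ 1 fun z : E3 × E3 => ph R x₀ t z.1 :=
    (contDiff_ph_slice t).comp contDiff_fst
  have hG1 : ContDiff ℝ 1 fun z : E3 × E3 => ph R x₀ t z.1 * w z ^ 2 := hph1.mul (hw1.pow 2)
  have hGc : HasCompactSupport fun z : E3 × E3 => ph R x₀ t z.1 * w z ^ 2 := by
    refine HasCompactSupport.intro (isCompact_KR' (x₀ := x₀) (R := R) (P := P)) fun z hz => ?_
    rcases zero_off hf hg hbR htb hz with h0 | ⟨h0, h1⟩
    · rw [h0, zero_mul]
    · rw [hw]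
      simp only
      rw [h0, h1, sub_zero, zero_pow two_ne_zero, mul_zero]
  have htr := transport_ibp hG1 hGc (h.E_slice htT') (h.B_slice htT')
  -- the derivative of the weighted square
  have hGd : ∀ z a : E3 × E3, fderiv ℝ (fun z : E3 × E3 => ph R x₀ t z.1 * w z ^ 2) z a
      = fderiv ℝ (ph R x₀ t) z.1 a.1 * w z ^ 2
        + ph R x₀ t z.1 * (2 * w z * (fderiv ℝ (fun y : E3 × E3 => f t y.1 y.2) z a
          - fderiv ℝ (fun y : E3 × E3 => g t y.1 y.2) z a)) := by
    intro z a
    have a1 : HasFDerivAt (ph R x₀ t) (fderiv ℝ (ph R x₀ t) z.1) z.1 :=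
      ((contDiff_ph_slice t).differentiable (by norm_num)).differentiableAt.hasFDerivAt
    have a2 : HasFDerivAt (fun z : E3 × E3 => ph R x₀ t z.1)
        ((fderiv ℝ (ph R x₀ t) z.1).comp (ContinuousLinearMap.fst ℝ E3 E3)) z :=
      a1.comp z hasFDerivAt_fst
    have a3 : HasFDerivAt w (fderiv ℝ (fun y : E3 × E3 => f t y.1 y.2) z
        - fderiv ℝ (fun y : E3 × E3 => g t y.1 y.2) z) z :=
      (hf1.differentiable (by norm_num)).differentiableAt.hasFDerivAt.sub
        (hg1.differentiable (by norm_num)).differentiableAt.hasFDerivAt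
    have a4 := a2.mul (a3.pow 2)
    have a5 : fderiv ℝ (fun z : E3 × E3 => ph R x₀ t z.1 * w z ^ 2) z = _ := a4.fderiv
    rw [a5]
    simp
    ring
  -- the sum
  have hsum : ∀ z : E3 × E3, KK' R x₀ f g t z
      + fderiv ℝ (fun z : E3 × E3 => ph R x₀ t z.1 * w z ^ 2) z
          (u z.2, E t z.1 + cross (u z.2) (B t z.1))
      = -4 * (R - t) * mh R x₀ t z.1 * w z ^ 2 + fderiv ℝ (ph R x₀ t) z.1 (u z.2) * w z ^ 2
        - 2 * (ph R x₀ t z.1 * w z * fderiv ℝ (fun y : E3 × E3 => g t y.1 y.2) z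
          (0, (E t z.1 - E' t z.1) + cross (u z.2) (B t z.1 - B' t z.1))) := by
    intro z
    have a1 : ((0 : E3), (E t z.1 - E' t z.1) + cross (u z.2) (B t z.1 - B' t z.1))
        = (u z.2, E t z.1 + cross (u z.2) (B t z.1))
          - (u z.2, E' t z.1 + cross (u z.2) (B' t z.1)) := by
      rw [← cross_sub]
      ext1
      · simp
      · simp only [Prod.snd_sub]
        abel
    rw [hGd, a1, map_sub]
    unfold KK'
    rw [h.vlasov_fderiv htT, h'.vlasov_fderiv htT]
    simp only [hw]
    ring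
  -- the pointwise bound
  have hpt : ∀ z : E3 × E3, KK' R x₀ f g t z
      + fderiv ℝ (fun z : E3 × E3 => ph R x₀ t z.1 * w z ^ 2) z
          (u z.2, E t z.1 + cross (u z.2) (B t z.1))
      ≤ L * (ph R x₀ t z.1 * w z ^ 2)
        + 2 * L * (fd R x₀ E B E' B' t z.1 * ind Pg z.2) := by
    intro z
    rw [hsum]
    by_cases hv : ‖z.2‖ ≤ Pg
    · rw [ind_eq_one hv, mul_one]
      exact kin_pointwise htR hL (hD z _)
    · push Not at hv
      have a1 := kin_pointwise (x₀ := x₀) htR le_rfl (x := z.1) (v := z.2)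
        (e := 0) (b := 0) (w := w z) (D := 0) (by simp)
      have a2 : fderiv ℝ (fun y : E3 × E3 => g t y.1 y.2) z = 0 := by
        have hev : (fun y : E3 × E3 => g t y.1 y.2) =ᶠ[𝓝 z] fun _ => (0 : ℝ) := by
          filter_upwards [(isOpen_lt continuous_const (continuous_norm.comp continuous_snd)).mem_nhds
            (show Pg < ‖z.2‖ from hv)] with y hy
          exact hgP y.1 y.2 hy
        rw [hev.fderiv_eq, fderiv_fun_const]
        rfl
      rw [a2]
      simp only [_root_.zero_apply, mul_zero] at a1 ⊢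
      have a3 : 0 ≤ L * (ph R x₀ t z.1 * w z ^ 2) :=
        mul_nonneg hL (mul_nonneg (ph_nonneg _ _) (sq_nonneg _))
      have a4 : 0 ≤ 2 * L * (fd R x₀ E B E' B' t z.1 * ind Pg z.2) :=
        mul_nonneg (by positivity) (mul_nonneg (fd_nonneg _ _) (ind_nonneg _ _))
      linarith
  -- integrability
  have i1 : Integrable fun z : E3 × E3 =>
      fderiv ℝ (fun z : E3 × E3 => ph R x₀ t z.1 * w z ^ 2) z
          (u z.2, E t z.1 + cross (u z.2) (B t z.1)) := by
    have cu : Continuous fun z : E3 × E3 => u z.2 := continuous_u.comp continuous_snd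
    have cF : Continuous fun z : E3 × E3 => E t z.1 :=
      (h.E_slice htT').continuous.comp continuous_fst
    have cH : Continuous fun z : E3 × E3 => cross (u z.2) (B t z.1) :=
      (contDiff_cross (u_contDiff.comp contDiff_snd)
        ((h.B_slice htT').comp contDiff_fst)).continuous
    refine Continuous.integrable_of_hasCompactSupport ?_ ?_
    · exact (hG1.continuous_fderiv (by norm_num)).clm_apply (cu.prodMk (cF.add cH))
    · refine HasCompactSupport.intro (hGc.fderiv (𝕜 := ℝ)) fun x hx => ?_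
      rw [image_eq_zero_of_notMem_tsupport hx]
      simp
  have i2 : Integrable fun z : E3 × E3 => KK' R x₀ f g t z := by
    refine Continuous.integrable_of_hasCompactSupport ?_ ?_
    · have a1 : ∀ (φ : ℝ → E3 → E3 → ℝ), ContDiffOn ℝ 1
          (fun z : ℝ × E3 × E3 => φ z.1 z.2.1 z.2.2) (Ico 0 T ×ˢ univ) →
          Continuous fun z : E3 × E3 =>
            fderiv ℝ (fun y : ℝ × E3 × E3 => φ y.1 y.2.1 y.2.2) (t, z) (1, 0) := by
        intro φ hφ
        have a2 : ContinuousOn (fun z : E3 × E3 =>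
            fderiv ℝ (fun y : ℝ × E3 × E3 => φ y.1 y.2.1 y.2.2) (t, z) (1, 0)) univ :=
          (continuousOn_fderiv_of_slab hφ).comp (f := fun z : E3 × E3 => (t, z)) (by fun_prop)
            (fun z _ => ⟨htT, mem_univ _⟩)
        exact continuousOn_univ.1 a2
      have a3 : Continuous fun z : E3 × E3 => mh R x₀ t z.1 :=
        continuous_mh2.comp (f := fun z : E3 × E3 => (t, z.1)) (by fun_prop)
      unfold KK'
      exact ((continuous_const.mul a3).mul (hw1.continuous.pow 2)).add
        (hph1.continuous.mul ((continuous_const.mul hw1.continuous).mul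
          ((a1 f h.f_contDiff).sub (a1 g h'.f_contDiff))))
    · refine HasCompactSupport.intro (isCompact_KR' (x₀ := x₀) (R := R) (P := P)) fun z hz => ?_
      unfold KK'
      rcases zero_off hf hg hbR htb hz with h0 | ⟨h0, h1⟩
      · rw [mh_eq_zero_of_ph h0, h0]
        ring
      · rw [h0, h1]
        ring
  have i3 := integrable_kin h h' hb hbR hf hg htb
  have i4 := integrable_mul_ind (integrable_fd h h' hb hbR htb (R := R) (x₀ := x₀)) Pg
  have key : ∫ z, KK' R x₀ f g t z
      = ∫ z : E3 × E3, (KK' R x₀ f g t z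
        + fderiv ℝ (fun z : E3 × E3 => ph R x₀ t z.1 * w z ^ 2) z
          (u z.2, E t z.1 + cross (u z.2) (B t z.1))) := by
    rw [integral_add i2 i1, htr, add_zero]
  rw [key]
  refine (integral_mono (i2.add i1) ((i3.const_mul L).add (i4.const_mul (2 * L))) hpt).trans ?_
  simp only [Pi.add_apply]
  rw [integral_add (i3.const_mul L) (i4.const_mul (2 * L)), integral_const_mul,
    integral_const_mul, integral_mul_ind]
  exact le_rfl

/-- The growth of the field part. -/
lemma MM_growth2 (h : LSol T f E B) (h' : LSol T g E' B') (hb : b ∈ Ico 0 T) (hbR : b ≤ R)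
    (hf : MB x₀ R P b f) (hg : MB x₀ R P b g) (ht : t ∈ Ioo 0 b) :
    ∫ x, MM' R x₀ E B E' B' t x
      ≤ -2 * ∫ z : E3 × E3, (ph R x₀ t z.1 * (f t z.1 z.2 - g t z.1 z.2))
          * ⟪u z.2, E t z.1 - E' t z.1⟫ := by
  have := isAddHaar_prod
  have htb : t ∈ Icc 0 b := Ioo_subset_Icc_self ht
  have htT : t ∈ Ioo 0 T := ⟨ht.1, ht.2.trans hb.2⟩
  have htT' : t ∈ Ico 0 T := Ioo_subset_Ico_self htT
  have htR : t ≤ R := ht.2.le.trans hbR
  have hE := h.E_slice htT'
  have hE' := h'.E_slice htT'
  have hB := h.B_slice htT'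
  have hB' := h'.B_slice htT'
  have he : ContDiff ℝ 1 fun x => E t x - E' t x := hE.sub hE'
  have hbb : ContDiff ℝ 1 fun x => B t x - B' t x := hB.sub hB'
  have hph := contDiff_ph_slice (R := R) (x₀ := x₀) t
  have hphc := hasCompactSupport_ph (x₀ := x₀) hbR htb
  have hmx := maxwell_ibp hph hphc he hbb
  have hcf := (continuous_cur' h htT).sub (continuous_cur' h' htT)
  have cmh : Continuous (mh R x₀ t) :=
    continuous_mh2.comp (f := fun x : E3 => (t, x)) (by fun_prop)
  have cmhc : HasCompactSupport (mh R x₀ t) :=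
    HasCompactSupport.intro (isCompact_closedBall x₀ R) fun _ hx =>
      mh_eq_zero_of_ph (ph_eq_zero' hbR htb hx)
  have cen : Continuous fun x => ‖E t x - E' t x‖ ^ 2 + ‖B t x - B' t x‖ ^ 2 :=
    (he.continuous.norm.pow 2).add (hbb.continuous.norm.pow 2)
  have e1 : ∀ x, MM' R x₀ E B E' B' t x
      = -4 * (R - t) * mh R x₀ t x * (‖E t x - E' t x‖ ^ 2 + ‖B t x - B' t x‖ ^ 2)
        + 2 * (ph R x₀ t x * (⟪E t x - E' t x, curl (fun y => B t y - B' t y) x⟫
          - ⟪B t x - B' t x, curl (fun y => E t y - E' t y) x⟫))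
        - 2 * (ph R x₀ t x * ⟪E t x - E' t x, cur f t x - cur g t x⟫) := by
    intro x
    unfold MM'
    rw [h.ampere_fderiv htT, h'.ampere_fderiv htT, h.faraday_fderiv htT, h'.faraday_fderiv htT,
      curl_sub hB hB', curl_sub hE hE']
    have a1 : curl (B t) x - cur f t x - (curl (B' t) x - cur g t x)
        = (curl (B t) x - curl (B' t) x) - (cur f t x - cur g t x) := by abel
    have a2 : -curl (E t) x - -curl (E' t) x = -(curl (E t) x - curl (E' t) x) := by abel
    rw [a1, a2, inner_sub_right, inner_neg_right]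
    ring
  have j1 : Integrable fun x =>
      -4 * (R - t) * mh R x₀ t x * (‖E t x - E' t x‖ ^ 2 + ‖B t x - B' t x‖ ^ 2) :=
    ((continuous_const.mul cmh).mul cen).integrable_of_hasCompactSupport
      (HasCompactSupport.mul_right (HasCompactSupport.mul_left cmhc))
  have j2 : Integrable fun x => ph R x₀ t x *
      (⟪E t x - E' t x, curl (fun y => B t y - B' t y) x⟫
          - ⟪B t x - B' t x, curl (fun y => E t y - E' t y) x⟫) :=
    (hph.continuous.mul ((he.continuous.inner (continuous_curl hbb)).sub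
      (hbb.continuous.inner (continuous_curl he)))).integrable_of_hasCompactSupport
      (HasCompactSupport.mul_right hphc)
  have j3 : Integrable fun x => ph R x₀ t x * ⟪E t x - E' t x, cur f t x - cur g t x⟫ :=
    (hph.continuous.mul (he.continuous.inner hcf)).integrable_of_hasCompactSupport
      (HasCompactSupport.mul_right hphc)
  have j4 : Integrable fun x => fderiv ℝ (ph R x₀ t) x
      (cross (E t x - E' t x) (B t x - B' t x)) := by
    refine Continuous.integrable_of_hasCompactSupport ?_ ?_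
    · exact (hph.continuous_fderiv (by norm_num)).clm_apply (contDiff_cross he hbb).continuous
    · refine HasCompactSupport.intro (hphc.fderiv (𝕜 := ℝ)) fun x hx => ?_
      rw [image_eq_zero_of_notMem_tsupport hx]
      simp
  have hpt : ∫ x, (-4 * (R - t) * mh R x₀ t x * (‖E t x - E' t x‖ ^ 2 + ‖B t x - B' t x‖ ^ 2)
      + 2 * fderiv ℝ (ph R x₀ t) x (cross (E t x - E' t x) (B t x - B' t x))) ≤ 0 :=
    integral_nonpos fun x => field_pointwise htR
  rw [integral_add j1 (j4.const_mul 2), integral_const_mul] at hpt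
  simp_rw [e1]
  have j12 : Integrable fun x =>
      -4 * (R - t) * mh R x₀ t x * (‖E t x - E' t x‖ ^ 2 + ‖B t x - B' t x‖ ^ 2)
        + 2 * (ph R x₀ t x * (⟪E t x - E' t x, curl (fun y => B t y - B' t y) x⟫
          - ⟪B t x - B' t x, curl (fun y => E t y - E' t y) x⟫)) := j1.add (j2.const_mul 2)
  rw [integral_sub j12 (j3.const_mul 2), integral_add j1 (j2.const_mul 2),
    integral_const_mul, integral_const_mul, hmx, cur_work h h' hb hbR hf hg htb]
  linarith only [hpt]

end Vale.Agent.P107.H706
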