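import Vale.Agent.P107.H706.Stab1

/-!
Stability in the energy space: the tail part.
-/

attribute [-instance] ProperSMul.toContinuousSMul IsTopologicalTorsor.toContinuousSMul
  IdemSemiring.toCanonicallyOrderedAdd IdemSemiring.toMulLeftMono IdemSemiring.toMulRightMono
  AddQuantale.instAddLeftMono AddQuantale.instAddRightMono Quantale.instMulLeftMono
  Quantale.instMulRightMono FiniteDimensional.rclike_to_real IsScalarTower.complexToReal
  FiniteDimensional.complexToReal

open MeasureTheory Set Filter Topology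
open scoped RealInnerProductSpace ENNReal NNReal

namespace Vale.Agent.P107.H706

open Cn

variable {T : ℝ} {f g : ℝ → E3 → E3 → ℝ} {E B E' B' : ℝ → E3 → E3} {R P b t Q c : ℝ} {x₀ : E3}

/-- the ramp -/
noncomputable def lam (y : ℝ) : ℝ := max y 0 - max (y - 1) 0

/-- its primitive -/
noncomputable def Lam (y : ℝ) : ℝ := (th y - th (y - 1)) / 2

lemma lam_nonneg (y : ℝ) : 0 ≤ lam y := by
  unfold lam
  have : max (y - 1) 0 ≤ max y 0 := max_le_max (by linarith) le_rfl
  linarith

lemma lam_le_one (y : ℝ) : lam y ≤ 1 := by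
  unfold lam
  rcases le_total y 0 with h | h
  · rw [max_eq_right h, max_eq_right (by linarith)]
    norm_num
  · rw [max_eq_left h]
    have := le_max_left (y - 1) 0
    linarith

lemma lam_eq_zero {y : ℝ} (h : y ≤ 0) : lam y = 0 := by
  unfold lam
  rw [max_eq_right h, max_eq_right (by linarith)]
  norm_num

lemma lam_eq_one {y : ℝ} (h : 1 ≤ y) : lam y = 1 := by
  unfold lam
  rw [max_eq_left (by linarith), max_eq_left (by linarith)]
  ring

lemma continuous_lam : Continuous lam := by
  unfold lam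
  fun_prop

lemma hasDerivAt_Lam (y : ℝ) : HasDerivAt Lam (lam y) y := by
  have h1 := hasDerivAt_th y
  have h2 : HasDerivAt (fun y : ℝ => y - 1) 1 y := (hasDerivAt_id y).sub_const 1
  have h3 := (hasDerivAt_th (y - 1)).comp y h2
  have h4 := (h1.sub h3).div_const 2
  refine h4.congr_deriv ?_
  unfold lam
  ring

lemma contDiff_Lam : ContDiff ℝ 1 Lam := by
  rw [contDiff_one_iff_deriv]
  refine ⟨fun y => (hasDerivAt_Lam y).differentiableAt, ?_⟩
  have : deriv Lam = lam := by
    funext y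
    exact (hasDerivAt_Lam y).deriv
  rw [this]
  exact continuous_lam

lemma Lam_eq_zero {y : ℝ} (h : y ≤ 0) : Lam y = 0 := by
  unfold Lam
  rw [th_eq_zero h, th_eq_zero (by linarith)]
  norm_num

lemma Lam_nonneg (y : ℝ) : 0 ≤ Lam y := by
  unfold Lam th
  have h1 : max (y - 1) 0 ≤ max y 0 := max_le_max (by linarith) le_rfl
  have h2 : 0 ≤ max (y - 1) 0 := le_max_right _ _
  nlinarith

lemma Lam_le {y a : ℝ} (h : y ≤ a) (ha : 0 ≤ a) : Lam y ≤ a := by
  unfold Lam th
  rcases le_total y 0 with h1 | h1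
  · rw [max_eq_right h1, max_eq_right (by linarith)]
    linarith
  · rw [max_eq_left h1]
    rcases le_total y 1 with h2 | h2
    · rw [max_eq_right (by linarith)]
      nlinarith
    · rw [max_eq_left (by linarith)]
      nlinarith

lemma Lam_of_one_le {y : ℝ} (h : 1 ≤ y) : Lam y = y - 1 / 2 := by
  unfold Lam th
  rw [max_eq_left (by linarith), max_eq_left (by linarith)]
  ring

/-- The tail part. -/
noncomputable def NN (R : ℝ) (x₀ : E3) (Q c : ℝ) (f : ℝ → E3 → E3 → ℝ) (s : ℝ) : ℝ :=
  ∫ z : E3 × E3, ph R x₀ s z.1 * (Lam (q z.2 - Q - c * s) * f s z.1 z.2)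

/-- the integrand of the time derivative -/
noncomputable def NN' (R : ℝ) (x₀ : E3) (Q c : ℝ) (f : ℝ → E3 → E3 → ℝ) (s : ℝ)
    (z : E3 × E3) : ℝ :=
  -4 * (R - s) * mh R x₀ s z.1 * (Lam (q z.2 - Q - c * s) * f s z.1 z.2)
    + ph R x₀ s z.1 * (lam (q z.2 - Q - c * s) * (-c) * f s z.1 z.2
      + Lam (q z.2 - Q - c * s)
        * fderiv ℝ (fun y : ℝ × E3 × E3 => f y.1 y.2.1 y.2.2) (s, z) (1, 0))

lemma zero_off1 (hf : MB x₀ R P b f) (hbR : b ≤ R) {s : ℝ} (hs : s ∈ Icc 0 b) {z : E3 × E3}
    (hz : z ∉ KR x₀ R P) : ph R x₀ s z.1 = 0 ∨ f s z.1 z.2 = 0 := by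
  rcases zero_off hf hf hbR hs hz with h | h
  · exact Or.inl h
  · exact Or.inr h.1

lemma hasDerivAt_NN (h : KSol T f E B) (hb : b ∈ Ico 0 T) (hbR : b ≤ R)
    (hf : MB x₀ R P b f) (ht : t ∈ Ioo 0 b) :
    HasDerivAt (NN R x₀ Q c f) (∫ z, NN' R x₀ Q c f t z) t := by
  have := isAddHaar_prod
  have hsub : Ioo 0 b ⊆ Ioo 0 T := Ioo_subset_Ioo_right hb.2.le
  refine hasDerivAt_integral_of_compact (μ := (volume : Measure (E3 × E3))) (a := 0) (b := b)
    (F := fun s (z : E3 × E3) => ph R x₀ s z.1 * (Lam (q z.2 - Q - c * s) * f s z.1 z.2))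
    (F' := NN' R x₀ Q c f) (isCompact_KR' (x₀ := x₀) (R := R) (P := P)) ?_ ?_ ?_ ?_ ht
  · intro s hs z hz
    show ph R x₀ s z.1 * (Lam (q z.2 - Q - c * s) * f s z.1 z.2) = 0
    rcases zero_off1 hf hbR (Ioo_subset_Icc_self hs) hz with h0 | h0
    · rw [h0, zero_mul]
    · rw [h0, mul_zero, mul_zero]
  · intro s hs z
    have h1 := hasDerivAt_of_slab h.f_contDiff (hsub hs) z
    have h2 : HasDerivAt (fun r : ℝ => q z.2 - Q - c * r) (-c) s := by
      simpa using ((hasDerivAt_id s).const_mul c).const_sub (q z.2 - Q)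
    have h3 := (hasDerivAt_Lam (q z.2 - Q - c * s)).comp s h2
    have h4 := (hasDerivAt_ph (R := R) (x₀ := x₀) s z.1).mul (h3.mul h1)
    exact h4
  · intro s hs
    have h1 := (h.f_slice (Ioo_subset_Ico_self (hsub hs))).continuous
    have h2 : Continuous fun z : E3 × E3 => Lam (q z.2 - Q - c * s) :=
      contDiff_Lam.continuous.comp
        (((continuous_q.comp continuous_snd).sub continuous_const).sub continuous_const)
    exact ((contDiff_ph_slice s).continuous.comp continuous_fst).mul (h2.mul h1)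
  · have h1 : ContinuousOn (fun y : ℝ × E3 × E3 => f y.1 y.2.1 y.2.2) (Ioo 0 b ×ˢ univ) :=
      h.f_contDiff.continuousOn.mono
        (prod_mono (hsub.trans Ioo_subset_Ico_self) (subset_refl _))
    have h3 := (continuousOn_fderiv_of_slab h.f_contDiff).mono
      (prod_mono hsub (subset_refl univ))
    have h5 : Continuous fun y : ℝ × E3 × E3 => mh R x₀ y.1 y.2.1 :=
      continuous_mh2.comp (f := fun y : ℝ × E3 × E3 => (y.1, y.2.1)) (by fun_prop)
    have h6 : Continuous fun y : ℝ × E3 × E3 => ph R x₀ y.1 y.2.1 :=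
      continuous_ph2.comp (f := fun y : ℝ × E3 × E3 => (y.1, y.2.1)) (by fun_prop)
    have h7 : Continuous fun y : ℝ × E3 × E3 => q y.2.2 - Q - c * y.1 :=
      ((continuous_q.comp (continuous_snd.comp continuous_snd)).sub continuous_const).sub
        (continuous_const.mul continuous_fst)
    have h8 := contDiff_Lam.continuous.comp h7
    have h9 := continuous_lam.comp h7
    unfold NN'
    refine ContinuousOn.add ?_ ?_
    · refine ContinuousOn.mul (Continuous.continuousOn ?_) (h8.continuousOn.mul h1)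
      exact (by fun_prop : Continuous fun y : ℝ × E3 × E3 => -4 * (R - y.1)).mul h5
    · exact h6.continuousOn.mul (((h9.mul continuous_const).continuousOn.mul h1).add
        (h8.continuousOn.mul h3))

lemma continuousOn_NN (h : KSol T f E B) (hb : b ∈ Ico 0 T) (hbR : b ≤ R)
    (hf : MB x₀ R P b f) : ContinuousOn (NN R x₀ Q c f) (Icc 0 b) := by
  have := isAddHaar_prod
  have hsub : Icc 0 b ⊆ Ico 0 T := Icc_subset_Ico_right hb.2
  refine continuousOn_integral_of_compact_support
    (isCompact_KR' (x₀ := x₀) (R := R) (P := P)) ?_ ?_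
  · have h7 : Continuous fun y : ℝ × E3 × E3 => q y.2.2 - Q - c * y.1 :=
      ((continuous_q.comp (continuous_snd.comp continuous_snd)).sub continuous_const).sub
        (continuous_const.mul continuous_fst)
    refine ContinuousOn.mul ?_ ?_
    · exact (continuous_ph2.comp (f := fun y : ℝ × E3 × E3 => (y.1, y.2.1))
        (by fun_prop)).continuousOn
    · exact (contDiff_Lam.continuous.comp h7).continuousOn.mul
        (h.f_contDiff.continuousOn.mono (prod_mono hsub (subset_refl _)))
  · intro s z hs hz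
    rcases zero_off1 hf hbR hs hz with h0 | h0
    · rw [h0, zero_mul]
    · rw [h0, mul_zero, mul_zero]

lemma NN_nonneg {s : ℝ} (hn : ∀ x v, 0 ≤ f s x v) : 0 ≤ NN R x₀ Q c f s :=
  integral_nonneg fun _ => mul_nonneg (ph_nonneg _ _) (mul_nonneg (Lam_nonneg _) (hn _ _))

/-- The growth of the tail part. -/
lemma NN_growth (h : KSol T f E B) (h' : KSol T g E' B') (hb : b ∈ Ico 0 T) (hbR : b ≤ R)
    (hf : MB x₀ R P b f) (hg : MB x₀ R P b g) (ht : t ∈ Ioo 0 b) (hc0 : 0 ≤ c)
    (hn : ∀ x v, 0 ≤ f t x v) (hc : ∀ x v, f t x v ≠ 0 → ‖E' t x‖ ≤ c)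
    (hQ : ∀ x v, g t x v ≠ 0 → q v ≤ Q) :
    ∫ z, NN' R x₀ Q c f t z
      ≤ ∫ z : E3 × E3, (ph R x₀ t z.1 * (lam (q z.2 - Q - c * t)
          * (f t z.1 z.2 - g t z.1 z.2))) * ⟪u z.2, E t z.1 - E' t z.1⟫ := by
  have := isAddHaar_prod
  have htb : t ∈ Icc 0 b := Ioo_subset_Icc_self ht
  have htT : t ∈ Ioo 0 T := ⟨ht.1, ht.2.trans hb.2⟩
  have htT' : t ∈ Ico 0 T := Ioo_subset_Ico_self htT
  have htR : t ≤ R := ht.2.le.trans hbR
  have hf1 := h.f_slice htT'
  have hg1 := h'.f_slice htT'
  set m : E3 × E3 → ℝ := fun z => Lam (q z.2 - Q - c * t) with hm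
  have hqd : ContDiff ℝ 1 fun z : E3 × E3 => q z.2 - Q - c * t :=
    ((q_contDiff.comp contDiff_snd).sub contDiff_const).sub contDiff_const
  have hm1 : ContDiff ℝ 1 m := contDiff_Lam.comp hqd
  have hlc : Continuous fun z : E3 × E3 => lam (q z.2 - Q - c * t) :=
    continuous_lam.comp hqd.continuous
  have hph1 : ContDiff ℝ 1 fun z : E3 × E3 => ph R x₀ t z.1 :=
    (contDiff_ph_slice t).comp contDiff_fst
  have hG1 : ContDiff ℝ 1 fun z : E3 × E3 => ph R x₀ t z.1 * (m z * f t z.1 z.2) :=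
    hph1.mul (hm1.mul hf1)
  have hGc : HasCompactSupport fun z : E3 × E3 => ph R x₀ t z.1 * (m z * f t z.1 z.2) := by
    refine HasCompactSupport.intro (isCompact_KR' (x₀ := x₀) (R := R) (P := P)) fun z hz => ?_
    rcases zero_off1 hf hbR htb hz with h0 | h0
    · rw [h0, zero_mul]
    · rw [h0, mul_zero, mul_zero]
  have htr := transport_ibp hG1 hGc (h.E_slice htT') (h.B_slice htT')
  have hmd : ∀ z : E3 × E3, HasFDerivAt m (lam (q z.2 - Q - c * t) •
      (((q z.2)⁻¹ • innerSL ℝ z.2).comp (ContinuousLinearMap.snd ℝ E3 E3))) z := by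
    intro z
    have h3 : HasFDerivAt (fun z : E3 × E3 => q z.2)
        (((q z.2)⁻¹ • innerSL ℝ z.2).comp (ContinuousLinearMap.snd ℝ E3 E3)) z :=
      (hasFDerivAt_q z.2).comp z hasFDerivAt_snd
    have h4 := (h3.sub_const Q).sub_const (c * t)
    exact (hasDerivAt_Lam (q z.2 - Q - c * t)).comp_hasFDerivAt z h4
  have hGd : ∀ z a : E3 × E3,
      fderiv ℝ (fun z : E3 × E3 => ph R x₀ t z.1 * (m z * f t z.1 z.2)) z a
      = fderiv ℝ (ph R x₀ t) z.1 a.1 * (m z * f t z.1 z.2)
        + ph R x₀ t z.1 * (lam (q z.2 - Q - c * t) * ⟪u z.2, a.2⟫ * f t z.1 z.2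
          + m z * fderiv ℝ (fun y : E3 × E3 => f t y.1 y.2) z a) := by
    intro z a
    have a1 : HasFDerivAt (ph R x₀ t) (fderiv ℝ (ph R x₀ t) z.1) z.1 :=
      ((contDiff_ph_slice t).differentiable (by norm_num)).differentiableAt.hasFDerivAt
    have a2 : HasFDerivAt (fun z : E3 × E3 => ph R x₀ t z.1)
        ((fderiv ℝ (ph R x₀ t) z.1).comp (ContinuousLinearMap.fst ℝ E3 E3)) z :=
      a1.comp z hasFDerivAt_fst
    have a3 : HasFDerivAt (fun y : E3 × E3 => f t y.1 y.2)
        (fderiv ℝ (fun y : E3 × E3 => f t y.1 y.2) z) z :=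
      (hf1.differentiable (by norm_num)).differentiableAt.hasFDerivAt
    have a4 := a2.mul ((hmd z).mul a3)
    have a5 : fderiv ℝ (fun z : E3 × E3 => ph R x₀ t z.1 * (m z * f t z.1 z.2)) z = _ :=
      a4.fderiv
    rw [a5, inner_u_eq]
    simp
    ring
  -- the sum
  have hsum : ∀ z : E3 × E3, NN' R x₀ Q c f t z
      + fderiv ℝ (fun z : E3 × E3 => ph R x₀ t z.1 * (m z * f t z.1 z.2)) z
          (u z.2, E t z.1 + cross (u z.2) (B t z.1))
      = (-4 * (R - t) * mh R x₀ t z.1 + fderiv ℝ (ph R x₀ t) z.1 (u z.2))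
          * (m z * f t z.1 z.2)
        + ph R x₀ t z.1 * (lam (q z.2 - Q - c * t) * (⟪u z.2, E t z.1⟫ - c)
          * f t z.1 z.2) := by
    intro z
    rw [hGd]
    unfold NN'
    rw [h.vlasov_fderiv htT]
    simp only [inner_add_right, inner_cross_self, add_zero, hm]
    ring
  -- the pointwise bound
  have hpt : ∀ z : E3 × E3, NN' R x₀ Q c f t z
      + fderiv ℝ (fun z : E3 × E3 => ph R x₀ t z.1 * (m z * f t z.1 z.2)) z
          (u z.2, E t z.1 + cross (u z.2) (B t z.1))
      ≤ (ph R x₀ t z.1 * (lam (q z.2 - Q - c * t)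
          * (f t z.1 z.2 - g t z.1 z.2))) * ⟪u z.2, E t z.1 - E' t z.1⟫ := by
    intro z
    rw [hsum]
    have a1 := kin_pointwise (x₀ := x₀) htR le_rfl (x := z.1) (v := z.2)
      (e := 0) (b := 0) (w := 1) (D := 0) (by simp)
    have a2 : (-4 * (R - t) * mh R x₀ t z.1 + fderiv ℝ (ph R x₀ t) z.1 (u z.2)) ≤ 0 := by
      norm_num at a1
      linarith
    have a3 : 0 ≤ m z * f t z.1 z.2 := mul_nonneg (Lam_nonneg _) (hn _ _)
    have a4 := mul_nonpos_of_nonpos_of_nonneg a2 a3
    have hl := lam_nonneg (q z.2 - Q - c * t)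
    have hp := ph_nonneg (R := R) (x₀ := x₀) t z.1
    have a5 : lam (q z.2 - Q - c * t) * g t z.1 z.2 = 0 := by
      by_cases hg0 : g t z.1 z.2 = 0
      · rw [hg0, mul_zero]
      · have := hQ _ _ hg0
        have h2 : 0 ≤ c * t := mul_nonneg hc0 ht.1.le
        rw [lam_eq_zero (by linarith), zero_mul]
    have a6 : lam (q z.2 - Q - c * t) * (⟪u z.2, E t z.1⟫ - c) * f t z.1 z.2
        ≤ lam (q z.2 - Q - c * t) * ⟪u z.2, E t z.1 - E' t z.1⟫ * f t z.1 z.2 := by
      by_cases hf0 : f t z.1 z.2 = 0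
      · rw [hf0, mul_zero, mul_zero]
      · have h1 := hc _ _ hf0
        have h2 : ⟪u z.2, E' t z.1⟫ ≤ ‖E' t z.1‖ := by
          refine (le_abs_self _).trans ((abs_real_inner_le_norm _ _).trans ?_)
          exact mul_le_of_le_one_left (norm_nonneg _) (norm_u_lt_one _).le
        rw [inner_sub_right]
        refine mul_le_mul_of_nonneg_right (mul_le_mul_of_nonneg_left ?_ hl) (hn _ _)
        linarith
    have a7 := mul_le_mul_of_nonneg_left a6 hp
    have a8 : (ph R x₀ t z.1 * (lam (q z.2 - Q - c * t)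
          * (f t z.1 z.2 - g t z.1 z.2))) * ⟪u z.2, E t z.1 - E' t z.1⟫
        = ph R x₀ t z.1 * (lam (q z.2 - Q - c * t) * ⟪u z.2, E t z.1 - E' t z.1⟫
          * f t z.1 z.2)
          - ph R x₀ t z.1 * ⟪u z.2, E t z.1 - E' t z.1⟫
            * (lam (q z.2 - Q - c * t) * g t z.1 z.2) := by ring
    rw [a8, a5, mul_zero, sub_zero]
    linarith
  -- integrability
  have i1 : Integrable fun z : E3 × E3 =>
      fderiv ℝ (fun z : E3 × E3 => ph R x₀ t z.1 * (m z * f t z.1 z.2)) z
          (u z.2, E t z.1 + cross (u z.2) (B t z.1)) := by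
    have cu : Continuous fun z : E3 × E3 => u z.2 := continuous_u.comp continuous_snd
    have cF : Continuous fun z : E3 × E3 => E t z.1 :=
      (h.E_slice htT').continuous.comp continuous_fst
    have cH : Continuous fun z : E3 × E3 => cross (u z.2) (B t z.1) :=
      (contDiff_cross (u_contDiff.comp contDiff_snd)
        ((h.B_slice htT').comp contDiff_fst)).continuous
    refine Continuous.integrable_of_hasCompactSupport ?_ ?_
    · exact (hG1.continuous_fderiv (by norm_num)).clm_apply (cu.prodMk (cF.add cH))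
    · refine HasCompactSupport.intro (hGc.fderiv (𝕜 := ℝ)) fun x hx => ?_
      rw [image_eq_zero_of_notMem_tsupport hx]
      simp
  have i2 : Integrable fun z : E3 × E3 => NN' R x₀ Q c f t z := by
    refine Continuous.integrable_of_hasCompactSupport ?_ ?_
    · have a2 : ContinuousOn (fun z : E3 × E3 =>
            fderiv ℝ (fun y : ℝ × E3 × E3 => f y.1 y.2.1 y.2.2) (t, z) (1, 0)) univ :=
          (continuousOn_fderiv_of_slab h.f_contDiff).comp (f := fun z : E3 × E3 => (t, z))
            (by fun_prop) (fun z _ => ⟨htT, mem_univ _⟩)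
      have a4 := continuousOn_univ.1 a2
      have a3 : Continuous fun z : E3 × E3 => mh R x₀ t z.1 :=
        continuous_mh2.comp (f := fun z : E3 × E3 => (t, z.1)) (by fun_prop)
      unfold NN'
      exact ((continuous_const.mul a3).mul (hm1.continuous.mul hf1.continuous)).add
        (hph1.continuous.mul (((hlc.mul continuous_const).mul hf1.continuous).add
          (hm1.continuous.mul a4)))
    · have hz0 : ∀ z ∉ KR x₀ R P, ph R x₀ t z.1 = 0 ∨
          (f t z.1 z.2 = 0 ∧ fderiv ℝ (fun y : ℝ × E3 × E3 => f y.1 y.2.1 y.2.2) (t, z) (1, 0)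
            = 0) := by
        intro z hz
        by_cases hx : ph R x₀ t z.1 = 0
        · exact Or.inl hx
        · right
          have hxb : ‖z.1 - x₀‖ ≤ R := by
            by_contra hne
            push Not at hne
            exact hx (ph_eq_zero ht.1.le htR hne.le)
          have hv : ¬ ‖z.2‖ ≤ P := fun hv => hz ⟨by rwa [mem_closedBall_iff_norm], by simpa using hv⟩
          have hfz : ∀ s ∈ Icc 0 b, f s z.1 z.2 = 0 := by
            intro s hs
            by_contra hne
            exact hv (hf s hs _ _ hxb hne)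
          refine ⟨hfz t htb, ?_⟩
          have h1 := hasDerivAt_of_slab h.f_contDiff htT z
          have h2 : HasDerivAt (fun s => f s z.1 z.2) 0 t := by
            refine (hasDerivAt_const t (0 : ℝ)).congr_of_eventuallyEq ?_
            filter_upwards [Ioo_mem_nhds ht.1 ht.2] with r hr
            exact hfz r (Ioo_subset_Icc_self hr)
          exact h1.unique h2
      refine HasCompactSupport.intro (isCompact_KR' (x₀ := x₀) (R := R) (P := P)) fun z hz => ?_
      unfold NN'
      rcases hz0 z hz with h0 | ⟨h0, h1⟩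
      · rw [mh_eq_zero_of_ph h0, h0]
        ring
      · rw [h0, h1]
        ring
  have i3 : Integrable fun z : E3 × E3 => (ph R x₀ t z.1 * (lam (q z.2 - Q - c * t)
          * (f t z.1 z.2 - g t z.1 z.2))) * ⟪u z.2, E t z.1 - E' t z.1⟫ := by
    have he : Continuous fun x => E t x - E' t x :=
      (h.E_slice htT').continuous.sub (h'.E_slice htT').continuous
    refine Continuous.integrable_of_hasCompactSupport
      ((hph1.continuous.mul (hlc.mul (hf1.continuous.sub hg1.continuous))).mul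
        ((continuous_u.comp continuous_snd).inner (he.comp continuous_fst))) ?_
    refine HasCompactSupport.mul_right ?_
    refine HasCompactSupport.intro (isCompact_KR' (x₀ := x₀) (R := R) (P := P)) fun z hz => ?_
    rcases zero_off hf hg hbR htb hz with h0 | ⟨h0, h1⟩
    · rw [h0, zero_mul]
    · rw [h0, h1, sub_zero, mul_zero, mul_zero]
  have key : ∫ z, NN' R x₀ Q c f t z
      = ∫ z : E3 × E3, (NN' R x₀ Q c f t z
        + fderiv ℝ (fun z : E3 × E3 => ph R x₀ t z.1 * (m z * f t z.1 z.2)) z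
          (u z.2, E t z.1 + cross (u z.2) (B t z.1))) := by
    rw [integral_add i2 i1, htr, add_zero]
  rw [key]
  exact integral_mono (i2.add i1) i3 hpt

end Vale.Agent.P107.H706
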