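import Vale.Agent.P107.H706.Stab2

/-!
Stability in the energy space: the estimate.
-/

attribute [-instance] ProperSMul.toContinuousSMul IsTopologicalTorsor.toContinuousSMul
  IdemSemiring.toCanonicallyOrderedAdd IdemSemiring.toMulLeftMono IdemSemiring.toMulRightMono
  AddQuantale.instAddLeftMono AddQuantale.instAddRightMono Quantale.instMulLeftMono
  Quantale.instMulRightMono FiniteDimensional.rclike_to_real IsScalarTower.complexToReal
  FiniteDimensional.complexToReal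

open MeasureTheory Set Filter Topology
open scoped RealInnerProductSpace ENNReal NNReal

namespace Vale.Agent.P107.H706

open Cn

variable {T : ℝ} {f g : ℝ → E3 → E3 → ℝ} {E B E' B' : ℝ → E3 → E3} {R P b t Q c : ℝ} {x₀ : E3}

/-- The sum of the three growth estimates. -/
lemma growth_sum (h : LSol T f E B) (h' : LSol T g E' B') (hb : b ∈ Ico 0 T) (hbR : b ≤ R)
    (hf : MB x₀ R P b f) (hg : MB x₀ R P b g) (ht : t ∈ Ioo 0 b) (hc0 : 0 ≤ c)
    (hn : ∀ x v, 0 ≤ f t x v) (hc : ∀ x v, f t x v ≠ 0 → ‖E' t x‖ ≤ c)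
    (hQ : ∀ x v, g t x v ≠ 0 → q v ≤ Q) {L : ℝ} (hL : 0 ≤ L)
    (hD : ∀ z : E3 × E3, ∀ a : E3,
      |fderiv ℝ (fun y : E3 × E3 => g t y.1 y.2) z (0, a)| ≤ L * ‖a‖) :
    (∫ z, KK' R x₀ f g t z) + (∫ x, MM' R x₀ E B E' B' t x) + 2 * ∫ z, NN' R x₀ Q c f t z
      ≤ (L + 1) * KK R x₀ f g t
        + (2 * L * vo Q + vo (Q + c * b + 1)) * MM R x₀ E B E' B' t := by
  have := isAddHaar_prod
  have htb : t ∈ Icc 0 b := Ioo_subset_Icc_self ht
  have htT : t ∈ Ioo 0 T := ⟨ht.1, ht.2.trans hb.2⟩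
  have htT' : t ∈ Ico 0 T := Ioo_subset_Ico_self htT
  have hgP : ∀ x v, Q < ‖v‖ → g t x v = 0 := by
    intro x v hv
    by_contra hne
    have h1 := hQ x v hne
    have h2 := norm_lt_q v
    linarith
  have g1 := KK_growth2 (E := E) (B := B) h.toKSol h'.toKSol hb hbR hf hg ht hL hgP hD
  have g2 := MM_growth2 h h' hb hbR hf hg ht
  have g3 := NN_growth h.toKSol h'.toKSol hb hbR hf hg ht hc0 hn hc hQ
  have hf1 := h.f_slice htT'
  have hg1 := h'.f_slice htT'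
  have he : Continuous fun x => E t x - E' t x :=
    (h.E_slice htT').continuous.sub (h'.E_slice htT').continuous
  have hph1 : Continuous fun z : E3 × E3 => ph R x₀ t z.1 :=
    (contDiff_ph_slice t).continuous.comp continuous_fst
  have hlc : Continuous fun z : E3 × E3 => lam (q z.2 - Q - c * t) :=
    continuous_lam.comp
      (((continuous_q.comp continuous_snd).sub continuous_const).sub continuous_const)
  have hin : Continuous fun z : E3 × E3 => ⟪u z.2, E t z.1 - E' t z.1⟫ :=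
    (continuous_u.comp continuous_snd).inner (he.comp continuous_fst)
  have i1 : Integrable fun z : E3 × E3 => (ph R x₀ t z.1 * (f t z.1 z.2 - g t z.1 z.2))
      * ⟪u z.2, E t z.1 - E' t z.1⟫ := by
    refine Continuous.integrable_of_hasCompactSupport
      ((hph1.mul (hf1.continuous.sub hg1.continuous)).mul hin) ?_
    refine HasCompactSupport.mul_right ?_
    refine HasCompactSupport.intro (isCompact_KR' (x₀ := x₀) (R := R) (P := P)) fun z hz => ?_
    rcases zero_off hf hg hbR htb hz with h0 | ⟨h0, h1⟩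
    · rw [h0, zero_mul]
    · rw [h0, h1, sub_zero, mul_zero]
  have i2 : Integrable fun z : E3 × E3 => (ph R x₀ t z.1 * (lam (q z.2 - Q - c * t)
          * (f t z.1 z.2 - g t z.1 z.2))) * ⟪u z.2, E t z.1 - E' t z.1⟫ := by
    refine Continuous.integrable_of_hasCompactSupport
      ((hph1.mul (hlc.mul (hf1.continuous.sub hg1.continuous))).mul hin) ?_
    refine HasCompactSupport.mul_right ?_
    refine HasCompactSupport.intro (isCompact_KR' (x₀ := x₀) (R := R) (P := P)) fun z hz => ?_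
    rcases zero_off hf hg hbR htb hz with h0 | ⟨h0, h1⟩
    · rw [h0, zero_mul]
    · rw [h0, h1, sub_zero, mul_zero, mul_zero]
  have k1 := integrable_kin h.toKSol h'.toKSol hb hbR hf hg htb
  have k2 := integrable_mul_ind (integrable_fd h.toKSol h'.toKSol hb hbR htb (R := R) (x₀ := x₀))
    (Q + c * b + 1)
  have hpt : ∀ z : E3 × E3,
      -2 * ((ph R x₀ t z.1 * (f t z.1 z.2 - g t z.1 z.2)) * ⟪u z.2, E t z.1 - E' t z.1⟫)
        + 2 * ((ph R x₀ t z.1 * (lam (q z.2 - Q - c * t)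
          * (f t z.1 z.2 - g t z.1 z.2))) * ⟪u z.2, E t z.1 - E' t z.1⟫)
      ≤ ph R x₀ t z.1 * (f t z.1 z.2 - g t z.1 z.2) ^ 2
        + fd R x₀ E B E' B' t z.1 * ind (Q + c * b + 1) z.2 := by
    intro z
    have b1 : 0 ≤ ph R x₀ t z.1 := ph_nonneg _ _
    have hl0 := lam_nonneg (q z.2 - Q - c * t)
    have hl1 := lam_le_one (q z.2 - Q - c * t)
    by_cases hv : ‖z.2‖ ≤ Q + c * b + 1
    · rw [ind_eq_one hv, mul_one]
      unfold fd
      have b2 : |⟪u z.2, E t z.1 - E' t z.1⟫| ≤ ‖E t z.1 - E' t z.1‖ := by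
        refine (abs_real_inner_le_norm _ _).trans ?_
        exact mul_le_of_le_one_left (norm_nonneg _) (norm_u_lt_one _).le
      have b3 : ⟪u z.2, E t z.1 - E' t z.1⟫ ^ 2 ≤ ‖E t z.1 - E' t z.1‖ ^ 2 := by
        rw [← sq_abs ⟪u z.2, E t z.1 - E' t z.1⟫]
        exact pow_le_pow_left₀ (abs_nonneg _) b2 2
      set w := f t z.1 z.2 - g t z.1 z.2 with hw
      set d := ⟪u z.2, E t z.1 - E' t z.1⟫ with hd
      set l := lam (q z.2 - Q - c * t) with hl
      have b4 : -2 * ((1 - l) * (w * d)) ≤ w ^ 2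
            + (‖E t z.1 - E' t z.1‖ ^ 2 + ‖B t z.1 - B' t z.1‖ ^ 2) := by
        have c1 : -2 * (w * d) ≤ w ^ 2 + d ^ 2 := by nlinarith only [sq_nonneg (w + d)]
        have c2 : (1 - l) * (-2 * (w * d)) ≤ (1 - l) * (w ^ 2 + d ^ 2) :=
          mul_le_mul_of_nonneg_left c1 (by linarith)
        have c3 : (1 - l) * (w ^ 2 + d ^ 2) ≤ 1 * (w ^ 2 + d ^ 2) :=
          mul_le_mul_of_nonneg_right (by linarith) (by positivity)
        nlinarith only [c2, c3, b3, sq_nonneg ‖B t z.1 - B' t z.1‖]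
      have b5 := mul_le_mul_of_nonneg_left b4 b1
      linarith only [b5]
    · push Not at hv
      have h2 := norm_lt_q z.2
      have h3 : c * t ≤ c * b := mul_le_mul_of_nonneg_left ht.2.le hc0
      rw [lam_eq_one (by linarith)]
      have h4 : 0 ≤ fd R x₀ E B E' B' t z.1 * ind (Q + c * b + 1) z.2 :=
        mul_nonneg (fd_nonneg _ _) (ind_nonneg _ _)
      have h5 : 0 ≤ ph R x₀ t z.1 * (f t z.1 z.2 - g t z.1 z.2) ^ 2 :=
        mul_nonneg b1 (sq_nonneg _)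
      have h6 : -2 * ((ph R x₀ t z.1 * (f t z.1 z.2 - g t z.1 z.2))
            * ⟪u z.2, E t z.1 - E' t z.1⟫)
          + 2 * ((ph R x₀ t z.1 * (1 * (f t z.1 z.2 - g t z.1 z.2)))
            * ⟪u z.2, E t z.1 - E' t z.1⟫) = 0 := by ring
      rw [h6]
      linarith
  have hle := integral_mono ((i1.const_mul (-2)).add (i2.const_mul 2)) (k1.add k2) hpt
  simp only [Pi.add_apply] at hle
  rw [integral_add (i1.const_mul (-2)) (i2.const_mul 2), integral_const_mul, integral_const_mul,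
    integral_add k1 k2, integral_mul_ind] at hle
  have e1 : (∫ z : E3 × E3, ph R x₀ t z.1 * (f t z.1 z.2 - g t z.1 z.2) ^ 2) = KK R x₀ f g t :=
    rfl
  have e2 : (∫ x, fd R x₀ E B E' B' t x) = MM R x₀ E B E' B' t := rfl
  rw [e1, e2] at hle
  linarith only [g1, g2, g3, hle]

/-- The constant of the stability estimate. -/
noncomputable def stabC (L Q c b : ℝ) : ℝ := L + 1 + 2 * L * vo Q + vo (Q + c * b + 1)

/-- The weighted estimate. -/
lemma weighted (h : LSol T f E B) (h' : LSol T g E' B') (hb : b ∈ Ico 0 T) (hbR : b ≤ R)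
    (hc0 : 0 ≤ c)
    (hn : ∀ s ∈ Icc 0 b, ∀ x v, 0 ≤ f s x v)
    (hc : ∀ s ∈ Icc 0 b, ∀ x v, f s x v ≠ 0 → ‖E' s x‖ ≤ c)
    (hQ : ∀ s ∈ Icc 0 b, ∀ x v, g s x v ≠ 0 → q v ≤ Q) {L : ℝ} (hL : 0 ≤ L)
    (hD : ∀ s ∈ Ioo 0 b, ∀ z : E3 × E3, ∀ a : E3,
      |fderiv ℝ (fun y : E3 × E3 => g s y.1 y.2) z (0, a)| ≤ L * ‖a‖) :
    Real.exp (-(stabC L Q c b) * b)
        * (KK R x₀ f g b + MM R x₀ E B E' B' b + 2 * NN R x₀ Q c f b)
      ≤ KK R x₀ f g 0 + MM R x₀ E B E' B' 0 + 2 * NN R x₀ Q c f 0 := by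
  obtain ⟨P₁, hP₁⟩ := h.exists_MB hb x₀ R
  obtain ⟨P₂, hP₂⟩ := h'.exists_MB hb x₀ R
  have hf := hP₁.mono (le_max_left P₁ P₂)
  have hg := hP₂.mono (le_max_right P₁ P₂)
  set P := max P₁ P₂
  set C : ℝ := stabC L Q c b with hC
  have hderiv : ∀ s ∈ Ioo 0 b, HasDerivAt
      (fun s => Real.exp (-C * s)
        * (KK R x₀ f g s + MM R x₀ E B E' B' s + 2 * NN R x₀ Q c f s))
      (Real.exp (-C * s) * (-C)
          * (KK R x₀ f g s + MM R x₀ E B E' B' s + 2 * NN R x₀ Q c f s)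
        + Real.exp (-C * s) * ((∫ z, KK' R x₀ f g s z) + (∫ x, MM' R x₀ E B E' B' s x)
          + 2 * ∫ z, NN' R x₀ Q c f s z)) s := by
    intro s hs
    have e1 : HasDerivAt (fun s : ℝ => Real.exp (-C * s)) (Real.exp (-C * s) * (-C)) s := by
      have := ((hasDerivAt_id s).const_mul (-C)).exp
      simpa using this
    exact e1.mul (((hasDerivAt_KK h.toKSol h'.toKSol hb hbR hf hg hs).add
      (hasDerivAt_MM h h' hb hbR hs)).add
      ((hasDerivAt_NN h.toKSol hb hbR hf hs).const_mul 2))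
  have hanti : AntitoneOn (fun s => Real.exp (-C * s)
      * (KK R x₀ f g s + MM R x₀ E B E' B' s + 2 * NN R x₀ Q c f s)) (Icc 0 b) := by
    refine antitoneOn_of_deriv_nonpos (convex_Icc _ _) ?_ (fun s hs => ?_) (fun s hs => ?_)
    · refine ContinuousOn.mul (by fun_prop) ?_
      exact ((continuousOn_KK h.toKSol h'.toKSol hb hbR hf hg).add
        (continuousOn_MM h h' hb hbR)).add
        ((continuousOn_NN h.toKSol hb hbR hf).const_mul 2)
    · rw [interior_Icc] at hs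
      exact (hderiv s hs).differentiableAt.differentiableWithinAt
    · rw [interior_Icc] at hs
      rw [(hderiv s hs).deriv]
      have hsI : s ∈ Icc 0 b := Ioo_subset_Icc_self hs
      have gs := growth_sum h h' hb hbR hf hg hs hc0 (hn s hsI) (hc s hsI) (hQ s hsI) hL
        (hD s hs)
      have k0 := KK_nonneg (R := R) (x₀ := x₀) (f := f) (g := g) s
      have m0 := MM_nonneg (R := R) (x₀ := x₀) (E := E) (B := B) (E' := E') (B' := B') s
      have n0 := NN_nonneg (R := R) (x₀ := x₀) (Q := Q) (c := c) (hn s hsI)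
      have v0 := vo_nonneg Q
      have v1 := vo_nonneg (Q + c * b + 1)
      have key : -C * (KK R x₀ f g s + MM R x₀ E B E' B' s + 2 * NN R x₀ Q c f s)
          + ((∫ z, KK' R x₀ f g s z) + (∫ x, MM' R x₀ E B E' B' s x)
            + 2 * ∫ z, NN' R x₀ Q c f s z) ≤ 0 := by
        have p1 : 0 ≤ (L + 1) * MM R x₀ E B E' B' s := mul_nonneg (by linarith) m0
        have p2 : 0 ≤ (2 * L * vo Q + vo (Q + c * b + 1)) * KK R x₀ f g s :=
          mul_nonneg (by positivity) k0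
        have p3 : 0 ≤ (L + 1 + 2 * L * vo Q + vo (Q + c * b + 1))
            * (2 * NN R x₀ Q c f s) :=
          mul_nonneg (by positivity) (by linarith)
        rw [hC]
        unfold stabC
        linarith only [gs, p1, p2, p3]
      have hexp := (Real.exp_pos (-C * s)).le
      nlinarith only [mul_nonneg hexp (neg_nonneg.2 key)]
  have h1 := hanti ⟨le_rfl, hb.1⟩ ⟨hb.1, le_rfl⟩ hb.1
  simp only [mul_zero, Real.exp_zero, one_mul] at h1
  exact h1

/-! ### Removal of the weights -/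

lemma ph_le_pow {n s : ℝ} (hs : 0 ≤ s) (hn : s ≤ n) (x : E3) : ph n 0 s x ≤ n ^ 4 := by
  unfold ph th
  have h1 : (n - s) ^ 2 - ‖x - 0‖ ^ 2 ≤ n ^ 2 := by
    nlinarith [sq_nonneg ‖x - 0‖]
  have h2 : max ((n - s) ^ 2 - ‖x - 0‖ ^ 2) 0 ≤ n ^ 2 := max_le h1 (sq_nonneg n)
  have h3 : 0 ≤ max ((n - s) ^ 2 - ‖x - 0‖ ^ 2) 0 := le_max_right _ _
  calc (max ((n - s) ^ 2 - ‖x - 0‖ ^ 2) 0) ^ 2 ≤ (n ^ 2) ^ 2 := pow_le_pow_left₀ h3 h2 2
    _ = n ^ 4 := by ring

lemma ph_scaled {n s : ℝ} (hn : 0 < n) (x : E3) :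
    ph n 0 s x / n ^ 4 = th ((1 - s / n) ^ 2 - (‖x‖ / n) ^ 2) := by
  unfold ph th
  rw [sub_zero]
  have h1 : (n - s) ^ 2 - ‖x‖ ^ 2 = n ^ 2 * ((1 - s / n) ^ 2 - (‖x‖ / n) ^ 2) := by
    field_simp
  have h2 : max (n ^ 2 * ((1 - s / n) ^ 2 - (‖x‖ / n) ^ 2)) 0
      = n ^ 2 * max ((1 - s / n) ^ 2 - (‖x‖ / n) ^ 2) 0 := by
    rw [mul_max_of_nonneg _ _ (sq_nonneg n), mul_zero]
  rw [h1, h2]
  field_simp

lemma ph_tendsto (s : ℝ) (x : E3) :
    Tendsto (fun n : ℕ => ph (n : ℝ) 0 s x / (n : ℝ) ^ 4) atTop (𝓝 1) := by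
  have h1 : Tendsto (fun n : ℕ => (1 - s / (n : ℝ)) ^ 2 - (‖x‖ / (n : ℝ)) ^ 2) atTop
      (𝓝 ((1 - 0) ^ 2 - 0 ^ 2)) :=
    ((tendsto_const_nhds.sub (tendsto_const_div_atTop_nhds_zero_nat s)).pow 2).sub
      ((tendsto_const_div_atTop_nhds_zero_nat ‖x‖).pow 2)
  have h2 := (contDiff_th.continuous.tendsto _).comp h1
  have h3 : th ((1 - 0) ^ 2 - 0 ^ 2) = 1 := by
    unfold th
    norm_num
  rw [h3] at h2
  refine h2.congr' ?_
  filter_upwards [eventually_gt_atTop 0] with n hn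
  exact (ph_scaled (Nat.cast_pos.2 hn) x).symm

lemma tendsto_weighted {Z : Type*} [MeasurableSpace Z] {μ : Measure Z} {π : Z → E3}
    (hπ : Measurable π) {G : Z → ℝ} (hG : Integrable G μ) {s : ℝ} (hs : 0 ≤ s) :
    Tendsto (fun n : ℕ => (∫ z, ph (n : ℝ) 0 s (π z) * G z ∂μ) / (n : ℝ) ^ 4) atTop
      (𝓝 (∫ z, G z ∂μ)) := by
  have h1 : ∀ n : ℕ, (∫ z, ph (n : ℝ) 0 s (π z) * G z ∂μ) / (n : ℝ) ^ 4
      = ∫ z, ph (n : ℝ) 0 s (π z) / (n : ℝ) ^ 4 * G z ∂μ := by
    intro n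
    rw [← integral_div]
    refine integral_congr_ae (ae_of_all _ fun z => ?_)
    show ph (n : ℝ) 0 s (π z) * G z / (n : ℝ) ^ 4 = ph (n : ℝ) 0 s (π z) / (n : ℝ) ^ 4 * G z
    ring
  simp_rw [h1]
  refine tendsto_integral_filter_of_dominated_convergence (fun z => ‖G z‖) ?_ ?_ hG.norm ?_
  · refine Eventually.of_forall fun n => ?_
    have h2 : Measurable fun z => ph (n : ℝ) 0 s (π z) / (n : ℝ) ^ 4 :=
      ((contDiff_ph_slice s).continuous.measurable.comp hπ).div_const _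
    exact h2.aestronglyMeasurable.mul hG.1
  · obtain ⟨N, hN⟩ := exists_nat_ge s
    filter_upwards [eventually_ge_atTop (max N 1)] with n hn
    refine ae_of_all _ fun z => ?_
    have hn1 : (1 : ℝ) ≤ n := by
      exact_mod_cast (le_max_right N 1).trans hn
    have hn2 : s ≤ n := hN.trans (by exact_mod_cast (le_max_left N 1).trans hn)
    have h3 : 0 ≤ ph (n : ℝ) 0 s (π z) / (n : ℝ) ^ 4 :=
      div_nonneg (ph_nonneg _ _) (by positivity)
    have h4 : ph (n : ℝ) 0 s (π z) / (n : ℝ) ^ 4 ≤ 1 := by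
      rw [div_le_one (by positivity)]
      exact ph_le_pow hs hn2 _
    rw [norm_mul, Real.norm_of_nonneg h3]
    exact mul_le_of_le_one_left (norm_nonneg _) h4
  · refine ae_of_all _ fun z => ?_
    have := (ph_tendsto s (π z)).mul_const (G z)
    rwa [one_mul] at this

/-- **Stability in the energy space**, in the Euclidean space. -/
theorem stability (h : IsClassicalSolution T f E B) (h' : IsClassicalSolution T g E' B')
    (hl : LSol T f E B) (hl' : LSol T g E' B') (hb : b ∈ Ico 0 T) (hc0 : 0 ≤ c)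
    (hc : ∀ s ∈ Icc 0 b, ∀ x v, f s x v ≠ 0 → ‖E' s x‖ ≤ c)
    (hQ : ∀ s ∈ Icc 0 b, ∀ x v, g s x v ≠ 0 → q v ≤ Q) {L : ℝ} (hL : 0 ≤ L)
    (hD : ∀ s ∈ Ioo 0 b, ∀ z : E3 × E3, ∀ a : E3,
      |fderiv ℝ (fun y : E3 × E3 => g s y.1 y.2) z (0, a)| ≤ L * ‖a‖) :
    (∫ z : E3 × E3, (f b z.1 z.2 - g b z.1 z.2) ^ 2)
        + (∫ x, (‖E b x - E' b x‖ ^ 2 + ‖B b x - B' b x‖ ^ 2))
        + 2 * (∫ z : E3 × E3, Lam (q z.2 - Q - c * b) * f b z.1 z.2)
      ≤ Real.exp (stabC L Q c b * b) * ((∫ z : E3 × E3, (f 0 z.1 z.2 - g 0 z.1 z.2) ^ 2)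
        + (∫ x, (‖E 0 x - E' 0 x‖ ^ 2 + ‖B 0 x - B' 0 x‖ ^ 2))
        + 2 * (∫ z : E3 × E3, Lam (q z.2 - Q) * f 0 z.1 z.2)) := by
  have := isAddHaar_prod
  have h0T : (0 : ℝ) ∈ Ico 0 T := ⟨le_rfl, hb.1.trans_lt hb.2⟩
  have hkin : ∀ s ∈ Ico 0 T, Integrable fun z : E3 × E3 => (f s z.1 z.2 - g s z.1 z.2) ^ 2 := by
    intro s hs
    refine Continuous.integrable_of_hasCompactSupport
      (((h.f_slice hs).continuous.sub (h'.f_slice hs).continuous).pow 2) ?_
    have hsup : HasCompactSupport fun z : E3 × E3 => f s z.1 z.2 - g s z.1 z.2 :=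
      (h.hasCompactSupport hs).sub (h'.hasCompactSupport hs)
    exact hsup.comp_left (g := fun r : ℝ => r ^ 2) (by norm_num)
  have hfld : ∀ s ∈ Ico 0 T, Integrable fun x : E3 =>
      ‖E s x - E' s x‖ ^ 2 + ‖B s x - B' s x‖ ^ 2 := by
    intro s hs
    exact (integrable_norm_sq ((h.E_memLp s hs).sub (h'.E_memLp s hs))).add
      (integrable_norm_sq ((h.B_memLp s hs).sub (h'.B_memLp s hs)))
  have htail : ∀ s ∈ Ico 0 T, Integrable fun z : E3 × E3 =>
      Lam (q z.2 - Q - c * s) * f s z.1 z.2 := by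
    intro s hs
    have h2 : Continuous fun z : E3 × E3 => Lam (q z.2 - Q - c * s) :=
      contDiff_Lam.continuous.comp
        (((continuous_q.comp continuous_snd).sub continuous_const).sub continuous_const)
    exact (h2.mul (h.f_slice hs).continuous).integrable_of_hasCompactSupport
      (HasCompactSupport.mul_left (h.hasCompactSupport hs))
  have hlim : ∀ s ∈ Ico 0 T, Tendsto (fun n : ℕ =>
      (KK (n : ℝ) 0 f g s + MM (n : ℝ) 0 E B E' B' s + 2 * NN (n : ℝ) 0 Q c f s) / (n : ℝ) ^ 4)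
      atTop (𝓝 ((∫ z : E3 × E3, (f s z.1 z.2 - g s z.1 z.2) ^ 2)
        + (∫ x, (‖E s x - E' s x‖ ^ 2 + ‖B s x - B' s x‖ ^ 2))
        + 2 * (∫ z : E3 × E3, Lam (q z.2 - Q - c * s) * f s z.1 z.2))) := by
    intro s hs
    have a1 := tendsto_weighted (μ := (volume : Measure (E3 × E3))) measurable_fst (hkin s hs)
      hs.1
    have a2 := tendsto_weighted (μ := (volume : Measure E3)) (π := fun x => x) measurable_id
      (hfld s hs) hs.1
    have a3 := tendsto_weighted (μ := (volume : Measure (E3 × E3))) measurable_fst (htail s hs)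
      hs.1
    refine ((a1.add a2).add (a3.const_mul 2)).congr fun n => ?_
    show (KK (n : ℝ) 0 f g s) / (n : ℝ) ^ 4 + (MM (n : ℝ) 0 E B E' B' s) / (n : ℝ) ^ 4
      + 2 * ((NN (n : ℝ) 0 Q c f s) / (n : ℝ) ^ 4) = _
    ring
  have hle : ∀ᶠ n : ℕ in atTop, Real.exp (-(stabC L Q c b) * b)
      * ((KK (n : ℝ) 0 f g b + MM (n : ℝ) 0 E B E' B' b + 2 * NN (n : ℝ) 0 Q c f b)
        / (n : ℝ) ^ 4)
      ≤ (KK (n : ℝ) 0 f g 0 + MM (n : ℝ) 0 E B E' B' 0 + 2 * NN (n : ℝ) 0 Q c f 0)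
        / (n : ℝ) ^ 4 := by
    obtain ⟨N, hN⟩ := exists_nat_ge b
    filter_upwards [eventually_ge_atTop (max N 1)] with n hn
    have hn2 : b ≤ n := hN.trans (by exact_mod_cast (le_max_left N 1).trans hn)
    have hw := weighted (x₀ := 0) hl hl' hb hn2 hc0
      (fun s hs x v => h.f_nonneg s (Icc_subset_Ico_right hb.2 hs) x v) hc hQ hL hD
    rw [← mul_div_assoc]
    exact div_le_div_of_nonneg_right hw (by positivity)
  have hfin := le_of_tendsto_of_tendsto ((hlim b hb).const_mul _) (hlim 0 h0T) hle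
  simp only [mul_zero, sub_zero] at hfin
  have hexp : Real.exp (-(stabC L Q c b) * b) * Real.exp (stabC L Q c b * b) = 1 := by
    rw [← Real.exp_add]
    simp
  have hpos := Real.exp_pos (stabC L Q c b * b)
  have hmul := mul_le_mul_of_nonneg_left hfin hpos.le
  rw [← mul_assoc, mul_comm (Real.exp (stabC L Q c b * b)) (Real.exp (-(stabC L Q c b) * b)),
    hexp, one_mul] at hmul
  exact hmul

end Vale.Agent.P107.H706
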