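import Vale.Agent.P107.H706.Stab3
import Vale.Agent.P107.H706.Casimir

/-!
Stability in the energy space: uniform constants.
-/

attribute [-instance] ProperSMul.toContinuousSMul IsTopologicalTorsor.toContinuousSMul
  IdemSemiring.toCanonicallyOrderedAdd IdemSemiring.toMulLeftMono IdemSemiring.toMulRightMono
  AddQuantale.instAddLeftMono AddQuantale.instAddRightMono Quantale.instMulLeftMono
  Quantale.instMulRightMono FiniteDimensional.rclike_to_real IsScalarTower.complexToReal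
  FiniteDimensional.complexToReal

open MeasureTheory Set Filter Topology
open scoped RealInnerProductSpace ENNReal NNReal

namespace Vale.Agent.P107.H706

open Cn

variable {T : ℝ} {f g : ℝ → E3 → E3 → ℝ} {E B E' B' : ℝ → E3 → E3} {R P b t Q c : ℝ} {x₀ : E3}

lemma vo_mono {P P' : ℝ} (h : P ≤ P') : vo P ≤ vo P' := by
  refine integral_mono (integrable_ind P) (integrable_ind P') fun v => ?_
  by_cases hv : ‖v‖ ≤ P
  · rw [ind_eq_one hv, ind_eq_one (hv.trans h)]
  · have : ind P v = 0 := indicator_of_notMem (by simpa using hv) _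
    rw [this]
    exact ind_nonneg _ _

lemma stabC_nonneg {L : ℝ} (hL : 0 ≤ L) (Q c b : ℝ) : 0 ≤ stabC L Q c b := by
  unfold stabC
  have v0 := vo_nonneg Q
  have v1 := vo_nonneg (Q + c * b + 1)
  positivity

lemma stabC_mul_le {L : ℝ} (hL : 0 ≤ L) (hc0 : 0 ≤ c) (ht : 0 ≤ t) (htb : t ≤ b) :
    stabC L Q c t * t ≤ stabC L Q c b * b := by
  have h1 : stabC L Q c t ≤ stabC L Q c b := by
    unfold stabC
    have := vo_mono (show Q + c * t + 1 ≤ Q + c * b + 1 by
      have := mul_le_mul_of_nonneg_left htb hc0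
      linarith)
    linarith
  exact mul_le_mul h1 htb ht (stabC_nonneg hL Q c b)

/-- The squared distance in the energy space. -/
noncomputable def gap3 (f g : ℝ → E3 → E3 → ℝ) (E B E' B' : ℝ → E3 → E3) (t : ℝ) : ℝ :=
  (∫ z : E3 × E3, (q z.2 * |f t z.1 z.2 - g t z.1 z.2| + (f t z.1 z.2 - g t z.1 z.2) ^ 2))
    + ∫ x, (‖E t x - E' t x‖ ^ 2 + ‖B t x - B' t x‖ ^ 2)

lemma gap3_nonneg (f g : ℝ → E3 → E3 → ℝ) (E B E' B' : ℝ → E3 → E3) (t : ℝ) :
    0 ≤ gap3 f g E B E' B' t :=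
  add_nonneg (integral_nonneg fun z => add_nonneg (mul_nonneg (q_pos _).le (abs_nonneg _))
    (sq_nonneg _)) (integral_nonneg fun x => by positivity)

theorem stability_uniform (h' : IsClassicalSolution T g E' B') (hl' : LSol T g E' B')
    (hb : b ∈ Ico 0 T) (hc0 : 0 ≤ c) (hc : ∀ s ∈ Icc 0 b, ∀ x : E3, ‖E' s x‖ ≤ c) :
    ∃ C : ℝ, 0 ≤ C ∧ ∀ (f : ℝ → E3 → E3 → ℝ) (E B : ℝ → E3 → E3),
      IsClassicalSolution T f E B → LSol T f E B →
      ∀ t ∈ Icc 0 b, gap3 f g E B E' B' t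
        ≤ C * (gap3 f g E B E' B' 0 + Real.sqrt (gap3 f g E B E' B' 0)) := by
  have hhaar := isAddHaar_prod
  have h0T : (0 : ℝ) ∈ Ico 0 T := ⟨le_rfl, hb.1.trans_lt hb.2⟩
  have hsubb : Icc 0 b ⊆ Ico 0 T := Icc_subset_Ico_right hb.2
  -- the constants
  obtain ⟨Rg, hRg⟩ := h'.compact_support b hb
  set Q : ℝ := max (1 + Rg) 0 with hQdef
  have hQ0 : 0 ≤ Q := le_max_right _ _
  have hQ : ∀ s ∈ Icc 0 b, ∀ x v, g s x v ≠ 0 → q v ≤ Q := by
    intro s hs x v hne
    have h1 := (hRg s hs x v hne).2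
    have h2 := q_le_one_add_norm v
    exact (h2.trans (by linarith)).trans (le_max_left _ _)
  obtain ⟨L, hL, hD₁⟩ := hl'.toKSol.exists_deriv_bound hb (isCompact_KR Rg)
  have hD : ∀ s ∈ Ioo 0 b, ∀ z : E3 × E3, ∀ a : E3,
      |fderiv ℝ (fun y : E3 × E3 => g s y.1 y.2) z (0, a)| ≤ L * ‖a‖ := by
    intro s hs z a
    by_cases hz : z ∈ Metric.closedBall (0 : E3) Rg ×ˢ Metric.closedBall (0 : E3) Rg
    · exact hD₁ s hs z hz a
    · have hev : (fun y : E3 × E3 => g s y.1 y.2) =ᶠ[𝓝 z] fun _ => (0 : ℝ) := by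
        filter_upwards [(isCompact_KR Rg).isClosed.isOpen_compl.mem_nhds hz] with y hy
        by_contra hne
        have := hRg s (Ioo_subset_Icc_self hs) y.1 y.2 hne
        exact hy ⟨by simpa using this.1, by simpa using this.2⟩
      rw [hev.fderiv_eq, fderiv_fun_const]
      simp only [Pi.zero_apply, _root_.zero_apply, abs_zero]
      exact mul_nonneg hL (norm_nonneg _)
  set M : ℝ := Real.exp (stabC L Q c b * b) with hM
  have hMpos : 0 < M := Real.exp_pos _
  set Q2 : ℝ := 2 * (Q + c * b + 1) with hQ2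
  have hcb : 0 ≤ c * b := mul_nonneg hc0 hb.1
  set K : Set (E3 × E3) := Metric.closedBall (0 : E3) Rg ×ˢ Metric.closedBall (0 : E3) Rg with hK
  have hKc : IsCompact K := isCompact_KR Rg
  have hKfin : volume K ≠ ⊤ := hKc.measure_ne_top
  set VK : ℝ := volume.real K with hVK
  have hVK0 : 0 ≤ VK := measureReal_nonneg
  refine ⟨(1 + Q2) * (1 + VK + 2 * M) + 2 * M, by positivity, fun f E B h hl t ht => ?_⟩
  have htT : t ∈ Ico 0 T := hsubb ht
  set N0 : ℝ := gap3 f g E B E' B' 0 with hN0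
  have hN00 : 0 ≤ N0 := gap3_nonneg _ _ _ _ _ _ _
  have hIcc : Icc 0 t ⊆ Icc 0 b := Icc_subset_Icc_right ht.2
  have hst := stability h h' hl hl' htT hc0 (Q := Q)
    (fun s hs x v _ => hc s (hIcc hs) x)
    (fun s hs => hQ s (hIcc hs)) hL (fun s hs => hD s ⟨hs.1, hs.2.trans_le ht.2⟩)
  -- continuity and supports
  have hwc : ∀ s ∈ Ico 0 T, Continuous fun z : E3 × E3 => f s z.1 z.2 - g s z.1 z.2 := fun s hs =>
    (h.f_slice hs).continuous.sub (h'.f_slice hs).continuous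
  have hws : ∀ s ∈ Ico 0 T, HasCompactSupport fun z : E3 × E3 => f s z.1 z.2 - g s z.1 z.2 :=
    fun s hs => (h.hasCompactSupport hs).sub (h'.hasCompactSupport hs)
  have i1 : ∀ s ∈ Ico 0 T, Integrable fun z : E3 × E3 =>
      q z.2 * |f s z.1 z.2 - g s z.1 z.2| := by
    intro s hs
    refine Continuous.integrable_of_hasCompactSupport
      ((continuous_q.comp continuous_snd).mul (hwc s hs).abs) (HasCompactSupport.mul_left ?_)
    exact (hws s hs).comp_left (g := fun r : ℝ => |r|) abs_zero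
  have i2 : ∀ s ∈ Ico 0 T, Integrable fun z : E3 × E3 => (f s z.1 z.2 - g s z.1 z.2) ^ 2 := by
    intro s hs
    refine Continuous.integrable_of_hasCompactSupport ((hwc s hs).pow 2) ?_
    exact (hws s hs).comp_left (g := fun r : ℝ => r ^ 2) (by norm_num)
  have i3 : ∀ s ∈ Ico 0 T, ∀ r : ℝ, Integrable fun z : E3 × E3 =>
      Lam (q z.2 - Q - r) * f s z.1 z.2 := by
    intro s hs r
    have h2 : Continuous fun z : E3 × E3 => Lam (q z.2 - Q - r) :=
      contDiff_Lam.continuous.comp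
        (((continuous_q.comp continuous_snd).sub continuous_const).sub continuous_const)
    exact (h2.mul (h.f_slice hs).continuous).integrable_of_hasCompactSupport
      (HasCompactSupport.mul_left (h.hasCompactSupport hs))
  -- the initial value
  have htail0 : (∫ z : E3 × E3, Lam (q z.2 - Q) * f 0 z.1 z.2)
      ≤ ∫ z : E3 × E3, q z.2 * |f 0 z.1 z.2 - g 0 z.1 z.2| := by
    have i3' := i3 0 h0T 0
    simp only [sub_zero] at i3'
    refine integral_mono i3' (i1 0 h0T) fun z => ?_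
    have e1 : Lam (q z.2 - Q) * g 0 z.1 z.2 = 0 := by
      by_cases hg0 : g 0 z.1 z.2 = 0
      · rw [hg0, mul_zero]
      · rw [Lam_eq_zero (by linarith [hQ 0 ⟨le_rfl, hb.1⟩ _ _ hg0]), zero_mul]
    have e2 : Lam (q z.2 - Q) * f 0 z.1 z.2 = Lam (q z.2 - Q) * (f 0 z.1 z.2 - g 0 z.1 z.2) := by
      rw [mul_sub, e1, sub_zero]
    show Lam (q z.2 - Q) * f 0 z.1 z.2 ≤ q z.2 * |f 0 z.1 z.2 - g 0 z.1 z.2|
    rw [e2]
    refine (mul_le_mul_of_nonneg_left (le_abs_self _) (Lam_nonneg _)).trans ?_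
    exact mul_le_mul_of_nonneg_right (Lam_le (by linarith) (q_pos _).le) (abs_nonneg _)
  have hgap : ∀ s ∈ Ico 0 T, gap3 f g E B E' B' s
      = (∫ z : E3 × E3, q z.2 * |f s z.1 z.2 - g s z.1 z.2|)
        + (∫ z : E3 × E3, (f s z.1 z.2 - g s z.1 z.2) ^ 2)
        + ∫ x, (‖E s x - E' s x‖ ^ 2 + ‖B s x - B' s x‖ ^ 2) := by
    intro s hs
    unfold gap3
    rw [integral_add (i1 s hs) (i2 s hs)]
  have hq0 : 0 ≤ ∫ z : E3 × E3, (f 0 z.1 z.2 - g 0 z.1 z.2) ^ 2 :=
    integral_nonneg fun z => sq_nonneg _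
  have hfl0 : 0 ≤ ∫ x, (‖E 0 x - E' 0 x‖ ^ 2 + ‖B 0 x - B' 0 x‖ ^ 2) :=
    integral_nonneg fun x => by positivity
  have hD0 : (∫ z : E3 × E3, (f 0 z.1 z.2 - g 0 z.1 z.2) ^ 2)
        + (∫ x, (‖E 0 x - E' 0 x‖ ^ 2 + ‖B 0 x - B' 0 x‖ ^ 2))
        + 2 * (∫ z : E3 × E3, Lam (q z.2 - Q) * f 0 z.1 z.2) ≤ 2 * N0 := by
    rw [hN0, hgap 0 h0T]
    linarith only [htail0, hq0, hfl0]
  have hexp : Real.exp (stabC L Q c t * t) ≤ M :=
    Real.exp_le_exp.2 (stabC_mul_le hL hc0 ht.1 ht.2)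
  have hDt : (∫ z : E3 × E3, (f t z.1 z.2 - g t z.1 z.2) ^ 2)
        + (∫ x, (‖E t x - E' t x‖ ^ 2 + ‖B t x - B' t x‖ ^ 2))
        + 2 * (∫ z : E3 × E3, Lam (q z.2 - Q - c * t) * f t z.1 z.2) ≤ 2 * M * N0 := by
    refine hst.trans ?_
    calc Real.exp (stabC L Q c t * t) * ((∫ z : E3 × E3, (f 0 z.1 z.2 - g 0 z.1 z.2) ^ 2)
        + (∫ x, (‖E 0 x - E' 0 x‖ ^ 2 + ‖B 0 x - B' 0 x‖ ^ 2))
        + 2 * (∫ z : E3 × E3, Lam (q z.2 - Q) * f 0 z.1 z.2))
        ≤ Real.exp (stabC L Q c t * t) * (2 * N0) :=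
          mul_le_mul_of_nonneg_left hD0 (Real.exp_pos _).le
      _ ≤ M * (2 * N0) := mul_le_mul_of_nonneg_right hexp (by linarith)
      _ = 2 * M * N0 := by ring
  have htl : 0 ≤ ∫ z : E3 × E3, Lam (q z.2 - Q - c * t) * f t z.1 z.2 :=
    integral_nonneg fun z => mul_nonneg (Lam_nonneg _) (h.f_nonneg t htT _ _)
  have hflt : 0 ≤ ∫ x, (‖E t x - E' t x‖ ^ 2 + ‖B t x - B' t x‖ ^ 2) :=
    integral_nonneg fun x => by positivity
  have hqt : (∫ z : E3 × E3, (f t z.1 z.2 - g t z.1 z.2) ^ 2) ≤ 2 * M * N0 := by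
    linarith only [hDt, htl, hflt]
  -- the bulk
  have iK : Integrable (K.indicator fun z : E3 × E3 => |f t z.1 z.2 - g t z.1 z.2|) := by
    have i4 : Integrable fun z : E3 × E3 => |f t z.1 z.2 - g t z.1 z.2| :=
      Continuous.integrable_of_hasCompactSupport (hwc t htT).abs
        ((hws t htT).comp_left (g := fun r : ℝ => |r|) abs_zero)
    exact i4.indicator hKc.measurableSet
  have iK1 : Integrable (K.indicator fun _ : E3 × E3 => (1 : ℝ)) := by
    rw [integrable_indicator_iff hKc.measurableSet]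
    exact integrableOn_const hKfin
  have hK1 : ∫ z, K.indicator (fun _ : E3 × E3 => (1 : ℝ)) z = VK :=
    integral_indicator_one hKc.measurableSet
  set X : ℝ := ∫ z, K.indicator (fun z : E3 × E3 => |f t z.1 z.2 - g t z.1 z.2|) z with hX
  have hXe : ∀ ε : ℝ, 0 < ε → X ≤ (ε * VK + 2 * M * N0 / ε) / 2 := by
    intro ε hε
    have hpt : ∀ z : E3 × E3, K.indicator (fun z : E3 × E3 => |f t z.1 z.2 - g t z.1 z.2|) z
        ≤ ε / 2 * K.indicator (fun _ : E3 × E3 => (1 : ℝ)) z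
          + (2 * ε)⁻¹ * (f t z.1 z.2 - g t z.1 z.2) ^ 2 := by
      intro z
      by_cases hz : z ∈ K
      · rw [indicator_of_mem hz, indicator_of_mem hz, mul_one]
        set w := f t z.1 z.2 - g t z.1 z.2
        have h1 : 0 ≤ (2 * ε)⁻¹ * (|w| - ε) ^ 2 := by positivity
        have h2 : (2 * ε)⁻¹ * (|w| - ε) ^ 2
            = (2 * ε)⁻¹ * w ^ 2 - |w| + ε / 2 := by
          rw [sub_sq, sq_abs]
          field_simp
        linarith
      · rw [indicator_of_notMem hz, indicator_of_notMem hz]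
        positivity
    have hle := integral_mono iK ((iK1.const_mul (ε / 2)).add ((i2 t htT).const_mul (2 * ε)⁻¹))
      hpt
    simp only [Pi.add_apply] at hle
    rw [integral_add (iK1.const_mul (ε / 2)) ((i2 t htT).const_mul (2 * ε)⁻¹),
      integral_const_mul, integral_const_mul, hK1] at hle
    have h3 : (2 * ε)⁻¹ * ∫ z : E3 × E3, (f t z.1 z.2 - g t z.1 z.2) ^ 2
        ≤ (2 * ε)⁻¹ * (2 * M * N0) := mul_le_mul_of_nonneg_left hqt (by positivity)
    have h4 : (2 * ε)⁻¹ * (2 * M * N0) = 2 * M * N0 / ε / 2 := by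
      field_simp
    rw [h4] at h3
    have h5 : (ε * VK + 2 * M * N0 / ε) / 2 = ε / 2 * VK + 2 * M * N0 / ε / 2 := by ring
    rw [h5]
    linarith
  have hXN : X ≤ (VK + 2 * M) / 2 * Real.sqrt N0 := by
    rcases eq_or_lt_of_le hN00 with hz | hpos
    · rw [← hz, Real.sqrt_zero, mul_zero]
      refine le_of_forall_pos_le_add fun δ hδ => ?_
      rw [zero_add]
      have h1 := hXe (2 * δ / (VK + 1)) (by positivity)
      rw [← hz, mul_zero, zero_div, add_zero] at h1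
      refine h1.trans ?_
      have h2 : 2 * δ / (VK + 1) * VK / 2 = δ * (VK / (VK + 1)) := by
        field_simp
      rw [h2]
      have h3 : VK / (VK + 1) ≤ 1 := by
        rw [div_le_one (by positivity)]
        linarith
      exact mul_le_of_le_one_right hδ.le h3
    · have hs : 0 < Real.sqrt N0 := Real.sqrt_pos.2 hpos
      have h1 := hXe (Real.sqrt N0) hs
      have h2 : 2 * M * N0 / Real.sqrt N0 = 2 * M * Real.sqrt N0 := by
        rw [div_eq_iff hs.ne', mul_assoc (2 * M), Real.mul_self_sqrt hN00]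
      rw [h2] at h1
      refine h1.trans (le_of_eq ?_)
      ring
  -- the L¹ norm
  have hcas : ∀ {φ : ℝ → E3 → E3 → ℝ} {F H : ℝ → E3 → E3}, IsClassicalSolution T φ F H →
      ∫ z : E3 × E3, φ t z.1 z.2 = ∫ z : E3 × E3, φ 0 z.1 z.2 := fun hφ =>
    casimir_smooth hφ (Φ := fun y => y) contDiff_id rfl htT
  have j1 : ∀ s ∈ Ico 0 T, Integrable fun z : E3 × E3 => f s z.1 z.2 := fun s hs =>
    (h.f_slice hs).continuous.integrable_of_hasCompactSupport (h.hasCompactSupport hs)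
  have j2 : ∀ s ∈ Ico 0 T, Integrable fun z : E3 × E3 => g s z.1 z.2 := fun s hs =>
    (h'.f_slice hs).continuous.integrable_of_hasCompactSupport (h'.hasCompactSupport hs)
  have i5 : ∀ s ∈ Ico 0 T, Integrable fun z : E3 × E3 => |f s z.1 z.2 - g s z.1 z.2| := by
    intro s hs
    exact Continuous.integrable_of_hasCompactSupport (hwc s hs).abs
      ((hws s hs).comp_left (g := fun r : ℝ => |r|) abs_zero)
  have hwcons : ∫ z : E3 × E3, (f t z.1 z.2 - g t z.1 z.2)
      = ∫ z : E3 × E3, (f 0 z.1 z.2 - g 0 z.1 z.2) := by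
    rw [integral_sub (j1 t htT) (j2 t htT), integral_sub (j1 0 h0T) (j2 0 h0T), hcas h, hcas h']
  have hw0 : ∫ z : E3 × E3, (f 0 z.1 z.2 - g 0 z.1 z.2) ≤ N0 := by
    have h1 : ∫ z : E3 × E3, (f 0 z.1 z.2 - g 0 z.1 z.2)
        ≤ ∫ z : E3 × E3, q z.2 * |f 0 z.1 z.2 - g 0 z.1 z.2| := by
      refine integral_mono ((j1 0 h0T).sub (j2 0 h0T)) (i1 0 h0T) fun z => ?_
      show f 0 z.1 z.2 - g 0 z.1 z.2 ≤ q z.2 * |f 0 z.1 z.2 - g 0 z.1 z.2|
      refine (le_abs_self _).trans ?_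
      exact le_mul_of_one_le_left (abs_nonneg _) (one_le_q _)
    rw [hN0, hgap 0 h0T]
    linarith only [h1, hq0, hfl0]
  have hL1' : (∫ z : E3 × E3, |f t z.1 z.2 - g t z.1 z.2|) ≤ N0 + 2 * X := by
    have hpt : ∀ z : E3 × E3, |f t z.1 z.2 - g t z.1 z.2|
        ≤ (f t z.1 z.2 - g t z.1 z.2)
          + 2 * K.indicator (fun z : E3 × E3 => |f t z.1 z.2 - g t z.1 z.2|) z := by
      intro z
      have hfn := h.f_nonneg t htT z.1 z.2
      have hi : 0 ≤ K.indicator (fun z : E3 × E3 => |f t z.1 z.2 - g t z.1 z.2|) z :=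
        indicator_nonneg (fun _ _ => abs_nonneg _) _
      by_cases hz : z ∈ K
      · rw [indicator_of_mem hz]
        have := neg_abs_le (f t z.1 z.2 - g t z.1 z.2)
        linarith
      · have hg : g t z.1 z.2 = 0 := by
          by_contra hne
          have := hRg t ht z.1 z.2 hne
          exact hz ⟨by simpa using this.1, by simpa using this.2⟩
        rw [hg, sub_zero, abs_of_nonneg hfn]
        linarith
    have jw : Integrable fun z : E3 × E3 => f t z.1 z.2 - g t z.1 z.2 :=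
      (j1 t htT).sub (j2 t htT)
    have hle := integral_mono (i5 t htT) (jw.add (iK.const_mul 2)) hpt
    simp only [Pi.add_apply] at hle
    rw [integral_add jw (iK.const_mul 2), integral_const_mul, hwcons] at hle
    linarith only [hle, hw0]
  -- the weighted L¹ norm
  have hL1 : (∫ z : E3 × E3, q z.2 * |f t z.1 z.2 - g t z.1 z.2|)
      ≤ (1 + Q2) * (∫ z : E3 × E3, |f t z.1 z.2 - g t z.1 z.2|)
        + 2 * ∫ z : E3 × E3, Lam (q z.2 - Q - c * t) * f t z.1 z.2 := by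
    have hpt : ∀ z : E3 × E3, q z.2 * |f t z.1 z.2 - g t z.1 z.2|
        ≤ (1 + Q2) * |f t z.1 z.2 - g t z.1 z.2|
          + 2 * (Lam (q z.2 - Q - c * t) * f t z.1 z.2) := by
      intro z
      have hfn := h.f_nonneg t htT z.1 z.2
      have hLf : 0 ≤ Lam (q z.2 - Q - c * t) * f t z.1 z.2 := mul_nonneg (Lam_nonneg _) hfn
      by_cases hv : ‖z.2‖ ≤ Q2
      · have h1 : q z.2 ≤ 1 + Q2 := (q_le_one_add_norm _).trans (by linarith)
        have h2 := mul_le_mul_of_nonneg_right h1 (abs_nonneg (f t z.1 z.2 - g t z.1 z.2))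
        linarith
      · push Not at hv
        have h1 := norm_lt_q z.2
        have hct : c * t ≤ c * b := mul_le_mul_of_nonneg_left ht.2 hc0
        have hg : g t z.1 z.2 = 0 := by
          by_contra hg
          have := hQ t ht _ _ hg
          linarith
        have hy : 1 ≤ q z.2 - Q - c * t := by linarith
        rw [hg, sub_zero, abs_of_nonneg hfn, Lam_of_one_le hy]
        have h3 : q z.2 ≤ 2 * (q z.2 - Q - c * t - 1 / 2) := by linarith
        have h4 : q z.2 * f t z.1 z.2 ≤ 2 * (q z.2 - Q - c * t - 1 / 2) * f t z.1 z.2 :=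
          mul_le_mul_of_nonneg_right h3 hfn
        have h5 : 0 ≤ (1 + Q2) * f t z.1 z.2 := mul_nonneg (by linarith) hfn
        linarith
    have hle := integral_mono (i1 t htT) (((i5 t htT).const_mul (1 + Q2)).add
      ((i3 t htT (c * t)).const_mul 2)) hpt
    simp only [Pi.add_apply] at hle
    rwa [integral_add ((i5 t htT).const_mul (1 + Q2)) ((i3 t htT (c * t)).const_mul 2),
      integral_const_mul, integral_const_mul] at hle
  rw [hgap t htT]
  have hsq : 0 ≤ Real.sqrt N0 := Real.sqrt_nonneg _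
  have hQ2p : 0 ≤ 1 + Q2 := by linarith
  have h1 : (1 + Q2) * (∫ z : E3 × E3, |f t z.1 z.2 - g t z.1 z.2|)
      ≤ (1 + Q2) * (N0 + (VK + 2 * M) * Real.sqrt N0) :=
    mul_le_mul_of_nonneg_left (by linarith only [hL1', hXN]) hQ2p
  have h2 : 0 ≤ (1 + Q2) * (VK + 2 * M) * N0 :=
    mul_nonneg (mul_nonneg hQ2p (by linarith)) hN00
  have h3 : 0 ≤ 2 * M * Real.sqrt N0 := by positivity
  have h5 : 0 ≤ (1 + Q2) * Real.sqrt N0 := mul_nonneg hQ2p hsq
  have h4 : ((1 + Q2) * (1 + VK + 2 * M) + 2 * M) * (N0 + Real.sqrt N0)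
      = (1 + Q2) * (N0 + (VK + 2 * M) * Real.sqrt N0) + 2 * M * N0
        + (1 + Q2) * (VK + 2 * M) * N0 + 2 * M * Real.sqrt N0 + (1 + Q2) * Real.sqrt N0 := by ring
  rw [h4]
  linarith only [hL1, hDt, h1, h2, h3, h5]

end Vale.Agent.P107.H706
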