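import Vale.Agent.P107.H706.WeakDefs
import Vale.Agent.P107.Bdl.B4

/-!
Finite-energy weak solutions in the Euclidean space.
-/

open MeasureTheory Set
open scoped RealInnerProductSpace ENNReal

namespace Vale.Agent.P107.H706

/-- A finite-energy weak solution in the Euclidean space. -/
structure Weak3 (f₀ : E3 × E3 → ℝ) (E₀ B₀ : E3 → E3) (g : ℝ × E3 × E3 → ℝ)
    (E B : ℝ × E3 → E3) : Prop where
  g_meas : Measurable g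
  E_meas : Measurable E
  B_meas : Measurable B
  g_nonneg : ∀ p, 0 ≤ g p
  l2_le : ∀ᵐ t : ℝ, 0 < t → ∫⁻ z : E3 × E3, ENNReal.ofReal (g (t, z) ^ 2)
    ≤ ∫⁻ z : E3 × E3, ENNReal.ofReal (f₀ z ^ 2)
  energy_le : ∀ᵐ t : ℝ, 0 < t →
    (∫⁻ z : E3 × E3, ENNReal.ofReal (q z.2 * g (t, z)))
      + (∫⁻ x, ENNReal.ofReal (‖E (t, x)‖ ^ 2 + ‖B (t, x)‖ ^ 2)) / 2
    ≤ (∫⁻ z : E3 × E3, ENNReal.ofReal (q z.2 * f₀ z))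
      + (∫⁻ x, ENNReal.ofReal (‖E₀ x‖ ^ 2 + ‖B₀ x‖ ^ 2)) / 2
  vlasov : ∀ φ : ℝ × E3 × E3 → ℝ, ContDiff ℝ 1 φ → HasCompactSupport φ →
    (∫ p in Ioi (0 : ℝ) ×ˢ (univ : Set (E3 × E3)), g p
        * fderiv ℝ φ p (1, u p.2.2, E (p.1, p.2.1) + cross (u p.2.2) (B (p.1, p.2.1))))
      + ∫ z : E3 × E3, f₀ z * φ (0, z) = 0
  ampere : ∀ η : ℝ × E3 → E3, ContDiff ℝ 1 η → HasCompactSupport η →
    (∫ p in Ioi (0 : ℝ) ×ˢ (univ : Set E3), (⟪E p, fderiv ℝ η p (1, 0)⟫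
        + ⟪B p, curl (fun y => η (p.1, y)) p.2⟫))
      - (∫ p in Ioi (0 : ℝ) ×ˢ (univ : Set (E3 × E3)), g p * ⟪u p.2.2, η (p.1, p.2.1)⟫)
      + ∫ x, ⟪E₀ x, η (0, x)⟫ = 0
  faraday : ∀ η : ℝ × E3 → E3, ContDiff ℝ 1 η → HasCompactSupport η →
    (∫ p in Ioi (0 : ℝ) ×ˢ (univ : Set E3), (⟪B p, fderiv ℝ η p (1, 0)⟫
        - ⟪E p, curl (fun y => η (p.1, y)) p.2⟫))
      + ∫ x, ⟪B₀ x, η (0, x)⟫ = 0

end Vale.Agent.P107.H706
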