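import Vale.Agent.P107.H706.Stab2
import Vale.Agent.P107.H706.Weak3

/-!
Weak-strong uniqueness: the ramp, the time weight, and the strong solution.
-/

attribute [-instance] ProperSMul.toContinuousSMul IsTopologicalTorsor.toContinuousSMul
  IdemSemiring.toCanonicallyOrderedAdd IdemSemiring.toMulLeftMono IdemSemiring.toMulRightMono
  AddQuantale.instAddLeftMono AddQuantale.instAddRightMono Quantale.instMulLeftMono
  Quantale.instMulRightMono FiniteDimensional.rclike_to_real IsScalarTower.complexToReal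
  FiniteDimensional.complexToReal

open MeasureTheory Set Filter Topology
open scoped RealInnerProductSpace ENNReal NNReal

namespace Vale.Agent.P107.H706

open Cn

/-! ### A `C¹` ramp -/

/-- the `C¹` ramp -/
noncomputable def Th (y : ℝ) : ℝ := Lam (2 * y) - Lam (2 * y - 1)

/-- its derivative -/
noncomputable def th1 (y : ℝ) : ℝ := 2 * (lam (2 * y) - lam (2 * y - 1))

lemma hasDerivAt_Th (y : ℝ) : HasDerivAt Th (th1 y) y := by
  have h1 : HasDerivAt (fun y : ℝ => 2 * y) 2 y := by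
    simpa using (hasDerivAt_id y).const_mul 2
  have h2 : HasDerivAt (fun y : ℝ => 2 * y - 1) 2 y := h1.sub_const 1
  have h3 := (hasDerivAt_Lam (2 * y)).comp y h1
  have h4 := (hasDerivAt_Lam (2 * y - 1)).comp y h2
  refine (h3.sub h4).congr_deriv ?_
  unfold th1
  ring

lemma continuous_th1 : Continuous th1 := by
  unfold th1
  exact continuous_const.mul ((continuous_lam.comp (by fun_prop)).sub
    (continuous_lam.comp (by fun_prop)))

lemma contDiff_Th : ContDiff ℝ 1 Th := by
  rw [contDiff_one_iff_deriv]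
  refine ⟨fun y => (hasDerivAt_Th y).differentiableAt, ?_⟩
  have : deriv Th = th1 := by
    funext y
    exact (hasDerivAt_Th y).deriv
  rw [this]
  exact continuous_th1

lemma lam_mono {a b : ℝ} (h : a ≤ b) : lam a ≤ lam b := by
  unfold lam
  rcases le_total a 0 with h1 | h1
  · rw [max_eq_right h1, max_eq_right (by linarith : a - 1 ≤ 0)]
    have := lam_nonneg b
    unfold lam at this
    linarith
  · rw [max_eq_left h1, max_eq_left (by linarith : (0 : ℝ) ≤ b)]
    rcases le_total (a - 1) 0 with h2 | h2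
    · rw [max_eq_right h2]
      rcases le_total (b - 1) 0 with h3 | h3
      · rw [max_eq_right h3]
        linarith
      · rw [max_eq_left h3]
        linarith
    · rw [max_eq_left h2, max_eq_left (by linarith)]
      linarith

lemma th1_nonneg (y : ℝ) : 0 ≤ th1 y := by
  unfold th1
  have := lam_mono (show 2 * y - 1 ≤ 2 * y by linarith)
  linarith

lemma th1_le_two (y : ℝ) : th1 y ≤ 2 := by
  unfold th1
  have h1 := lam_le_one (2 * y)
  have h2 := lam_nonneg (2 * y - 1)
  linarith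

lemma th1_eq_zero {y : ℝ} (h : y ≤ 0) : th1 y = 0 := by
  unfold th1
  rw [lam_eq_zero (by linarith), lam_eq_zero (by linarith)]
  norm_num

lemma th1_eq_zero' {y : ℝ} (h : 1 ≤ y) : th1 y = 0 := by
  unfold th1
  rw [lam_eq_one (by linarith), lam_eq_one (by linarith)]
  norm_num

lemma Th_eq_zero {y : ℝ} (h : y ≤ 0) : Th y = 0 := by
  unfold Th
  rw [Lam_eq_zero (by linarith), Lam_eq_zero (by linarith)]
  norm_num

lemma Th_eq_one {y : ℝ} (h : 1 ≤ y) : Th y = 1 := by
  unfold Th
  rw [Lam_of_one_le (by linarith), Lam_of_one_le (by linarith)]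
  ring

lemma Th_mono : Monotone Th :=
  monotone_of_deriv_nonneg (fun y => (hasDerivAt_Th y).differentiableAt) fun y => by
    rw [(hasDerivAt_Th y).deriv]
    exact th1_nonneg y

lemma Th_nonneg (y : ℝ) : 0 ≤ Th y := by
  have h := Th_mono (min_le_left y 0)
  rwa [Th_eq_zero (min_le_right y 0)] at h

lemma Th_le_one (y : ℝ) : Th y ≤ 1 := by
  have h := Th_mono (le_max_left y 1)
  rwa [Th_eq_one (le_max_right y 1)] at h

/-! ### The time weight -/

/-- the time weight -/
noncomputable def tha (T k : ℝ) (ν : ℕ) (t : ℝ) : ℝ :=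
  Th (t + 2) * (Real.exp (-(k * t)) * Th (((ν : ℝ) + 1) * (T - t)))

/-- the part of its derivative which comes from the ramp -/
noncomputable def kap (T k : ℝ) (ν : ℕ) (t : ℝ) : ℝ :=
  ((ν : ℝ) + 1) * (Real.exp (-(k * t)) * th1 (((ν : ℝ) + 1) * (T - t)))

/-- its derivative for `t > -1` -/
noncomputable def tha1 (T k : ℝ) (ν : ℕ) (t : ℝ) : ℝ :=
  -(k * (Real.exp (-(k * t)) * Th (((ν : ℝ) + 1) * (T - t)))) - kap T k ν t

variable {T k t : ℝ} {ν : ℕ}

lemma contDiff_tha : ContDiff ℝ 1 (tha T k ν) := by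
  unfold tha
  refine (contDiff_Th.comp (by fun_prop)).mul (ContDiff.mul ?_ (contDiff_Th.comp (by fun_prop)))
  exact Real.contDiff_exp.comp (by fun_prop)

lemma tha_of_le (ht : -1 ≤ t) :
    tha T k ν t = Real.exp (-(k * t)) * Th (((ν : ℝ) + 1) * (T - t)) := by
  unfold tha
  rw [Th_eq_one (by linarith), one_mul]

lemma hasDerivAt_tha (ht : -1 < t) : HasDerivAt (tha T k ν) (tha1 T k ν t) t := by
  have h1 : HasDerivAt (fun t : ℝ => -(k * t)) (-k) t := by
    have h0 : HasDerivAt (fun t : ℝ => k * t) k t := by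
      simpa using (hasDerivAt_id t).const_mul k
    exact h0.neg
  have h2 : HasDerivAt (fun t : ℝ => Real.exp (-(k * t))) (Real.exp (-(k * t)) * (-k)) t := h1.exp
  have h3 : HasDerivAt (fun t : ℝ => ((ν : ℝ) + 1) * (T - t)) (((ν : ℝ) + 1) * (-1)) t := by
    have h0 : HasDerivAt (fun t : ℝ => T - t) (-1) t := by
      simpa using (hasDerivAt_id t).const_sub T
    exact h0.const_mul _
  have h4 : HasDerivAt (fun t : ℝ => Th (((ν : ℝ) + 1) * (T - t)))
      (th1 (((ν : ℝ) + 1) * (T - t)) * (((ν : ℝ) + 1) * (-1))) t :=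
    HasDerivAt.comp (h₂ := Th) (h := fun t : ℝ => ((ν : ℝ) + 1) * (T - t)) t
      (hasDerivAt_Th (((ν : ℝ) + 1) * (T - t))) h3
  have h5 := h2.mul h4
  refine (h5.congr_deriv ?_).congr_of_eventuallyEq ?_
  · unfold tha1 kap
    ring
  · filter_upwards [Ioi_mem_nhds ht] with s hs
    exact tha_of_le (le_of_lt hs)

lemma continuous_kap : Continuous (kap T k ν) := by
  unfold kap
  exact continuous_const.mul ((Real.continuous_exp.comp (by fun_prop)).mul
    (continuous_th1.comp (by fun_prop)))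

lemma continuous_tha1 : Continuous (tha1 T k ν) := by
  unfold tha1
  have := contDiff_Th.continuous
  exact ((continuous_const.mul ((Real.continuous_exp.comp (by fun_prop)).mul
    (this.comp (by fun_prop)))).neg).sub continuous_kap

lemma tha_nonneg (t : ℝ) : 0 ≤ tha T k ν t :=
  mul_nonneg (Th_nonneg _) (mul_nonneg (Real.exp_pos _).le (Th_nonneg _))

lemma kap_nonneg (t : ℝ) : 0 ≤ kap T k ν t :=
  mul_nonneg (by positivity) (mul_nonneg (Real.exp_pos _).le (th1_nonneg _))

lemma tha_arg (ht : T ≤ t) : ((ν : ℝ) + 1) * (T - t) ≤ 0 :=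
  mul_nonpos_of_nonneg_of_nonpos (by positivity) (by linarith)

lemma tha_eq_zero (ht : T ≤ t) : tha T k ν t = 0 := by
  unfold tha
  rw [Th_eq_zero (tha_arg ht)]
  ring

lemma tha_eq_zero' (ht : t ≤ -2) : tha T k ν t = 0 := by
  unfold tha
  rw [Th_eq_zero (by linarith)]
  ring

lemma kap_eq_zero (ht : T ≤ t) : kap T k ν t = 0 := by
  unfold kap
  rw [th1_eq_zero (tha_arg ht)]
  ring

lemma tha1_eq_zero (ht : T ≤ t) : tha1 T k ν t = 0 := by
  unfold tha1
  rw [Th_eq_zero (tha_arg ht), kap_eq_zero ht]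
  ring

lemma neg_tha1_eq (ht : -1 ≤ t) : - tha1 T k ν t = k * tha T k ν t + kap T k ν t := by
  rw [tha_of_le ht]
  unfold tha1
  ring

lemma tha1_le (ht : -1 ≤ t) : k * tha T k ν t ≤ - tha1 T k ν t := by
  rw [neg_tha1_eq ht]
  linarith [kap_nonneg (T := T) (k := k) (ν := ν) t]

lemma tha1_nonpos (hk : 0 ≤ k) (ht : -1 ≤ t) : 0 ≤ - tha1 T k ν t :=
  (mul_nonneg hk (tha_nonneg t)).trans (tha1_le ht)

lemma tha_zero_le : tha T k ν 0 ≤ 1 := by
  rw [tha_of_le (by norm_num)]
  simp only [mul_zero, neg_zero, Real.exp_zero, one_mul]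
  exact Th_le_one _

lemma one_le_th1 {y : ℝ} (h1 : 1 / 4 ≤ y) (h2 : y ≤ 3 / 4) : 1 ≤ th1 y := by
  unfold th1 lam
  rcases le_total y (1 / 2) with h | h
  · rw [max_eq_left (by linarith : (0 : ℝ) ≤ 2 * y), max_eq_right (by linarith : 2 * y - 1 ≤ 0),
      max_eq_right (by linarith : 2 * y - 1 - 1 ≤ 0)]
    linarith
  · rw [max_eq_left (by linarith : (0 : ℝ) ≤ 2 * y), max_eq_left (by linarith : 0 ≤ 2 * y - 1),
      max_eq_right (by linarith : 2 * y - 1 - 1 ≤ 0)]
    linarith

lemma exists_tha_bound (T k : ℝ) (ν : ℕ) :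
    ∃ C : ℝ, 0 ≤ C ∧ ∀ t ∈ Icc 0 T, tha T k ν t ≤ C ∧ |tha1 T k ν t| ≤ C := by
  obtain ⟨C₁, hC₁⟩ := (isCompact_Icc (a := (0 : ℝ)) (b := T)).exists_bound_of_continuousOn
    (contDiff_tha (T := T) (k := k) (ν := ν)).continuous.continuousOn
  obtain ⟨C₂, hC₂⟩ := (isCompact_Icc (a := (0 : ℝ)) (b := T)).exists_bound_of_continuousOn
    (continuous_tha1 (T := T) (k := k) (ν := ν)).continuousOn
  refine ⟨max (max C₁ C₂) 0, le_max_right _ _, fun t ht => ⟨?_, ?_⟩⟩
  · exact ((le_abs_self _).trans (hC₁ t ht)).trans ((le_max_left _ _).trans (le_max_left _ _))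
  · exact (hC₂ t ht).trans ((le_max_right _ _).trans (le_max_left _ _))

/-- The integral of the derivative of the weight. -/
lemma integral_tha1 (hT : 0 < T) : ∫ t in Ioo 0 T, tha1 T k ν t = - tha T k ν 0 := by
  rw [← integral_Ioc_eq_integral_Ioo, ← intervalIntegral.integral_of_le hT.le]
  have h := intervalIntegral.integral_eq_sub_of_hasDerivAt (a := 0) (b := T) (f := tha T k ν)
    (f' := tha1 T k ν) (fun t ht => hasDerivAt_tha (by
      rw [uIcc_of_le hT.le] at ht
      linarith [ht.1])) (continuous_tha1.intervalIntegrable _ _)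
  rw [h, tha_eq_zero le_rfl, zero_sub]

/-! ### The measures -/

/-- time, between `0` and `T` -/
noncomputable def mt (T : ℝ) : Measure ℝ := volume.restrict (Ioo 0 T)

/-- time and space -/
noncomputable def m3 (T : ℝ) : Measure (ℝ × E3) := (mt T).prod volume

/-- time and phase space -/
noncomputable def m6 (T : ℝ) : Measure (ℝ × E3 × E3) := (mt T).prod volume

instance (T : ℝ) : IsFiniteMeasure (mt T) := by
  unfold mt
  exact ⟨by rw [Measure.restrict_apply_univ]; exact measure_Ioo_lt_top⟩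

instance (T : ℝ) : SFinite (m3 T) := by
  unfold m3
  infer_instance

lemma m3_eq (T : ℝ) : m3 T = volume.restrict (Ioo 0 T ×ˢ univ) := by
  unfold m3 mt
  rw [Measure.volume_eq_prod, ← Measure.prod_restrict, Measure.restrict_univ]

lemma m6_eq (T : ℝ) : m6 T = volume.restrict (Ioo 0 T ×ˢ univ) := by
  unfold m6 mt
  rw [Measure.volume_eq_prod ℝ, ← Measure.prod_restrict, Measure.restrict_univ]

lemma ae_m6 (T : ℝ) : ∀ᵐ p ∂(m6 T), p.1 ∈ Ioo 0 T := by
  rw [m6_eq]
  filter_upwards [ae_restrict_mem (measurableSet_Ioo.prod MeasurableSet.univ)] with p hp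
  exact hp.1

lemma ae_m3 (T : ℝ) : ∀ᵐ p ∂(m3 T), p.1 ∈ Ioo 0 T := by
  rw [m3_eq]
  filter_upwards [ae_restrict_mem (measurableSet_Ioo.prod MeasurableSet.univ)] with p hp
  exact hp.1

/-- Integrals over `t > 0` of functions which vanish for `t ≥ T`. -/
lemma setIntegral_Ioi {X : Type*} [MeasureSpace X] [SFinite (volume : Measure X)]
    {G : ℝ × X → ℝ} (h : ∀ p, T ≤ p.1 → G p = 0) :
    ∫ p in Ioi (0 : ℝ) ×ˢ (univ : Set X), G p
      = ∫ p in Ioo 0 T ×ˢ (univ : Set X), G p := by
  refine setIntegral_eq_of_subset_of_forall_sdiff_eq_zero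
    (measurableSet_Ioi.prod MeasurableSet.univ)
    (prod_mono Ioo_subset_Ioi_self (subset_refl _)) fun p hp => ?_
  refine h p ?_
  by_contra hlt
  push Not at hlt
  exact hp.2 ⟨⟨hp.1.1, hlt⟩, mem_univ _⟩

/-- Reassociation. -/
lemma mp_assoc (T : ℝ) : MeasurePreserving
    (MeasurableEquiv.prodAssoc : (ℝ × E3) × E3 ≃ᵐ ℝ × E3 × E3)
    ((m3 T).prod (volume : Measure E3)) (m6 T) := by
  have h := measurePreserving_prodAssoc (mt T) (volume : Measure E3) (volume : Measure E3)
  unfold m3 m6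
  rwa [Measure.volume_eq_prod] 

end Vale.Agent.P107.H706
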