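import Vale.Agent.P107.H706.WS9

/-!
Weak-strong uniqueness: the relative energy.
-/

attribute [-instance] ProperSMul.toContinuousSMul IsTopologicalTorsor.toContinuousSMul
  IdemSemiring.toCanonicallyOrderedAdd IdemSemiring.toMulLeftMono IdemSemiring.toMulRightMono
  AddQuantale.instAddLeftMono AddQuantale.instAddRightMono Quantale.instMulLeftMono
  Quantale.instMulRightMono FiniteDimensional.rclike_to_real IsScalarTower.complexToReal
  FiniteDimensional.complexToReal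

open MeasureTheory Set Filter Topology
open scoped RealInnerProductSpace ENNReal NNReal

namespace Vale.Agent.P107.H706

open Cn

variable {T k Q c L C : ℝ} {ν : ℕ} {f g : ℝ × E3 × E3 → ℝ} {E B E2 B2 : ℝ × E3 → E3}
  {g0 : E3 × E3 → ℝ} {e0 b0 : E3 → E3}

lemma I_add {X : Type*} [MeasurableSpace X] {μ : Measure X} {F G : X → ℝ} (hF : Integrable F μ)
    (hG : Integrable G μ) : Integrable (fun x => F x + G x) μ ∧
      ∫ x, (F x + G x) ∂μ = ∫ x, F x ∂μ + ∫ x, G x ∂μ :=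
  ⟨hF.add hG, integral_add hF hG⟩

lemma I_sub {X : Type*} [MeasurableSpace X] {μ : Measure X} {F G : X → ℝ} (hF : Integrable F μ)
    (hG : Integrable G μ) : Integrable (fun x => F x - G x) μ ∧
      ∫ x, (F x - G x) ∂μ = ∫ x, F x ∂μ - ∫ x, G x ∂μ :=
  ⟨hF.sub hG, integral_sub hF hG⟩

/-- the relative energy density on the phase space -/
noncomputable def G6 (T k : ℝ) (ν : ℕ) (Q c : ℝ) (f : ℝ × E3 × E3 → ℝ) (E B : ℝ × E3 → E3)
    (g : ℝ × E3 × E3 → ℝ) (E2 B2 : ℝ × E3 → E3) (p : ℝ × E3 × E3) : ℝ :=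
  1 / 2 * (-tha1 T k ν p.1 * g p ^ 2) + 1 / 2 * (-tha1 T k ν p.1 * f p ^ 2)
    + -tha1 T k ν p.1 * (q p.2.2 * g p) + -tha1 T k ν p.1 * (q p.2.2 * f p)
    + V1 T k ν f E B g E2 B2 p + V2 T k ν Q c g E2 p
    - tha T k ν p.1 * (f p * ⟪u p.2.2, E2 (p.1, p.2.1)⟫)
    - tha T k ν p.1 * (g p * ⟪u p.2.2, E (p.1, p.2.1)⟫)
    + (tha1 T k ν p.1 * (q p.2.2 * f p) + tha T k ν p.1 * (f p * ⟪u p.2.2, E (p.1, p.2.1)⟫))
    - tha T k ν p.1 * (f p * DD f E B E2 B2 p)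

/-- the relative energy density of the fields -/
noncomputable def G3 (T k : ℝ) (ν : ℕ) (E B E2 B2 : ℝ × E3 → E3) (p : ℝ × E3) : ℝ :=
  1 / 2 * (-tha1 T k ν p.1 * (‖E2 p‖ ^ 2 + ‖B2 p‖ ^ 2))
    + 1 / 2 * (-tha1 T k ν p.1 * (‖E p‖ ^ 2 + ‖B p‖ ^ 2)) + M1 T k ν E B E2 B2 p

/-- the initial relative energy -/
noncomputable def X0 (Q c : ℝ) (f : ℝ × E3 × E3 → ℝ) (E B : ℝ × E3 → E3) (g0 : E3 × E3 → ℝ)
    (e0 b0 : E3 → E3) : ℝ :=
  (∫ z : E3 × E3, ((g0 z - f (0, z)) ^ 2 / 2 + q z.2 * Th (yy Q c (0, z)) * g0 z))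
    + (∫ x, (‖e0 x - E (0, x)‖ ^ 2 + ‖b0 x - B (0, x)‖ ^ 2)) / 2

section

variable (h : SW T Q c L f E B) (hw : WK g0 e0 b0 g E2 B2)

include h hw

lemma X0_eq : X0 Q c f E B g0 e0 b0 = (∫ z : E3 × E3, g0 z ^ 2) / 2
    + (∫ z : E3 × E3, f (0, z) ^ 2) / 2 - (∫ z : E3 × E3, g0 z * f (0, z))
    + (∫ z : E3 × E3, q z.2 * g0 z) - (∫ z : E3 × E3, q z.2 * (1 - Th (yy Q c (0, z))) * g0 z)
    + (∫ x, (‖e0 x‖ ^ 2 + ‖b0 x‖ ^ 2)) / 2 + (∫ x, (‖E (0, x)‖ ^ 2 + ‖B (0, x)‖ ^ 2)) / 2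
    - ∫ x, (⟪e0 x, E (0, x)⟫ + ⟪b0 x, B (0, x)⟫) := by
  obtain ⟨j1, e1⟩ := I_add (hw.d_sq.const_mul (1 / 2)) ((h.int_f20 h.zero_mem).const_mul (1 / 2))
  obtain ⟨j2, e2⟩ := I_sub j1 (int_g0f h hw)
  obtain ⟨j3, e3⟩ := I_add j2 hw.d_q
  obtain ⟨j4, e4⟩ := I_sub j3 (int_qThg (Q := Q) (c := c) hw)
  obtain ⟨l1, f1⟩ := I_add hw.d_fields (h.fields 0 h.zero_mem)
  obtain ⟨l2, f2⟩ := I_sub l1 ((int_ini h hw).const_mul 2)
  have a1 : (∫ z : E3 × E3, ((g0 z - f (0, z)) ^ 2 / 2 + q z.2 * Th (yy Q c (0, z)) * g0 z))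
      = ∫ z : E3 × E3, (1 / 2 * g0 z ^ 2 + 1 / 2 * f (0, z) ^ 2 - g0 z * f (0, z)
        + q z.2 * g0 z - q z.2 * (1 - Th (yy Q c (0, z))) * g0 z) := by
    refine integral_congr_ae (ae_of_all _ fun z => ?_)
    show (g0 z - f (0, z)) ^ 2 / 2 + q z.2 * Th (yy Q c (0, z)) * g0 z = _
    ring
  have a2 : (∫ x, (‖e0 x - E (0, x)‖ ^ 2 + ‖b0 x - B (0, x)‖ ^ 2))
      = ∫ x, (‖e0 x‖ ^ 2 + ‖b0 x‖ ^ 2 + (‖E (0, x)‖ ^ 2 + ‖B (0, x)‖ ^ 2)
        - 2 * (⟪e0 x, E (0, x)⟫ + ⟪b0 x, B (0, x)⟫)) := by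
    refine integral_congr_ae (ae_of_all _ fun x => ?_)
    show ‖e0 x - E (0, x)‖ ^ 2 + ‖b0 x - B (0, x)‖ ^ 2 = _
    rw [norm_sub_sq_real, norm_sub_sq_real]
    ring
  unfold X0
  rw [a1, a2, e4, e3, e2, e1, f2, f1, integral_const_mul, integral_const_mul, integral_const_mul]
  ring

/-- The total relative energy does not exceed the initial one. -/
lemma relative_le (hk : 0 ≤ k) : Integrable (G6 T k ν Q c f E B g E2 B2) (m6 T) ∧
    Integrable (G3 T k ν E B E2 B2) (m3 T) ∧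
    ∫ p, G6 T k ν Q c f E B g E2 B2 p ∂(m6 T) + ∫ p, G3 T k ν E B E2 B2 p ∂(m3 T)
      ≤ tha T k ν 0 * X0 Q c f E B g0 e0 b0 := by
  have w6 : ∀ {G : ℝ × E3 × E3 → ℝ}, Integrable G (m6 T) →
      Integrable (fun p => -tha1 T k ν p.1 * G p) (m6 T) := fun hG =>
    int_weight (X := E3 × E3) (w := fun t => -tha1 T k ν t) continuous_tha1.neg hG
  have w3 : ∀ {G : ℝ × E3 → ℝ}, Integrable G (m3 T) →
      Integrable (fun p => -tha1 T k ν p.1 * G p) (m3 T) := fun hG =>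
    int_weight (X := E3) (w := fun t => -tha1 T k ν t) continuous_tha1.neg hG
  have i1 := w6 (int_g2 hw)
  have i2 := w6 h.int_f2
  have i3 := w6 (int_qg hw)
  have i4 := w6 h.int_qf
  have i5 : Integrable (V1 T k ν f E B g E2 B2) (m6 T) := int_V1 h hw
  have i6 : Integrable (V2 T k ν Q c g E2) (m6 T) := int_V2 h hw
  have i7 := int_fE2 (k := k) (ν := ν) h hw
  have i8 : Integrable (fun p : ℝ × E3 × E3 =>
    tha T k ν p.1 * (g p * ⟪u p.2.2, E (p.1, p.2.1)⟫)) (m6 T) := int_M3 (k := k) (ν := ν) h hw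
  have i9 : Integrable (fun p : ℝ × E3 × E3 => tha1 T k ν p.1 * (q p.2.2 * f p)
      + tha T k ν p.1 * (f p * ⟪u p.2.2, E (p.1, p.2.1)⟫)) (m6 T) := by
    have cq : Continuous fun p : ℝ × E3 × E3 => q p.2.2 :=
      continuous_q.comp (continuous_snd.comp continuous_snd)
    have cu : Continuous fun p : ℝ × E3 × E3 => u p.2.2 :=
      continuous_u.comp (continuous_snd.comp continuous_snd)
    have cE : Continuous fun p : ℝ × E3 × E3 => E (p.1, p.2.1) :=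
      h.E_c1.continuous.comp (by fun_prop)
    have ct : Continuous fun p : ℝ × E3 × E3 => tha T k ν p.1 :=
      contDiff_tha.continuous.comp continuous_fst
    have ct1 : Continuous fun p : ℝ × E3 × E3 => tha1 T k ν p.1 :=
      continuous_tha1.comp continuous_fst
    refine h.int_of_mul ((ct1.mul (cq.mul h.f_c1.continuous)).add
      (ct.mul (h.f_c1.continuous.mul (cu.inner cE)))) fun p hp => ?_
    rw [hp]
    ring
  have i10 := int_fD (k := k) (ν := ν) h hw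
  have k1 := w3 (int_EB2 hw)
  have k2 := w3 h.int_EB
  have k3 : Integrable (M1 T k ν E B E2 B2) (m3 T) := int_M1 h hw
  obtain ⟨j1, e1⟩ := I_add (i1.const_mul (1 / 2)) (i2.const_mul (1 / 2))
  obtain ⟨j2, e2⟩ := I_add j1 i3
  obtain ⟨j3, e3⟩ := I_add j2 i4
  obtain ⟨j4, e4⟩ := I_add j3 i5
  obtain ⟨j5, e5⟩ := I_add j4 i6
  obtain ⟨j6, e6⟩ := I_sub j5 i7
  obtain ⟨j7, e7⟩ := I_sub j6 i8
  obtain ⟨j8, e8⟩ := I_add j7 i9
  obtain ⟨j9, e9⟩ := I_sub j8 i10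
  obtain ⟨l1, f1⟩ := I_add (k1.const_mul (1 / 2)) (k2.const_mul (1 / 2))
  obtain ⟨l2, f2⟩ := I_add l1 k3
  refine ⟨j9, l2, ?_⟩
  have e9' : ∫ p, G6 T k ν Q c f E B g E2 B2 p ∂(m6 T) = _ := e9
  have f2' : ∫ p, G3 T k ν E B E2 B2 p ∂(m3 T) = _ := f2
  rw [e9', e8, e7, e6, e5, e4, e3, e2, e1, f2', f1, integral_const_mul, integral_const_mul,
    integral_const_mul, integral_const_mul]
  have a1 := l2_weight (ν := ν) hw h.T_pos hk
  have a2 := h.cas_weight (k := k) (ν := ν)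
  have a3 := energy_weight2 (ν := ν) hw h.T_pos hk
  have a4 := h.energy_weight (k := k) (ν := ν)
  have a5 := vlasov_lim (k := k) (ν := ν) h hw
  have a6 := maxwell_lim (k := k) (ν := ν) h hw
  have a7 := h.work T ⟨h.T_pos, le_rfl⟩ k ν
  have a8 := fD_zero (k := k) (ν := ν) h hw
  rw [a2, a7, a8, X0_eq h hw]
  nlinarith only [a1, a2, a3, a4, a5, a6, a7, a8]

end

/-- The density of the fields. -/
lemma G3_ge {p : ℝ × E3} (hp : p.1 ∈ Ioo 0 T) :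
    k / 2 * (tha T k ν p.1 * (‖E2 p - E p‖ ^ 2 + ‖B2 p - B p‖ ^ 2))
      + 1 / 2 * (kap T k ν p.1 * (‖E2 p - E p‖ ^ 2 + ‖B2 p - B p‖ ^ 2)) ≤ G3 T k ν E B E2 B2 p := by
  have h1 := norm_sub_sq_real (E2 p) (E p)
  have h2 := norm_sub_sq_real (B2 p) (B p)
  have h3 := neg_tha1_eq (T := T) (k := k) (ν := ν) (t := p.1) (by linarith [hp.1])
  have h6 : G3 T k ν E B E2 B2 p
      = 1 / 2 * (-tha1 T k ν p.1 * (‖E2 p - E p‖ ^ 2 + ‖B2 p - B p‖ ^ 2)) := by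
    unfold G3 M1
    rw [h1, h2]
    ring
  rw [h6, h3]
  linarith

/-- The algebra of the density on the phase space. -/
lemma G6_real {κ θ θ1 g f qq τ τ1 D I I2 c k L P e b ι : ℝ} (hg : 0 ≤ g)
    (hq1 : 1 ≤ qq) (hL : 0 ≤ L) (hc : 0 ≤ c) (hP : 0 ≤ P) (hk : c ≤ k) (k0 : 0 ≤ θ)
    (hD : |D| ≤ L * (e + b) * ι) (h3 : k * θ + κ ≤ -θ1) (hκ : 0 ≤ κ) (t0 : 0 ≤ τ) (t1 : τ ≤ 1)
    (t2 : 1 - τ ≤ ι) (t3 : qq * τ1 ≤ 2 * P * ι) (t4 : 0 ≤ qq * τ1) (hi : 0 ≤ ι) (hi1 : ι ≤ 1)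
    (z1 : f * τ = 0) (z2 : f * (qq * τ1) = 0) (hIc : I ≤ c) (hd : |I2 - I| ≤ e)
    (_he0 : 0 ≤ e) (hb0 : 0 ≤ b) :
    (k / 2 - (L + 1 + 2 * P)) * (θ * (g - f) ^ 2)
      - (L + 1 + 2 * P) / 2 * (θ * (e ^ 2 + b ^ 2) * ι) + 1 / 2 * (κ * (g - f) ^ 2)
      ≤ 1 / 2 * (-θ1 * g ^ 2) + 1 / 2 * (-θ1 * f ^ 2) + -θ1 * (qq * g)
        + -θ1 * (qq * f) + g * (θ1 * f + θ * D)
        + g * (θ1 * (qq * (1 - τ)) + θ * (I2 * (1 - τ) - qq * (τ1 * (I2 - c))))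
        - θ * (f * I2) - θ * (g * I) + (θ1 * (qq * f) + θ * (f * I)) - θ * (f * D) := by
  have hq : 0 ≤ qq := by linarith
  have key : 1 / 2 * (-θ1 * g ^ 2) + 1 / 2 * (-θ1 * f ^ 2) + -θ1 * (qq * g)
        + -θ1 * (qq * f) + g * (θ1 * f + θ * D)
        + g * (θ1 * (qq * (1 - τ)) + θ * (I2 * (1 - τ) - qq * (τ1 * (I2 - c))))
        - θ * (f * I2) - θ * (g * I) + (θ1 * (qq * f) + θ * (f * I)) - θ * (f * D)
      = -θ1 * (1 / 2 * (g - f) ^ 2 + qq * τ * g)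
        + θ * ((g - f) * (D + (1 - τ) * (I2 - I) - qq * τ1 * (I2 - I))
          + g * (qq * τ1) * (c - I) - g * τ * I) := by
    linear_combination (-(θ * (I2 - I))) * z1 + (-(θ * (I2 - I))) * z2
  rw [key]
  -- the estimate of the error term
  have s1 : |D + (1 - τ) * (I2 - I) - qq * τ1 * (I2 - I)| ≤ (L + 1 + 2 * P) * (e + b) * ι := by
    have r1 : |(1 - τ) * (I2 - I)| ≤ ι * e := by
      rw [abs_mul, abs_of_nonneg (by linarith : 0 ≤ 1 - τ)]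
      exact mul_le_mul t2 hd (abs_nonneg _) hi
    have r2 : |qq * τ1 * (I2 - I)| ≤ 2 * P * ι * e := by
      rw [abs_mul, abs_of_nonneg t4]
      exact mul_le_mul t3 hd (abs_nonneg _) (by positivity)
    have r3 : |D + (1 - τ) * (I2 - I) - qq * τ1 * (I2 - I)|
        ≤ |D| + |(1 - τ) * (I2 - I)| + |qq * τ1 * (I2 - I)| := by
      have u1 := abs_sub (D + (1 - τ) * (I2 - I)) (qq * τ1 * (I2 - I))
      have u2 := abs_add_le D ((1 - τ) * (I2 - I))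
      linarith
    have r4 : 0 ≤ (1 + 2 * P) * b * ι := by positivity
    nlinarith only [r1, r2, r3, r4, hD]
  have s2 : -((L + 1 + 2 * P) * ((g - f) ^ 2 + (e ^ 2 + b ^ 2) / 2 * ι))
      ≤ (g - f) * (D + (1 - τ) * (I2 - I) - qq * τ1 * (I2 - I)) := by
    generalize g - f = w
    generalize D + (1 - τ) * (I2 - I) - qq * τ1 * (I2 - I) = Y at s1
    have r1 : -(|w| * |Y|) ≤ w * Y := by
      rw [← abs_mul]
      exact neg_abs_le _
    have r2 : |w| * |Y| ≤ |w| * ((L + 1 + 2 * P) * (e + b) * ι) :=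
      mul_le_mul_of_nonneg_left s1 (abs_nonneg _)
    have r3 : |w| * (e + b) ≤ w ^ 2 + (e ^ 2 + b ^ 2) / 2 := by
      rw [← sq_abs w]
      nlinarith only [sq_nonneg (|w| - e), sq_nonneg (|w| - b)]
    have r4 := mul_le_mul_of_nonneg_right r3 hi
    have r5 := mul_le_of_le_one_right (sq_nonneg w) hi1
    have r6 : |w| * (e + b) * ι ≤ w ^ 2 + (e ^ 2 + b ^ 2) / 2 * ι := by linarith
    have r7 := mul_le_mul_of_nonneg_left r6 (by linarith : 0 ≤ L + 1 + 2 * P)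
    linarith
  have s3 : 0 ≤ g * (qq * τ1) * (c - I) :=
    mul_nonneg (mul_nonneg hg t4) (by linarith)
  have s4 : g * τ * I ≤ c * (qq * τ * g) := by
    have r1 : g * τ * I ≤ g * τ * c := mul_le_mul_of_nonneg_left hIc (mul_nonneg hg t0)
    have r2 : g * τ * c ≤ qq * (g * τ * c) :=
      le_mul_of_one_le_left (mul_nonneg (mul_nonneg hg t0) hc) hq1
    linarith
  have s5 : 0 ≤ 1 / 2 * (g - f) ^ 2 + qq * τ * g := by
    have := mul_nonneg (mul_nonneg hq t0) hg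
    have := sq_nonneg (g - f)
    linarith
  have s6 := mul_le_mul_of_nonneg_right h3 s5
  have s7 : -((L + 1 + 2 * P) * ((g - f) ^ 2 + (e ^ 2 + b ^ 2) / 2 * ι))
      - c * (qq * τ * g)
      ≤ (g - f) * (D + (1 - τ) * (I2 - I) - qq * τ1 * (I2 - I))
          + g * (qq * τ1) * (c - I) - g * τ * I := by linarith
  have s8 := mul_le_mul_of_nonneg_left s7 k0
  have s9 : 0 ≤ (k - c) * (θ * (qq * τ * g)) :=
    mul_nonneg (by linarith) (mul_nonneg k0 (mul_nonneg (mul_nonneg hq t0) hg))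
  have s10 : k * θ * (1 / 2 * (g - f) ^ 2 + qq * τ * g)
      + θ * (-((L + 1 + 2 * P) * ((g - f) ^ 2 + (e ^ 2 + b ^ 2) / 2 * ι)) - c * (qq * τ * g))
      = (k / 2 - (L + 1 + 2 * P)) * (θ * (g - f) ^ 2)
      - (L + 1 + 2 * P) / 2 * (θ * (e ^ 2 + b ^ 2) * ι) + (k - c) * (θ * (qq * τ * g)) := by
    ring
  have s11 : 0 ≤ κ * (qq * τ * g) := mul_nonneg hκ (mul_nonneg (mul_nonneg hq t0) hg)
  linarith only [s6, s8, s9, s10, s11]

/-- The density on the phase space. -/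
lemma G6_ge (h : SW T Q c L f E B) (hw : WK g0 e0 b0 g E2 B2) (hk : c ≤ k)
    {p : ℝ × E3 × E3} (hp : p.1 ∈ Ioo 0 T) :
    (k / 2 - (L + 1 + 2 * PP T Q c)) * (tha T k ν p.1 * (g p - f p) ^ 2)
      - (L + 1 + 2 * PP T Q c) / 2 * (tha T k ν p.1 * (‖dE E E2 p‖ ^ 2 + ‖dE B B2 p‖ ^ 2)
        * ind (PP T Q c) p.2.2) + 1 / 2 * (kap T k ν p.1 * (g p - f p) ^ 2)
      ≤ G6 T k ν Q c f E B g E2 B2 p := by
  have hpI : p.1 ∈ Icc 0 T := Ioo_subset_Icc_self hp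
  have hc := h.c_nonneg
  -- the strong density does not see the ramp
  have hfT : f p * Th (yy Q c p) = 0 ∧ f p * (q p.2.2 * th1 (yy Q c p)) = 0 := by
    by_cases hf0 : f p = 0
    · rw [hf0]
      simp
    · have h4 := h.supp_Q p hpI hf0
      have h5 : 0 ≤ c * p.1 := mul_nonneg hc hp.1.le
      have h6 : yy Q c p ≤ 0 := by
        unfold yy
        linarith
      rw [Th_eq_zero h6, th1_eq_zero h6]
      simp
  have hIc : ⟪u p.2.2, E (p.1, p.2.1)⟫ ≤ c :=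
    (le_abs_self _).trans ((abs_inner_u_le _ _).trans (h.E_le (p.1, p.2.1) hpI))
  have hd : |⟪u p.2.2, E2 (p.1, p.2.1)⟫ - ⟪u p.2.2, E (p.1, p.2.1)⟫| ≤ ‖dE E E2 p‖ := by
    rw [← inner_sub_right]
    exact abs_inner_u_le _ _
  exact G6_real (hw.g_nonneg p) (one_le_q p.2.2) h.L_nonneg hc (PP_nonneg h) hk
    (tha_nonneg (T := T) (k := k) (ν := ν) p.1) (abs_DD_le (E2 := E2) (B2 := B2) h hp)
    (neg_tha1_eq (T := T) (k := k) (ν := ν) (t := p.1) (by linarith [hp.1])).ge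
    (kap_nonneg _) (Th_nonneg (yy Q c p))
    (Th_le_one (yy Q c p)) (one_sub_Th_le h hp) (q_th1_le h hp)
    (mul_nonneg (q_pos _).le (th1_nonneg _)) (ind_nonneg _ _) (ind_le_one _ _) hfT.1 hfT.2
    hIc hd (norm_nonneg _) (norm_nonneg _)

/-- The constant of the growth. -/
noncomputable def kk (T Q c L : ℝ) : ℝ :=
  2 * (L + 1 + 2 * PP T Q c) + (L + 1 + 2 * PP T Q c) * vo (PP T Q c) + c + 2

lemma int_w (h : SW T Q c L f E B) (hw : WK g0 e0 b0 g E2 B2) :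
    Integrable (fun p => (g p - f p) ^ 2) (m6 T) := by
  refine (((int_g2 hw).add h.int_f2).const_mul 2).mono'
    ((hw.g_meas.sub h.f_c1.continuous.measurable).pow_const 2).aestronglyMeasurable
    (ae_of_all _ fun p => ?_)
  rw [Real.norm_of_nonneg (sq_nonneg _)]
  show (g p - f p) ^ 2 ≤ 2 * (g p ^ 2 + f p ^ 2)
  nlinarith only [sq_nonneg (g p + f p)]

lemma int_d (h : SW T Q c L f E B) (hw : WK g0 e0 b0 g E2 B2) :
    Integrable (fun p => ‖E2 p - E p‖ ^ 2 + ‖B2 p - B p‖ ^ 2) (m3 T) := by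
  refine ((int_SS h hw).const_mul 2).mono'
    (((hw.E_meas.sub h.E_c1.continuous.measurable).norm.pow_const 2).add
      ((hw.B_meas.sub h.B_c1.continuous.measurable).norm.pow_const 2)).aestronglyMeasurable
    (ae_of_all _ fun p => ?_)
  rw [Real.norm_of_nonneg (by positivity)]
  have h2 : ∀ a b : E3, ‖a - b‖ ^ 2 ≤ 2 * (‖a‖ ^ 2 + ‖b‖ ^ 2) := by
    intro a b
    have h2 := norm_sub_le a b
    nlinarith [norm_nonneg (a - b), norm_nonneg a, norm_nonneg b, sq_nonneg (‖a‖ - ‖b‖)]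
  have h3 := h2 (E2 p) (E p)
  have h4 := h2 (B2 p) (B p)
  show _ ≤ 2 * SS E B E2 B2 p
  unfold SS
  linarith

/-- **Weak-strong stability**, in the Euclidean space: the weighted estimate. -/
theorem weak_strong (h : SW T Q c L f E B) (hw : WK g0 e0 b0 g E2 B2) (hkk : kk T Q c L ≤ k)
    (ν : ℕ) :
    ∫ p, kap T k ν p.1 * (g p - f p) ^ 2 ∂(m6 T)
      + ∫ p, kap T k ν p.1 * (‖E2 p - E p‖ ^ 2 + ‖B2 p - B p‖ ^ 2) ∂(m3 T)
      ≤ 2 * (tha T k ν 0 * X0 Q c f E B g0 e0 b0) := by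
  have hc := h.c_nonneg
  have hL := h.L_nonneg
  have hP := PP_nonneg h
  set A : ℝ := L + 1 + 2 * PP T Q c with hA
  have hA0 : 0 ≤ A := by linarith
  have hv := vo_nonneg (PP T Q c)
  have hk : 2 * A + A * vo (PP T Q c) + c + 2 ≤ k := hkk
  have hAv : 0 ≤ A * vo (PP T Q c) := mul_nonneg hA0 hv
  have hck : c ≤ k := by linarith
  have hk0 : 0 ≤ k := hc.trans hck
  obtain ⟨j6, j3, hle⟩ := relative_le (k := k) (ν := ν) h hw hk0
  -- the two squares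
  have iw := int_w h hw
  have id := int_d h hw
  have iW : Integrable (fun p => tha T k ν p.1 * (g p - f p) ^ 2) (m6 T) :=
    int_weight (X := E3 × E3) (w := tha T k ν) contDiff_tha.continuous iw
  have iK : Integrable (fun p => kap T k ν p.1 * (g p - f p) ^ 2) (m6 T) :=
    int_weight (X := E3 × E3) (w := kap T k ν) continuous_kap iw
  have iN : Integrable (fun p => tha T k ν p.1 * (‖E2 p - E p‖ ^ 2 + ‖B2 p - B p‖ ^ 2)) (m3 T) :=
    int_weight (X := E3) (w := tha T k ν) contDiff_tha.continuous id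
  have iM : Integrable (fun p => kap T k ν p.1 * (‖E2 p - E p‖ ^ 2 + ‖B2 p - B p‖ ^ 2)) (m3 T) :=
    int_weight (X := E3) (w := kap T k ν) continuous_kap id
  have iNi := int_mul_ind3 iN (PP T Q c)
  have eNi := integral_mul_ind3 (T := T)
    (fun p => tha T k ν p.1 * (‖E2 p - E p‖ ^ 2 + ‖B2 p - B p‖ ^ 2)) (PP T Q c)
  have nW : 0 ≤ ∫ p, tha T k ν p.1 * (g p - f p) ^ 2 ∂(m6 T) :=
    integral_nonneg fun p => mul_nonneg (tha_nonneg _) (sq_nonneg _)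
  have nN : 0 ≤ ∫ p, tha T k ν p.1 * (‖E2 p - E p‖ ^ 2 + ‖B2 p - B p‖ ^ 2) ∂(m3 T) :=
    integral_nonneg fun p => mul_nonneg (tha_nonneg _) (by positivity)
  obtain ⟨l1, f1⟩ := I_sub (iW.const_mul (k / 2 - A)) (iNi.const_mul (A / 2))
  obtain ⟨l2, f2⟩ := I_add l1 (iK.const_mul (1 / 2))
  obtain ⟨l3, f3⟩ := I_add (iN.const_mul (k / 2)) (iM.const_mul (1 / 2))
  have b6 := integral_mono_ae l2 j6 (by
    filter_upwards [ae_m6 T] with p hp
    exact G6_ge h hw hck hp)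
  have b3 := integral_mono_ae l3 j3 (by
    filter_upwards [ae_m3 T] with p hp
    exact G3_ge hp)
  rw [f2, f1, integral_const_mul, integral_const_mul, integral_const_mul, eNi] at b6
  rw [f3, integral_const_mul, integral_const_mul] at b3
  have hkA : 0 ≤ k / 2 - A := by linarith
  have hkB : 0 ≤ k / 2 - A / 2 * vo (PP T Q c) := by
    nlinarith only [hA0, hc, hk]
  have p1 := mul_nonneg hkA nW
  have p2 := mul_nonneg hkB nN
  nlinarith only [p1, p2, b6, b3, hle]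

end Vale.Agent.P107.H706
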