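import Vale.Agent.P107.H706.WS10
import Vale.Agent.P107.H706.Stab4
import Mathlib.MeasureTheory.Covering.DensityTheorem

/-!
Weak-strong stability for almost every time.
-/

attribute [-instance] ProperSMul.toContinuousSMul IsTopologicalTorsor.toContinuousSMul
  IdemSemiring.toCanonicallyOrderedAdd IdemSemiring.toMulLeftMono IdemSemiring.toMulRightMono
  AddQuantale.instAddLeftMono AddQuantale.instAddRightMono Quantale.instMulLeftMono
  Quantale.instMulRightMono FiniteDimensional.rclike_to_real IsScalarTower.complexToReal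
  FiniteDimensional.complexToReal

open MeasureTheory Set Filter Topology
open scoped RealInnerProductSpace ENNReal NNReal

namespace Vale.Agent.P107.H706

open Cn

variable {T S k Q c L C : ℝ} {ν : ℕ} {f g : ℝ × E3 × E3 → ℝ} {E B E2 B2 : ℝ × E3 → E3}
  {g0 : E3 × E3 → ℝ} {e0 b0 : E3 → E3}

/-- the radius of the windows -/
noncomputable def dl (ν : ℕ) : ℝ := 1 / (4 * ((ν : ℝ) + 1))

lemma dl_pos (ν : ℕ) : 0 < dl ν := by
  unfold dl
  positivity

lemma dl_tendsto : Tendsto dl atTop (𝓝[>] 0) := by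
  rw [tendsto_nhdsWithin_iff]
  refine ⟨?_, Eventually.of_forall dl_pos⟩
  have h1 : Tendsto (fun ν : ℕ => (1 / 4 : ℝ) / ((ν : ℝ) + 1)) atTop (𝓝 0) := by
    have := (tendsto_const_div_atTop_nhds_zero_nat (1 / 4 : ℝ)).comp (tendsto_add_atTop_nat 1)
    refine this.congr fun n => ?_
    simp
  refine h1.congr fun ν => ?_
  unfold dl
  field_simp

/-- An integrable function whose averages over small windows are bounded is bounded. -/
lemma ae_le_of_windows {Y : ℝ → ℝ} {K : ℝ} (hY : Integrable Y (mt T))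
    (h : ∀ ν : ℕ, ∀ t : ℝ, 0 < t - dl ν → t + 2 * dl ν ≤ T →
      ∫ y in Metric.closedBall t (dl ν), Y y ≤ K * (2 * dl ν)) :
    ∀ᵐ t ∂(mt T), Y t ≤ K := by
  have hi : Integrable ((Ioo 0 T).indicator Y) := by
    rw [integrable_indicator_iff measurableSet_Ioo]
    exact hY
  have h1 := IsUnifLocDoublingMeasure.ae_tendsto_average (μ := (volume : Measure ℝ))
    hi.locallyIntegrable 1
  unfold mt
  rw [ae_restrict_iff' measurableSet_Ioo]
  filter_upwards [h1] with t ht htT
  have h2 := ht (fun _ : ℕ => t) dl dl_tendsto (Eventually.of_forall fun ν => by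
    rw [one_mul]
    exact Metric.mem_closedBall_self (dl_pos ν).le)
  rw [indicator_of_mem htT] at h2
  refine le_of_tendsto h2 ?_
  have h3 : Tendsto dl atTop (𝓝 0) := dl_tendsto.mono_right nhdsWithin_le_nhds
  have e1 : ∀ᶠ ν in atTop, dl ν < t := h3.eventually (gt_mem_nhds htT.1)
  have e2 : ∀ᶠ ν in atTop, dl ν < (T - t) / 2 :=
    h3.eventually (gt_mem_nhds (by linarith [htT.2]))
  filter_upwards [e1, e2] with ν h4 h5
  have hd := dl_pos ν
  have h6 := h ν t (by linarith) (by linarith)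
  have h7 : ∫ y in Metric.closedBall t (dl ν), (Ioo 0 T).indicator Y y
      = ∫ y in Metric.closedBall t (dl ν), Y y := by
    refine setIntegral_congr_fun measurableSet_closedBall fun y hy => ?_
    rw [Real.closedBall_eq_Icc] at hy
    have hm : y ∈ Ioo 0 T := ⟨by linarith [hy.1], by linarith [hy.2]⟩
    rw [indicator_of_mem hm]
  rw [setAverage_eq, h7, smul_eq_mul, Real.volume_real_closedBall hd.le,
    inv_mul_le_iff₀ (by linarith)]
  linarith

lemma kk_nonneg (h : SW T Q c L f E B) : 0 ≤ kk T Q c L := by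
  have hc := h.c_nonneg
  have hL := h.L_nonneg
  have hP := PP_nonneg h
  have hv := vo_nonneg (PP T Q c)
  unfold kk
  positivity

lemma kk_mono (h : SW S Q c L f E B) (hST : S ≤ T) : kk S Q c L ≤ kk T Q c L := by
  have hc := h.c_nonneg
  have hL := h.L_nonneg
  have hP := PP_nonneg h
  have h1 : PP S Q c ≤ PP T Q c := by
    unfold PP
    have := mul_le_mul_of_nonneg_left hST hc
    linarith
  have h2 := vo_mono h1
  have h3 := vo_nonneg (PP S Q c)
  unfold kk
  have h4 : (L + 1 + 2 * PP S Q c) * vo (PP S Q c) ≤ (L + 1 + 2 * PP T Q c) * vo (PP T Q c) :=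
    mul_le_mul (by linarith) h2 h3 (by linarith)
  linarith

lemma X0_nonneg (hw : WK g0 e0 b0 g E2 B2) : 0 ≤ X0 Q c f E B g0 e0 b0 := by
  refine add_nonneg (integral_nonneg fun z => ?_) (div_nonneg (integral_nonneg fun x => ?_)
    zero_le_two)
  · exact add_nonneg (by positivity) (mul_nonneg (mul_nonneg (q_pos _).le (Th_nonneg _))
      (hw.d_nonneg _))
  · positivity

/-- The squared `L²` distance at time `t`. -/
noncomputable def YY (f : ℝ × E3 × E3 → ℝ) (E B : ℝ × E3 → E3) (g : ℝ × E3 × E3 → ℝ)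
    (E2 B2 : ℝ × E3 → E3) (t : ℝ) : ℝ :=
  (∫ z : E3 × E3, (g (t, z) - f (t, z)) ^ 2)
    + ∫ x, (‖E2 (t, x) - E (t, x)‖ ^ 2 + ‖B2 (t, x) - B (t, x)‖ ^ 2)

lemma YY_nonneg (t : ℝ) : 0 ≤ YY f E B g E2 B2 t :=
  add_nonneg (integral_nonneg fun z => sq_nonneg _) (integral_nonneg fun x => by positivity)

lemma int_YY (h : SW T Q c L f E B) (hw : WK g0 e0 b0 g E2 B2) :
    Integrable (YY f E B g E2 B2) (mt T) :=
  ((int_w h hw : Integrable _ ((mt T).prod volume)).integral_prod_left).add
    ((int_d h hw : Integrable _ ((mt T).prod volume)).integral_prod_left)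

/-- The weighted estimate, in time. -/
lemma kap_YY (h : SW T Q c L f E B) (hw : WK g0 e0 b0 g E2 B2) (hkk : kk T Q c L ≤ k) (ν : ℕ) :
    Integrable (fun t => kap T k ν t * YY f E B g E2 B2 t) (mt T) ∧
    ∫ t, kap T k ν t * YY f E B g E2 B2 t ∂(mt T) ≤ 2 * X0 Q c f E B g0 e0 b0 := by
  have iw : Integrable (fun p => (g p - f p) ^ 2) ((mt T).prod volume) := int_w h hw
  have id : Integrable (fun p => ‖E2 p - E p‖ ^ 2 + ‖B2 p - B p‖ ^ 2) ((mt T).prod volume) :=
    int_d h hw
  have h1 := weak_strong h hw hkk ν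
  have h2 : ∫ p, kap T k ν p.1 * (g p - f p) ^ 2 ∂(m6 T) = _ :=
    integral_weight (X := E3 × E3) (w := kap T k ν) continuous_kap iw
  have h3 : ∫ p, kap T k ν p.1 * (‖E2 p - E p‖ ^ 2 + ‖B2 p - B p‖ ^ 2) ∂(m3 T) = _ :=
    integral_weight (X := E3) (w := kap T k ν) continuous_kap id
  have i1 := int_weight_slices (X := E3 × E3) (w := kap T k ν) continuous_kap iw
  have i2 := int_weight_slices (X := E3) (w := kap T k ν) continuous_kap id
  obtain ⟨i3, e3⟩ := I_add i1 i2
  have e4 : ∀ t, kap T k ν t * YY f E B g E2 B2 t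
      = kap T k ν t * (∫ z : E3 × E3, (g (t, z) - f (t, z)) ^ 2)
        + kap T k ν t * ∫ x, (‖E2 (t, x) - E (t, x)‖ ^ 2 + ‖B2 (t, x) - B (t, x)‖ ^ 2) := by
    intro t
    unfold YY
    ring
  simp_rw [e4]
  refine ⟨i3, ?_⟩
  rw [e3, ← h2, ← h3]
  refine h1.trans ?_
  have h5 := mul_le_of_le_one_left (X0_nonneg (Q := Q) (c := c) (f := f) (E := E) (B := B) hw)
    (tha_zero_le (T := T) (k := k) (ν := ν))
  linarith

/-- **Weak-strong stability**, in the Euclidean space, for almost every time. -/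
theorem weak_strong_ae (h : SW T Q c L f E B) (hw : WK g0 e0 b0 g E2 B2) :
    ∀ᵐ t ∂(mt T), YY f E B g E2 B2 t
      ≤ 4 * Real.exp (kk T Q c L * T) * X0 Q c f E B g0 e0 b0 := by
  have hk := kk_nonneg h
  set k := kk T Q c L with hkd
  refine ae_le_of_windows (int_YY h hw) fun ν t h1 h2 => ?_
  have hd := dl_pos ν
  set S : ℝ := t + 2 * dl ν with hS
  have hS0 : 0 < S := by linarith
  have hs := h.mono hS0 h2
  obtain ⟨i1, h3⟩ := kap_YY hs hw ((kk_mono hs h2).trans hkd.ge) ν
  have hN : (0 : ℝ) < (ν : ℝ) + 1 := by positivity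
  have hdl : ((ν : ℝ) + 1) * dl ν = 1 / 4 := by
    unfold dl
    field_simp
  -- the weight is large on the window
  have h4 : ∀ y ∈ Metric.closedBall t (dl ν),
      YY f E B g E2 B2 y
        ≤ Real.exp (k * T) / ((ν : ℝ) + 1) * (kap S k ν y * YY f E B g E2 B2 y) := by
    intro y hy
    rw [Real.closedBall_eq_Icc] at hy
    have a1 : 1 / 4 ≤ ((ν : ℝ) + 1) * (S - y) := by
      have : dl ν ≤ S - y := by linarith [hy.2]
      have := mul_le_mul_of_nonneg_left this hN.le
      linarith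
    have a2 : ((ν : ℝ) + 1) * (S - y) ≤ 3 / 4 := by
      have : S - y ≤ 3 * dl ν := by linarith [hy.1]
      have := mul_le_mul_of_nonneg_left this hN.le
      linarith
    have a3 := one_le_th1 a1 a2
    have a4 : 1 ≤ Real.exp (k * T) * Real.exp (-(k * y)) := by
      rw [← Real.exp_add, ← Real.exp_zero]
      refine Real.exp_le_exp.2 ?_
      have : y ≤ T := by linarith [hy.2]
      have := mul_le_mul_of_nonneg_left this hk
      linarith
    have a5 : 1 ≤ Real.exp (k * T) / ((ν : ℝ) + 1) * kap S k ν y := by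
      unfold kap
      have a6 : Real.exp (k * T) / ((ν : ℝ) + 1)
          * (((ν : ℝ) + 1) * (Real.exp (-(k * y)) * th1 (((ν : ℝ) + 1) * (S - y))))
          = Real.exp (k * T) * Real.exp (-(k * y)) * th1 (((ν : ℝ) + 1) * (S - y)) := by
        field_simp
      rw [a6]
      nlinarith only [a3, a4]
    rw [← mul_assoc]
    exact le_mul_of_one_le_left (YY_nonneg _) a5
  have hsub : Metric.closedBall t (dl ν) ⊆ Ioo 0 S := by
    intro y hy
    rw [Real.closedBall_eq_Icc] at hy
    exact ⟨by linarith [hy.1], by linarith [hy.2]⟩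
  have i2 : IntegrableOn (fun y => Real.exp (k * T) / ((ν : ℝ) + 1)
      * (kap S k ν y * YY f E B g E2 B2 y)) (Ioo 0 S) volume := i1.const_mul _
  have i3 : IntegrableOn (YY f E B g E2 B2) (Ioo 0 S) volume := int_YY hs hw
  calc ∫ y in Metric.closedBall t (dl ν), YY f E B g E2 B2 y
      ≤ ∫ y in Metric.closedBall t (dl ν), Real.exp (k * T) / ((ν : ℝ) + 1)
          * (kap S k ν y * YY f E B g E2 B2 y) :=
        setIntegral_mono_on (i3.mono_set hsub) (i2.mono_set hsub) measurableSet_closedBall h4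
    _ ≤ ∫ y in Ioo 0 S, Real.exp (k * T) / ((ν : ℝ) + 1)
          * (kap S k ν y * YY f E B g E2 B2 y) := by
        refine setIntegral_mono_set i2 (ae_of_all _ fun y => ?_) hsub.eventuallyLE
        exact mul_nonneg (by positivity) (mul_nonneg (kap_nonneg _) (YY_nonneg _))
    _ = Real.exp (k * T) / ((ν : ℝ) + 1)
          * ∫ y, kap S k ν y * YY f E B g E2 B2 y ∂(mt S) := integral_const_mul _ _
    _ ≤ Real.exp (k * T) / ((ν : ℝ) + 1) * (2 * X0 Q c f E B g0 e0 b0) :=
        mul_le_mul_of_nonneg_left h3 (by positivity)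
    _ = 4 * Real.exp (k * T) * X0 Q c f E B g0 e0 b0 * (2 * dl ν) := by
        unfold dl
        field_simp

end Vale.Agent.P107.H706
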