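import Vale.Agent.P107.H706.WS11

/-!
Weak-strong stability for almost every time, with integrals in `[0,∞]`.
-/

attribute [-instance] ProperSMul.toContinuousSMul IsTopologicalTorsor.toContinuousSMul
  IdemSemiring.toCanonicallyOrderedAdd IdemSemiring.toMulLeftMono IdemSemiring.toMulRightMono
  AddQuantale.instAddLeftMono AddQuantale.instAddRightMono Quantale.instMulLeftMono
  Quantale.instMulRightMono FiniteDimensional.rclike_to_real IsScalarTower.complexToReal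
  FiniteDimensional.complexToReal

open MeasureTheory Set Filter Topology
open scoped RealInnerProductSpace ENNReal NNReal

namespace Vale.Agent.P107.H706

open Cn

variable {T Q c L : ℝ} {f g : ℝ × E3 × E3 → ℝ} {E B E2 B2 : ℝ × E3 → E3}
  {g0 : E3 × E3 → ℝ} {e0 b0 : E3 → E3}

lemma norm_sq_le2 (a b : E3) : ‖a‖ ^ 2 ≤ 2 * (‖a - b‖ ^ 2 + ‖b‖ ^ 2) := by
  have h2 : ‖a‖ ≤ ‖a - b‖ + ‖b‖ := by
    have := norm_add_le (a - b) b
    rwa [sub_add_cancel] at this
  nlinarith [norm_nonneg (a - b), norm_nonneg a, norm_nonneg b, sq_nonneg (‖a - b‖ - ‖b‖)]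

lemma wk_of_finite (h : SW T Q c L f E B) (hw : Weak3 g0 e0 b0 g E2 B2)
    (mg : Measurable g0) (me : Measurable e0) (mb : Measurable b0) (hg : ∀ z, 0 ≤ g0 z)
    (i1 : Integrable fun z : E3 × E3 => q z.2 * |g0 z - f (0, z)| + (g0 z - f (0, z)) ^ 2)
    (i2 : Integrable fun x => ‖e0 x - E (0, x)‖ ^ 2 + ‖b0 x - B (0, x)‖ ^ 2) :
    WK g0 e0 b0 g E2 B2 := by
  have j1 := h.int_f20 h.zero_mem
  have j2 := h.int_qf0 h.zero_mem
  have j3 := h.fields 0 h.zero_mem
  refine ⟨hw, mg, me, mb, hg, ?_, ?_, ?_⟩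
  · refine ((i1.add j1).const_mul 2).mono' (mg.pow_const 2).aestronglyMeasurable
      (ae_of_all _ fun z => ?_)
    rw [Real.norm_of_nonneg (sq_nonneg _)]
    show g0 z ^ 2 ≤ 2 * (q z.2 * |g0 z - f (0, z)| + (g0 z - f (0, z)) ^ 2 + f (0, z) ^ 2)
    have h1 := mul_nonneg (q_pos z.2).le (abs_nonneg (g0 z - f (0, z)))
    nlinarith only [h1, sq_nonneg (g0 z - 2 * f (0, z))]
  · refine (i1.add j2).mono' ((continuous_q.measurable.comp measurable_snd).mul
      mg).aestronglyMeasurable (ae_of_all _ fun z => ?_)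
    rw [Real.norm_of_nonneg (mul_nonneg (q_pos _).le (hg _))]
    show q z.2 * g0 z ≤ q z.2 * |g0 z - f (0, z)| + (g0 z - f (0, z)) ^ 2 + q z.2 * f (0, z)
    have h1 := mul_le_mul_of_nonneg_left (le_abs_self (g0 z - f (0, z))) (q_pos z.2).le
    have h2 := sq_nonneg (g0 z - f (0, z))
    linarith
  · refine ((i2.add j3).const_mul 2).mono' ((me.norm.pow_const 2).add
      (mb.norm.pow_const 2)).aestronglyMeasurable (ae_of_all _ fun x => ?_)
    rw [Real.norm_of_nonneg (by positivity)]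
    show ‖e0 x‖ ^ 2 + ‖b0 x‖ ^ 2 ≤ 2 * (‖e0 x - E (0, x)‖ ^ 2 + ‖b0 x - B (0, x)‖ ^ 2
      + (‖E (0, x)‖ ^ 2 + ‖B (0, x)‖ ^ 2))
    have h1 := norm_sq_le2 (e0 x) (E (0, x))
    have h2 := norm_sq_le2 (b0 x) (B (0, x))
    linarith

lemma X0_le (h : SW T Q c L f E B) (hw : WK g0 e0 b0 g E2 B2)
    (i1 : Integrable fun z : E3 × E3 => q z.2 * |g0 z - f (0, z)| + (g0 z - f (0, z)) ^ 2) :
    X0 Q c f E B g0 e0 b0
      ≤ (∫ z : E3 × E3, (q z.2 * |g0 z - f (0, z)| + (g0 z - f (0, z)) ^ 2))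
        + ∫ x, (‖e0 x - E (0, x)‖ ^ 2 + ‖b0 x - B (0, x)‖ ^ 2) := by
  have h1 : (∫ z : E3 × E3, ((g0 z - f (0, z)) ^ 2 / 2 + q z.2 * Th (yy Q c (0, z)) * g0 z))
      ≤ ∫ z : E3 × E3, (q z.2 * |g0 z - f (0, z)| + (g0 z - f (0, z)) ^ 2) := by
    refine integral_mono_of_nonneg (ae_of_all _ fun z => ?_) i1 (ae_of_all _ fun z => ?_)
    · exact add_nonneg (by positivity) (mul_nonneg (mul_nonneg (q_pos _).le (Th_nonneg _))
        (hw.d_nonneg _))
    · show (g0 z - f (0, z)) ^ 2 / 2 + q z.2 * Th (yy Q c (0, z)) * g0 z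
        ≤ q z.2 * |g0 z - f (0, z)| + (g0 z - f (0, z)) ^ 2
      have e1 : f (0, z) * Th (yy Q c (0, z)) = 0 := by
        by_cases hf : f (0, z) = 0
        · rw [hf, zero_mul]
        · have h2 := h.supp_Q (0, z) h.zero_mem hf
          rw [Th_eq_zero (by unfold yy; simp only at h2 ⊢; linarith), mul_zero]
      have e2 : q z.2 * Th (yy Q c (0, z)) * g0 z
          = q z.2 * (Th (yy Q c (0, z)) * (g0 z - f (0, z))) := by
        linear_combination (q z.2) * e1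
      have h3 : Th (yy Q c (0, z)) * (g0 z - f (0, z)) ≤ |g0 z - f (0, z)| := by
        refine (le_abs_self _).trans ?_
        rw [abs_mul, abs_of_nonneg (Th_nonneg _)]
        exact mul_le_of_le_one_left (abs_nonneg _) (Th_le_one _)
      have h4 := mul_le_mul_of_nonneg_left h3 (q_pos z.2).le
      rw [e2]
      have h5 := sq_nonneg (g0 z - f (0, z))
      linarith
  have h2 : 0 ≤ ∫ x, (‖e0 x - E (0, x)‖ ^ 2 + ‖b0 x - B (0, x)‖ ^ 2) :=
    integral_nonneg fun x => by positivity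
  unfold X0
  linarith

/-- **Weak-strong stability**, in the Euclidean space, for almost every time. -/
theorem weak_strong_lint (h : SW T Q c L f E B) (hw : Weak3 g0 e0 b0 g E2 B2)
    (mg : Measurable g0) (me : Measurable e0) (mb : Measurable b0) (hg : ∀ z, 0 ≤ g0 z) :
    ∀ᵐ t : ℝ, t ∈ Ioo 0 T → (∫⁻ z : E3 × E3, ENNReal.ofReal ((g (t, z) - f (t, z)) ^ 2))
      + (∫⁻ x, ENNReal.ofReal (‖E2 (t, x) - E (t, x)‖ ^ 2 + ‖B2 (t, x) - B (t, x)‖ ^ 2))
      ≤ ENNReal.ofReal (4 * Real.exp (kk T Q c L * T))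
        * ((∫⁻ z : E3 × E3, ENNReal.ofReal (q z.2 * |g0 z - f (0, z)| + (g0 z - f (0, z)) ^ 2))
          + ∫⁻ x, ENNReal.ofReal (‖e0 x - E (0, x)‖ ^ 2 + ‖b0 x - B (0, x)‖ ^ 2)) := by
  have hCpos : 0 < 4 * Real.exp (kk T Q c L * T) := by positivity
  have hC0 : ENNReal.ofReal (4 * Real.exp (kk T Q c L * T)) ≠ 0 := by
    rw [Ne, ENNReal.ofReal_eq_zero, not_le]
    exact hCpos
  by_cases hfin : (∫⁻ z : E3 × E3, ENNReal.ofReal (q z.2 * |g0 z - f (0, z)|
      + (g0 z - f (0, z)) ^ 2)) + ∫⁻ x, ENNReal.ofReal (‖e0 x - E (0, x)‖ ^ 2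
        + ‖b0 x - B (0, x)‖ ^ 2) = ⊤
  · rw [hfin, ENNReal.mul_top hC0]
    exact ae_of_all _ fun t _ => le_top
  have hfin1 := (ENNReal.add_ne_top.1 hfin).1
  have hfin2 := (ENNReal.add_ne_top.1 hfin).2
  have mf : Measurable fun z : E3 × E3 => f (0, z) :=
    h.f_c1.continuous.measurable.comp measurable_prodMk_left
  have mE : Measurable fun x : E3 => E (0, x) :=
    h.E_c1.continuous.measurable.comp measurable_prodMk_left
  have mB : Measurable fun x : E3 => B (0, x) :=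
    h.B_c1.continuous.measurable.comp measurable_prodMk_left
  have n1 : ∀ z : E3 × E3, 0 ≤ q z.2 * |g0 z - f (0, z)| + (g0 z - f (0, z)) ^ 2 := fun z =>
    add_nonneg (mul_nonneg (q_pos _).le (abs_nonneg _)) (sq_nonneg _)
  have i1 : Integrable fun z : E3 × E3 => q z.2 * |g0 z - f (0, z)| + (g0 z - f (0, z)) ^ 2 := by
    refine ⟨?_, ?_⟩
    · exact (((continuous_q.measurable.comp measurable_snd).mul
        (mg.sub mf).norm).add ((mg.sub mf).pow_const 2)).aestronglyMeasurable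
    · rw [hasFiniteIntegral_iff_ofReal (ae_of_all _ n1)]
      exact lt_top_iff_ne_top.2 hfin1
  have i2 : Integrable fun x => ‖e0 x - E (0, x)‖ ^ 2 + ‖b0 x - B (0, x)‖ ^ 2 := by
    refine ⟨?_, ?_⟩
    · exact (((me.sub mE).norm.pow_const 2).add
        ((mb.sub mB).norm.pow_const 2)).aestronglyMeasurable
    · rw [hasFiniteIntegral_iff_ofReal (ae_of_all _ fun x => by positivity)]
      exact lt_top_iff_ne_top.2 hfin2
  have hwk := wk_of_finite h hw mg me mb hg i1 i2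
  have hle := weak_strong_ae h hwk
  have hX := X0_le h hwk i1
  have s1 : ∀ᵐ t ∂(mt T), Integrable fun z : E3 × E3 => (g (t, z) - f (t, z)) ^ 2 :=
    (int_w h hwk : Integrable _ ((mt T).prod volume)).prod_right_ae
  have s2 : ∀ᵐ t ∂(mt T), Integrable fun x : E3 =>
      ‖E2 (t, x) - E (t, x)‖ ^ 2 + ‖B2 (t, x) - B (t, x)‖ ^ 2 :=
    (int_d h hwk : Integrable _ ((mt T).prod volume)).prod_right_ae
  have key : ∀ᵐ t ∂(mt T), (∫⁻ z : E3 × E3, ENNReal.ofReal ((g (t, z) - f (t, z)) ^ 2))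
      + (∫⁻ x, ENNReal.ofReal (‖E2 (t, x) - E (t, x)‖ ^ 2 + ‖B2 (t, x) - B (t, x)‖ ^ 2))
      ≤ ENNReal.ofReal (4 * Real.exp (kk T Q c L * T))
        * ((∫⁻ z : E3 × E3, ENNReal.ofReal (q z.2 * |g0 z - f (0, z)| + (g0 z - f (0, z)) ^ 2))
          + ∫⁻ x, ENNReal.ofReal (‖e0 x - E (0, x)‖ ^ 2 + ‖b0 x - B (0, x)‖ ^ 2)) := by
    filter_upwards [hle, s1, s2] with t h1 h2 h3
    rw [← ofReal_integral_eq_lintegral_ofReal h2 (ae_of_all _ fun z => sq_nonneg _),
      ← ofReal_integral_eq_lintegral_ofReal h3 (ae_of_all _ fun x => by positivity),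
      ← ofReal_integral_eq_lintegral_ofReal i1 (ae_of_all _ n1),
      ← ofReal_integral_eq_lintegral_ofReal i2 (ae_of_all _ fun x => by positivity),
      ← ENNReal.ofReal_add (integral_nonneg fun z => sq_nonneg _)
        (integral_nonneg fun x => by positivity),
      ← ENNReal.ofReal_add (integral_nonneg n1) (integral_nonneg fun x => by positivity),
      ← ENNReal.ofReal_mul hCpos.le]
    refine ENNReal.ofReal_le_ofReal ?_
    exact h1.trans (mul_le_mul_of_nonneg_left hX hCpos.le)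
  exact (ae_restrict_iff' measurableSet_Ioo).1 key

end Vale.Agent.P107.H706
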