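import Vale.Agent.P107.H706.WS1

/-!
Weak-strong uniqueness: the facts on the strong solution.
-/

attribute [-instance] ProperSMul.toContinuousSMul IsTopologicalTorsor.toContinuousSMul
  IdemSemiring.toCanonicallyOrderedAdd IdemSemiring.toMulLeftMono IdemSemiring.toMulRightMono
  AddQuantale.instAddLeftMono AddQuantale.instAddRightMono Quantale.instMulLeftMono
  Quantale.instMulRightMono FiniteDimensional.rclike_to_real IsScalarTower.complexToReal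
  FiniteDimensional.complexToReal

open MeasureTheory Set Filter Topology
open scoped RealInnerProductSpace ENNReal NNReal

namespace Vale.Agent.P107.H706

open Cn

/-- The facts on the strong solution which are used. -/
structure SW (T Q c L : ℝ) (f : ℝ × E3 × E3 → ℝ) (E B : ℝ × E3 → E3) : Prop where
  T_pos : 0 < T
  Q_nonneg : 0 ≤ Q
  c_nonneg : 0 ≤ c
  L_nonneg : 0 ≤ L
  f_c1 : ContDiff ℝ 1 f
  E_c1 : ContDiff ℝ 1 E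
  B_c1 : ContDiff ℝ 1 B
  f_nonneg : ∀ p, 0 ≤ f p
  supp : ∃ R, ∀ p : ℝ × E3 × E3, p.1 ∈ Icc (-2) T → f p ≠ 0 → ‖p.2.1‖ ≤ R ∧ ‖p.2.2‖ ≤ R
  supp_Q : ∀ p : ℝ × E3 × E3, p.1 ∈ Icc 0 T → f p ≠ 0 → q p.2.2 ≤ Q
  E_le : ∀ p : ℝ × E3, p.1 ∈ Icc 0 T → ‖E p‖ ≤ c
  D_le : ∀ p : ℝ × E3 × E3, p.1 ∈ Ioo 0 T → ∀ a : E3,
    |fderiv ℝ f p (0, 0, a)| ≤ L * ‖a‖ * ind Q p.2.2
  vlasov : ∀ p : ℝ × E3 × E3, p.1 ∈ Ioo 0 T →
    fderiv ℝ f p (1, u p.2.2, E (p.1, p.2.1) + cross (u p.2.2) (B (p.1, p.2.1))) = 0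
  ampere : ∀ p : ℝ × E3, p.1 ∈ Ioo 0 T →
    fderiv ℝ E p (1, 0) = curl (fun y => B (p.1, y)) p.2 - ∫ v, f (p.1, p.2, v) • u v
  faraday : ∀ p : ℝ × E3, p.1 ∈ Ioo 0 T →
    fderiv ℝ B p (1, 0) = - curl (fun y => E (p.1, y)) p.2
  casimir : ∀ t ∈ Icc 0 T, ∫ z : E3 × E3, f (t, z) ^ 2 = ∫ z : E3 × E3, f (0, z) ^ 2
  fields : ∀ t ∈ Icc 0 T, Integrable fun x : E3 => ‖E (t, x)‖ ^ 2 + ‖B (t, x)‖ ^ 2
  energy : ∀ t ∈ Icc 0 T,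
    (∫ z : E3 × E3, q z.2 * f (t, z)) + (∫ x, (‖E (t, x)‖ ^ 2 + ‖B (t, x)‖ ^ 2)) / 2
      = (∫ z : E3 × E3, q z.2 * f (0, z)) + (∫ x, (‖E (0, x)‖ ^ 2 + ‖B (0, x)‖ ^ 2)) / 2
  work : ∀ T' ∈ Ioc 0 T, ∀ (k : ℝ) (ν : ℕ), ∫ p, (tha1 T' k ν p.1 * (q p.2.2 * f p)
      + tha T' k ν p.1 * (f p * ⟪u p.2.2, E (p.1, p.2.1)⟫)) ∂(m6 T')
    = - (tha T' k ν 0 * ∫ z : E3 × E3, q z.2 * f (0, z))

lemma SW.mono {T T' Q c L : ℝ} {f : ℝ × E3 × E3 → ℝ} {E B : ℝ × E3 → E3}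
    (h : SW T Q c L f E B) (h0 : 0 < T') (hT : T' ≤ T) : SW T' Q c L f E B where
  T_pos := h0
  Q_nonneg := h.Q_nonneg
  c_nonneg := h.c_nonneg
  L_nonneg := h.L_nonneg
  f_c1 := h.f_c1
  E_c1 := h.E_c1
  B_c1 := h.B_c1
  f_nonneg := h.f_nonneg
  supp := by
    obtain ⟨R, hR⟩ := h.supp
    exact ⟨R, fun p hp => hR p ⟨hp.1, hp.2.trans hT⟩⟩
  supp_Q := fun p hp => h.supp_Q p ⟨hp.1, hp.2.trans hT⟩
  E_le := fun p hp => h.E_le p ⟨hp.1, hp.2.trans hT⟩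
  D_le := fun p hp => h.D_le p ⟨hp.1, hp.2.trans_le hT⟩
  vlasov := fun p hp => h.vlasov p ⟨hp.1, hp.2.trans_le hT⟩
  ampere := fun p hp => h.ampere p ⟨hp.1, hp.2.trans_le hT⟩
  faraday := fun p hp => h.faraday p ⟨hp.1, hp.2.trans_le hT⟩
  casimir := fun t ht => h.casimir t ⟨ht.1, ht.2.trans hT⟩
  fields := fun t ht => h.fields t ⟨ht.1, ht.2.trans hT⟩
  energy := fun t ht => h.energy t ⟨ht.1, ht.2.trans hT⟩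
  work := fun S hS => h.work S ⟨hS.1, hS.2.trans hT⟩

end Vale.Agent.P107.H706
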