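import Vale.Agent.P107.H706.WS2

/-!
Weak-strong uniqueness: cutoffs, and the integrability of the weak solution.
-/

attribute [-instance] ProperSMul.toContinuousSMul IsTopologicalTorsor.toContinuousSMul
  IdemSemiring.toCanonicallyOrderedAdd IdemSemiring.toMulLeftMono IdemSemiring.toMulRightMono
  AddQuantale.instAddLeftMono AddQuantale.instAddRightMono Quantale.instMulLeftMono
  Quantale.instMulRightMono FiniteDimensional.rclike_to_real IsScalarTower.complexToReal
  FiniteDimensional.complexToReal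

open MeasureTheory Set Filter Topology
open scoped RealInnerProductSpace ENNReal NNReal

namespace Vale.Agent.P107.H706

open Cn

/-! ### Cutoffs -/

/-- a sequence of cutoffs -/
structure CS (C : ℝ) (χ : ℕ → E3 → ℝ) : Prop where
  C_nonneg : 0 ≤ C
  c1 : ∀ n, ContDiff ℝ 1 (χ n)
  supp : ∀ n, HasCompactSupport (χ n)
  nonneg : ∀ n x, 0 ≤ χ n x
  le_one : ∀ n x, χ n x ≤ 1
  grad : ∀ n x a, |fderiv ℝ (χ n) x a| ≤ C / ((n : ℝ) + 1) * ‖a‖
  one : ∀ x, ∀ᶠ n in atTop, χ n x = 1

lemma exists_CS : ∃ (C : ℝ) (χ : ℕ → E3 → ℝ), CS C χ := by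
  obtain ⟨C, hC0, hC⟩ := exists_chi
  choose χ h1 h2 h3 h4 h5 h6 using fun n : ℕ => hC ((n : ℝ) + 1) (by positivity)
  refine ⟨C, χ, hC0, h1, h2, h3, h4, fun n x a => ?_, fun x => ?_⟩
  · rw [← Real.norm_eq_abs]
    exact (ContinuousLinearMap.le_opNorm _ _).trans
      (mul_le_mul_of_nonneg_right (h6 n x) (norm_nonneg _))
  · obtain ⟨N, hN⟩ := exists_nat_ge ‖x‖
    filter_upwards [eventually_ge_atTop N] with n hn
    refine h5 n x ?_
    have : (N : ℝ) ≤ n := by exact_mod_cast hn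
    linarith

variable {T k Q c L C : ℝ} {ν : ℕ} {χ : ℕ → E3 → ℝ}

lemma CS.lim (h : CS C χ) {X : Type*} [MeasurableSpace X] {μ : Measure X} {π : X → E3}
    (hπ : Measurable π) {G : X → ℝ} (hG : Integrable G μ) :
    Tendsto (fun n => ∫ p, χ n (π p) * G p ∂μ) atTop (𝓝 (∫ p, G p ∂μ)) := by
  refine tendsto_integral_of_dominated_convergence (fun p => ‖G p‖) (fun n => ?_) hG.norm
    (fun n => ?_) ?_
  · exact (((h.c1 n).continuous.measurable.comp hπ).aestronglyMeasurable).mul hG.1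
  · refine ae_of_all _ fun p => ?_
    rw [norm_mul, Real.norm_of_nonneg (h.nonneg _ _)]
    exact mul_le_of_le_one_left (norm_nonneg _) (h.le_one _ _)
  · refine ae_of_all _ fun p => ?_
    refine tendsto_const_nhds.congr' ?_
    filter_upwards [h.one (π p)] with n hn
    rw [hn, one_mul]

lemma CS.int_mul (h : CS C χ) {X : Type*} [MeasurableSpace X] {μ : Measure X} {π : X → E3}
    (hπ : Measurable π) {G : X → ℝ} (hG : Integrable G μ) (n : ℕ) :
    Integrable (fun p => χ n (π p) * G p) μ := by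
  refine hG.norm.mono' ?_ ?_
  · exact (((h.c1 n).continuous.measurable.comp hπ).aestronglyMeasurable).mul hG.1
  · refine ae_of_all _ fun p => ?_
    rw [norm_mul, Real.norm_of_nonneg (h.nonneg _ _)]
    exact mul_le_of_le_one_left (norm_nonneg _) (h.le_one _ _)

lemma lim_zero {X : Type*} [MeasurableSpace X] {μ : Measure X} {W : ℕ → X → ℝ} {H : X → ℝ}
    (hH : Integrable H μ) (hW : ∀ n : ℕ, ∀ᵐ p ∂μ, |W n p| ≤ C / ((n : ℝ) + 1) * H p) :
    Tendsto (fun n => ∫ p, W n p ∂μ) atTop (𝓝 0) := by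
  have h1 : ∀ n : ℕ, ‖∫ p, W n p ∂μ‖ ≤ C / ((n : ℝ) + 1) * ∫ p, H p ∂μ := by
    intro n
    rw [← integral_const_mul]
    exact norm_integral_le_of_norm_le (hH.const_mul _) (hW n)
  refine squeeze_zero_norm h1 ?_
  have h2 : Tendsto (fun n : ℕ => C / ((n : ℝ) + 1)) atTop (𝓝 0) := by
    have := (tendsto_const_div_atTop_nhds_zero_nat C).comp (tendsto_add_atTop_nat 1)
    refine this.congr fun n => ?_
    simp
  simpa using h2.mul_const (∫ p, H p ∂μ)

/-! ### Products with time -/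

section slices

variable {X : Type*} [MeasureSpace X] [SFinite (volume : Measure X)]

lemma int_of_slices {G : ℝ × X → ℝ} (hG : Measurable G) (h0 : ∀ p, 0 ≤ G p) {M : ℝ}
    (h : ∀ᵐ t ∂(mt T), ∫⁻ z, ENNReal.ofReal (G (t, z)) ≤ ENNReal.ofReal M) :
    Integrable G ((mt T).prod volume) := by
  refine ⟨hG.aestronglyMeasurable, ?_⟩
  rw [hasFiniteIntegral_iff_ofReal (ae_of_all _ h0), lintegral_prod _
    (hG.ennreal_ofReal).aemeasurable]
  calc ∫⁻ t, (∫⁻ z, ENNReal.ofReal (G (t, z))) ∂(mt T) ≤ ∫⁻ _, ENNReal.ofReal M ∂(mt T) :=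
        lintegral_mono_ae h
    _ < ⊤ := by
        rw [lintegral_const]
        exact ENNReal.mul_lt_top ENNReal.ofReal_lt_top (measure_lt_top _ _)

omit [SFinite (volume : Measure X)] in
lemma int_weight {w : ℝ → ℝ} (hw : Continuous w) {G : ℝ × X → ℝ}
    (hG : Integrable G ((mt T).prod volume)) :
    Integrable (fun p => w p.1 * G p) ((mt T).prod volume) := by
  obtain ⟨C, hC⟩ := (isCompact_Icc (a := (0 : ℝ)) (b := T)).exists_bound_of_continuousOn
    hw.continuousOn
  refine (hG.norm.const_mul C).mono' ?_ ?_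
  · exact ((hw.measurable.comp measurable_fst).aestronglyMeasurable).mul hG.1
  · have h1 : ∀ᵐ p ∂((mt T).prod (volume : Measure X)), p.1 ∈ Ioo 0 T := by
      have : ∀ᵐ t ∂(mt T), t ∈ Ioo 0 T := ae_restrict_mem measurableSet_Ioo
      exact Measure.quasiMeasurePreserving_fst.ae this
    filter_upwards [h1] with p hp
    rw [norm_mul]
    exact mul_le_mul_of_nonneg_right (hC _ (Ioo_subset_Icc_self hp)) (norm_nonneg _)

lemma integral_weight {w : ℝ → ℝ} (hw : Continuous w) {G : ℝ × X → ℝ}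
    (hG : Integrable G ((mt T).prod volume)) :
    ∫ p, w p.1 * G p ∂((mt T).prod volume) = ∫ t, w t * (∫ z, G (t, z)) ∂(mt T) := by
  rw [integral_prod _ (int_weight hw hG)]
  refine integral_congr_ae (ae_of_all _ fun t => ?_)
  show ∫ z, w t * G (t, z) = w t * ∫ z, G (t, z)
  rw [integral_const_mul]

lemma int_weight_slices {w : ℝ → ℝ} (hw : Continuous w) {G : ℝ × X → ℝ}
    (hG : Integrable G ((mt T).prod volume)) :
    Integrable (fun t => w t * (∫ z, G (t, z))) (mt T) := by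
  have h := (int_weight hw hG).integral_prod_left
  refine h.congr (ae_of_all _ fun t => ?_)
  show ∫ z, w t * G (t, z) = w t * ∫ z, G (t, z)
  rw [integral_const_mul]

end slices

lemma ae_mt (T : ℝ) : ∀ᵐ t ∂(mt T), t ∈ Ioo 0 T := ae_restrict_mem measurableSet_Ioo

lemma neg_tha1_int : ∀ {w : ℝ → ℝ}, (∀ t, w t = - tha1 T k ν t) → 0 < T →
    ∫ t, w t ∂(mt T) = tha T k ν 0 := by
  intro w hw hT
  simp_rw [hw]
  rw [integral_neg]
  unfold mt
  rw [integral_tha1 hT, neg_neg]

end Vale.Agent.P107.H706
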