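import Vale.Agent.P107.H706.WS3

/-!
Weak-strong uniqueness: the integrability of the weak and the strong solution, and the
inequalities for the weak solution.
-/

attribute [-instance] ProperSMul.toContinuousSMul IsTopologicalTorsor.toContinuousSMul
  IdemSemiring.toCanonicallyOrderedAdd IdemSemiring.toMulLeftMono IdemSemiring.toMulRightMono
  AddQuantale.instAddLeftMono AddQuantale.instAddRightMono Quantale.instMulLeftMono
  Quantale.instMulRightMono FiniteDimensional.rclike_to_real IsScalarTower.complexToReal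
  FiniteDimensional.complexToReal

open MeasureTheory Set Filter Topology
open scoped RealInnerProductSpace ENNReal NNReal

namespace Vale.Agent.P107.H706

open Cn

variable {T k Q c L C : ℝ} {ν : ℕ} {χ : ℕ → E3 → ℝ} {f g : ℝ × E3 × E3 → ℝ} {E B E2 B2 : ℝ × E3 → E3}
  {g0 : E3 × E3 → ℝ} {e0 b0 : E3 → E3}

/-- Continuous functions with the support of the strong solution are integrable. -/
lemma int_of_supp {G : ℝ × E3 × E3 → ℝ} (hG : Continuous G) {R : ℝ}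
    (h0 : ∀ p : ℝ × E3 × E3, p.1 ∈ Ioo 0 T → G p ≠ 0 → ‖p.2.1‖ ≤ R ∧ ‖p.2.2‖ ≤ R) :
    Integrable G (m6 T) := by
  rw [m6_eq]
  have hK : IsCompact (Icc 0 T ×ˢ (Metric.closedBall (0 : E3) R ×ˢ Metric.closedBall (0 : E3) R)) :=
    isCompact_Icc.prod ((isCompact_closedBall _ _).prod (isCompact_closedBall _ _))
  have h1 : IntegrableOn G
      (Icc 0 T ×ˢ (Metric.closedBall (0 : E3) R ×ˢ Metric.closedBall (0 : E3) R)) :=
    hG.continuousOn.integrableOn_compact hK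
  refine h1.of_forall_sdiff_eq_zero (measurableSet_Ioo.prod MeasurableSet.univ) fun p hp => ?_
  by_contra hne
  have h2 := h0 p hp.1.1 hne
  exact hp.2 ⟨Ioo_subset_Icc_self hp.1.1, by simpa using h2.1, by simpa using h2.2⟩

namespace SW

variable (h : SW T Q c L f E B)

include h

lemma int_of_mul {G : ℝ × E3 × E3 → ℝ} (hG : Continuous G) (h0 : ∀ p, f p = 0 → G p = 0) :
    Integrable G (m6 T) := by
  obtain ⟨R, hR⟩ := h.supp
  refine int_of_supp hG (R := R) fun p hp hne => ?_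
  exact hR p ⟨by linarith [hp.1], hp.2.le⟩ fun h1 => hne (h0 p h1)

lemma int0_of_mul {G : E3 × E3 → ℝ} (hG : Continuous G) {t : ℝ} (ht : t ∈ Icc 0 T)
    (h0 : ∀ z, f (t, z) = 0 → G z = 0) :
    Integrable G := by
  have := isAddHaar_prod
  obtain ⟨R, hR⟩ := h.supp
  refine hG.integrable_of_hasCompactSupport (HasCompactSupport.intro (isCompact_KR R) ?_)
  intro z hz
  refine h0 z ?_
  by_contra hne
  have h2 := hR (t, z) ⟨by linarith [ht.1], ht.2⟩ hne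
  exact hz ⟨by simpa using h2.1, by simpa using h2.2⟩

lemma zero_mem : (0 : ℝ) ∈ Icc 0 T := ⟨le_rfl, h.T_pos.le⟩

lemma int_f2 : Integrable (fun p => f p ^ 2) (m6 T) :=
  h.int_of_mul (h.f_c1.continuous.pow 2) fun p hp => by rw [hp]; ring

lemma int_qf : Integrable (fun p => q p.2.2 * f p) (m6 T) :=
  h.int_of_mul ((continuous_q.comp (continuous_snd.comp continuous_snd)).mul h.f_c1.continuous)
    fun p hp => by rw [hp]; ring

lemma int_qf0 {t : ℝ} (ht : t ∈ Icc 0 T) : Integrable fun z : E3 × E3 => q z.2 * f (t, z) :=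
  h.int0_of_mul ((continuous_q.comp continuous_snd).mul
    (h.f_c1.continuous.comp (by fun_prop))) ht fun z hz => by rw [hz]; ring

lemma int_f20 {t : ℝ} (ht : t ∈ Icc 0 T) : Integrable fun z : E3 × E3 => f (t, z) ^ 2 :=
  h.int0_of_mul ((h.f_c1.continuous.comp (by fun_prop)).pow 2) ht fun z hz => by rw [hz]; ring

/-- the total energy -/
lemma energy_nonneg : 0 ≤ (∫ z : E3 × E3, q z.2 * f (0, z))
    + (∫ x, (‖E (0, x)‖ ^ 2 + ‖B (0, x)‖ ^ 2)) / 2 :=
  add_nonneg (integral_nonneg fun z => mul_nonneg (q_pos _).le (h.f_nonneg _))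
    (div_nonneg (integral_nonneg fun x => by positivity) zero_le_two)

lemma int_EB : Integrable (fun p => ‖E p‖ ^ 2 + ‖B p‖ ^ 2) (m3 T) := by
  refine int_of_slices (M := 2 * ((∫ z : E3 × E3, q z.2 * f (0, z))
    + (∫ x, (‖E (0, x)‖ ^ 2 + ‖B (0, x)‖ ^ 2)) / 2)) ?_ (fun p => by positivity) ?_
  · exact ((h.E_c1.continuous.norm.pow 2).add (h.B_c1.continuous.norm.pow 2)).measurable
  · filter_upwards [ae_mt T] with t ht
    have ht' := Ioo_subset_Icc_self ht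
    rw [← ofReal_integral_eq_lintegral_ofReal (h.fields t ht') (ae_of_all _ fun x => by positivity)]
    refine ENNReal.ofReal_le_ofReal ?_
    have h1 := h.energy t ht'
    have h2 : 0 ≤ ∫ z : E3 × E3, q z.2 * f (t, z) :=
      integral_nonneg fun z => mul_nonneg (q_pos _).le (h.f_nonneg _)
    linarith

/-- conservation of the `L²` norm, weighted -/
lemma cas_weight : ∫ p, (- tha1 T k ν p.1) * f p ^ 2 ∂(m6 T)
    = tha T k ν 0 * ∫ z : E3 × E3, f (0, z) ^ 2 := by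
  have h1 := integral_weight (X := E3 × E3) (T := T) (w := fun t => - tha1 T k ν t)
    continuous_tha1.neg (G := fun p => f p ^ 2) h.int_f2
  have h1' : ∫ p, (- tha1 T k ν p.1) * f p ^ 2 ∂(m6 T)
    = ∫ t, (- tha1 T k ν t) * (∫ z, f (t, z) ^ 2) ∂(mt T) := h1
  rw [h1']
  have h2 : ∫ t, (- tha1 T k ν t) * (∫ z, f (t, z) ^ 2) ∂(mt T)
      = ∫ t, (- tha1 T k ν t) * (∫ z : E3 × E3, f (0, z) ^ 2) ∂(mt T) := by
    refine integral_congr_ae ?_
    filter_upwards [ae_mt T] with t ht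
    rw [h.casimir t (Ioo_subset_Icc_self ht)]
  rw [h2, integral_mul_const, neg_tha1_int (fun _ => rfl) h.T_pos]

/-- conservation of the energy, weighted -/
lemma energy_weight : ∫ p, (- tha1 T k ν p.1) * (q p.2.2 * f p) ∂(m6 T)
      + (∫ p, (- tha1 T k ν p.1) * (‖E p‖ ^ 2 + ‖B p‖ ^ 2) ∂(m3 T)) / 2
    = tha T k ν 0 * ((∫ z : E3 × E3, q z.2 * f (0, z))
      + (∫ x, (‖E (0, x)‖ ^ 2 + ‖B (0, x)‖ ^ 2)) / 2) := by
  have h1 : ∫ p, (- tha1 T k ν p.1) * (q p.2.2 * f p) ∂(m6 T)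
      = ∫ t, (- tha1 T k ν t) * (∫ z : E3 × E3, q z.2 * f (t, z)) ∂(mt T) :=
    integral_weight (X := E3 × E3) (T := T) (w := fun t => - tha1 T k ν t)
      continuous_tha1.neg (G := fun p => q p.2.2 * f p) h.int_qf
  have h2 : ∫ p, (- tha1 T k ν p.1) * (‖E p‖ ^ 2 + ‖B p‖ ^ 2) ∂(m3 T)
      = ∫ t, (- tha1 T k ν t) * (∫ x, (‖E (t, x)‖ ^ 2 + ‖B (t, x)‖ ^ 2)) ∂(mt T) :=
    integral_weight (X := E3) (T := T) (w := fun t => - tha1 T k ν t)
      continuous_tha1.neg (G := fun p => ‖E p‖ ^ 2 + ‖B p‖ ^ 2) h.int_EB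
  have i1 : Integrable (fun t => (- tha1 T k ν t) * (∫ z : E3 × E3, q z.2 * f (t, z))) (mt T) := by
    exact int_weight_slices (X := E3 × E3) (T := T) (w := fun t => - tha1 T k ν t)
      continuous_tha1.neg (G := fun p => q p.2.2 * f p) h.int_qf
  have i2 : Integrable (fun t => (- tha1 T k ν t)
      * (∫ x, (‖E (t, x)‖ ^ 2 + ‖B (t, x)‖ ^ 2))) (mt T) := by
    exact int_weight_slices (X := E3) (T := T) (w := fun t => - tha1 T k ν t)
      continuous_tha1.neg (G := fun p => ‖E p‖ ^ 2 + ‖B p‖ ^ 2) h.int_EB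
  rw [h1, h2, ← integral_div, ← integral_add i1 (i2.div_const 2)]
  have h3 : ∫ t, ((- tha1 T k ν t) * (∫ z : E3 × E3, q z.2 * f (t, z))
        + (- tha1 T k ν t) * (∫ x, (‖E (t, x)‖ ^ 2 + ‖B (t, x)‖ ^ 2)) / 2) ∂(mt T)
      = ∫ t, (- tha1 T k ν t) * ((∫ z : E3 × E3, q z.2 * f (0, z))
        + (∫ x, (‖E (0, x)‖ ^ 2 + ‖B (0, x)‖ ^ 2)) / 2) ∂(mt T) := by
    refine integral_congr_ae ?_
    filter_upwards [ae_mt T] with t ht
    rw [← h.energy t (Ioo_subset_Icc_self ht)]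
    ring
  rw [h3, integral_mul_const, neg_tha1_int (fun _ => rfl) h.T_pos]

end SW

/-! ### The weak solution -/

/-- a weak solution with square integrable initial values of finite energy -/
structure WK (g0 : E3 × E3 → ℝ) (e0 b0 : E3 → E3) (g : ℝ × E3 × E3 → ℝ)
    (E2 B2 : ℝ × E3 → E3) : Prop extends Weak3 g0 e0 b0 g E2 B2 where
  d_meas : Measurable g0
  de_meas : Measurable e0
  db_meas : Measurable b0
  d_nonneg : ∀ z, 0 ≤ g0 z
  d_sq : Integrable fun z => g0 z ^ 2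
  d_q : Integrable fun z : E3 × E3 => q z.2 * g0 z
  d_fields : Integrable fun x => ‖e0 x‖ ^ 2 + ‖b0 x‖ ^ 2

section weak

variable (hw : WK g0 e0 b0 g E2 B2)

include hw

lemma l2_ae : ∀ᵐ t ∂(mt T), ∫⁻ z : E3 × E3, ENNReal.ofReal (g (t, z) ^ 2)
    ≤ ENNReal.ofReal (∫ z : E3 × E3, g0 z ^ 2) := by
  have h1 : ∀ᵐ t ∂(mt T), 0 < t → ∫⁻ z : E3 × E3, ENNReal.ofReal (g (t, z) ^ 2)
    ≤ ∫⁻ z : E3 × E3, ENNReal.ofReal (g0 z ^ 2) := ae_restrict_of_ae hw.l2_le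
  filter_upwards [h1, ae_mt T] with t ht1 ht2
  rw [ofReal_integral_eq_lintegral_ofReal hw.d_sq (ae_of_all _ fun z => sq_nonneg _)]
  exact ht1 ht2.1

lemma data_energy_nonneg : 0 ≤ (∫ z : E3 × E3, q z.2 * g0 z)
      + (∫ x, (‖e0 x‖ ^ 2 + ‖b0 x‖ ^ 2)) / 2 :=
  add_nonneg (integral_nonneg fun z => mul_nonneg (q_pos _).le (hw.d_nonneg _))
    (div_nonneg (integral_nonneg fun x => by positivity) zero_le_two)

lemma energy_ae : ∀ᵐ t ∂(mt T), (∫⁻ z : E3 × E3, ENNReal.ofReal (q z.2 * g (t, z)))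
      + (∫⁻ x, ENNReal.ofReal (‖E2 (t, x)‖ ^ 2 + ‖B2 (t, x)‖ ^ 2)) / 2
    ≤ ENNReal.ofReal ((∫ z : E3 × E3, q z.2 * g0 z)
      + (∫ x, (‖e0 x‖ ^ 2 + ‖b0 x‖ ^ 2)) / 2) := by
  have h1 := ae_restrict_of_ae (s := Ioo 0 T) hw.energy_le
  filter_upwards [h1, ae_mt T] with t ht1 ht2
  refine (ht1 ht2.1).trans (le_of_eq ?_)
  rw [ENNReal.ofReal_add (integral_nonneg fun z => mul_nonneg (q_pos _).le (hw.d_nonneg _))
    (div_nonneg (integral_nonneg fun x => by positivity) zero_le_two),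
    ENNReal.ofReal_div_of_pos two_pos,
    ofReal_integral_eq_lintegral_ofReal hw.d_q
      (ae_of_all _ fun z => mul_nonneg (q_pos _).le (hw.d_nonneg _)),
    ofReal_integral_eq_lintegral_ofReal hw.d_fields
      (ae_of_all _ fun x => by positivity)]
  norm_num

lemma int_g2 : Integrable (fun p => g p ^ 2) (m6 T) :=
  int_of_slices (hw.g_meas.pow_const 2) (fun p => sq_nonneg _) (l2_ae hw)

lemma int_qg : Integrable (fun p => q p.2.2 * g p) (m6 T) := by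
  refine int_of_slices ((continuous_q.measurable.comp (measurable_snd.comp measurable_snd)).mul
    hw.g_meas) (fun p => mul_nonneg (q_pos _).le (hw.g_nonneg _)) ?_ (M := (∫ z : E3 × E3, q z.2 * g0 z)
      + (∫ x, (‖e0 x‖ ^ 2 + ‖b0 x‖ ^ 2)) / 2)
  filter_upwards [energy_ae hw] with t ht
  exact le_self_add.trans ht

lemma int_EB2 : Integrable (fun p => ‖E2 p‖ ^ 2 + ‖B2 p‖ ^ 2) (m3 T) := by
  refine int_of_slices ((hw.E_meas.norm.pow_const 2).add (hw.B_meas.norm.pow_const 2))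
    (fun p => by positivity) ?_ (M := 2 * ((∫ z : E3 × E3, q z.2 * g0 z)
      + (∫ x, (‖e0 x‖ ^ 2 + ‖b0 x‖ ^ 2)) / 2))
  filter_upwards [energy_ae hw] with t ht
  have h1 := le_add_self.trans ht
  rw [ENNReal.ofReal_mul zero_le_two]
  rw [ENNReal.div_le_iff (by norm_num) (by norm_num)] at h1
  rw [mul_comm]
  simpa using h1

lemma l2_weight (hT : 0 < T) (hk : 0 ≤ k) : ∫ p, (- tha1 T k ν p.1) * g p ^ 2 ∂(m6 T)
    ≤ tha T k ν 0 * ∫ z : E3 × E3, g0 z ^ 2 := by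
  have h1 : ∫ p, (- tha1 T k ν p.1) * g p ^ 2 ∂(m6 T)
      = ∫ t, (- tha1 T k ν t) * (∫ z, g (t, z) ^ 2) ∂(mt T) :=
    integral_weight (X := E3 × E3) (T := T) (w := fun t => - tha1 T k ν t)
      continuous_tha1.neg (G := fun p => g p ^ 2) (int_g2 hw)
  have i1 : Integrable (fun t => (- tha1 T k ν t) * (∫ z : E3 × E3, g (t, z) ^ 2)) (mt T) := by
    exact int_weight_slices (X := E3 × E3) (T := T) (w := fun t => - tha1 T k ν t)
      continuous_tha1.neg (G := fun p => g p ^ 2) (int_g2 hw)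
  have i2 : Integrable (fun t => (- tha1 T k ν t) * (∫ z : E3 × E3, g0 z ^ 2)) (mt T) := by
    refine Integrable.mul_const ?_ _
    unfold mt
    exact (continuous_tha1.neg.continuousOn.integrableOn_compact (isCompact_Icc (a := 0)
      (b := T))).mono_set Ioo_subset_Icc_self
  rw [h1, ← neg_tha1_int (fun _ => rfl) hT, ← integral_mul_const]
  refine integral_mono_ae i1 i2 ?_
  filter_upwards [l2_ae hw, ae_mt T] with t ht ht2
  refine mul_le_mul_of_nonneg_left ?_ (tha1_nonpos hk (by linarith [ht2.1]))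
  have a1 : (∫ z : E3 × E3, g (t, z) ^ 2)
      = (∫⁻ z : E3 × E3, ENNReal.ofReal (g (t, z) ^ 2)).toReal :=
    integral_eq_lintegral_of_nonneg_ae (ae_of_all _ fun z => sq_nonneg _)
      (((hw.g_meas.comp measurable_prodMk_left).pow_const 2).aestronglyMeasurable)
  rw [a1]
  exact ENNReal.toReal_le_of_le_ofReal (integral_nonneg fun z => sq_nonneg _) ht

lemma energy_weight2 (hT : 0 < T) (hk : 0 ≤ k) : ∫ p, (- tha1 T k ν p.1) * (q p.2.2 * g p) ∂(m6 T)
      + (∫ p, (- tha1 T k ν p.1) * (‖E2 p‖ ^ 2 + ‖B2 p‖ ^ 2) ∂(m3 T)) / 2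
    ≤ tha T k ν 0 * ((∫ z : E3 × E3, q z.2 * g0 z)
      + (∫ x, (‖e0 x‖ ^ 2 + ‖b0 x‖ ^ 2)) / 2) := by
  have h1 : ∫ p, (- tha1 T k ν p.1) * (q p.2.2 * g p) ∂(m6 T)
      = ∫ t, (- tha1 T k ν t) * (∫ z : E3 × E3, q z.2 * g (t, z)) ∂(mt T) :=
    integral_weight (X := E3 × E3) (T := T) (w := fun t => - tha1 T k ν t)
      continuous_tha1.neg (G := fun p => q p.2.2 * g p) (int_qg hw)
  have h2 : ∫ p, (- tha1 T k ν p.1) * (‖E2 p‖ ^ 2 + ‖B2 p‖ ^ 2) ∂(m3 T)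
      = ∫ t, (- tha1 T k ν t) * (∫ x, (‖E2 (t, x)‖ ^ 2 + ‖B2 (t, x)‖ ^ 2)) ∂(mt T) :=
    integral_weight (X := E3) (T := T) (w := fun t => - tha1 T k ν t)
      continuous_tha1.neg (G := fun p => ‖E2 p‖ ^ 2 + ‖B2 p‖ ^ 2) (int_EB2 hw)
  have i1 : Integrable (fun t => (- tha1 T k ν t) * (∫ z : E3 × E3, q z.2 * g (t, z))) (mt T) := by
    exact int_weight_slices (X := E3 × E3) (T := T) (w := fun t => - tha1 T k ν t)
      continuous_tha1.neg (G := fun p => q p.2.2 * g p) (int_qg hw)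
  have i2 : Integrable (fun t => (- tha1 T k ν t)
      * (∫ x, (‖E2 (t, x)‖ ^ 2 + ‖B2 (t, x)‖ ^ 2))) (mt T) := by
    exact int_weight_slices (X := E3) (T := T) (w := fun t => - tha1 T k ν t)
      continuous_tha1.neg (G := fun p => ‖E2 p‖ ^ 2 + ‖B2 p‖ ^ 2) (int_EB2 hw)
  have i3 : Integrable (fun t => (- tha1 T k ν t) * ((∫ z : E3 × E3, q z.2 * g0 z)
      + (∫ x, (‖e0 x‖ ^ 2 + ‖b0 x‖ ^ 2)) / 2)) (mt T) := by
    refine Integrable.mul_const ?_ _
    unfold mt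
    exact (continuous_tha1.neg.continuousOn.integrableOn_compact (isCompact_Icc (a := 0)
      (b := T))).mono_set Ioo_subset_Icc_self
  rw [h1, h2, ← integral_div, ← integral_add i1 (i2.div_const 2),
    ← neg_tha1_int (fun _ => rfl) hT, ← integral_mul_const]
  refine integral_mono_ae (i1.add (i2.div_const 2)) i3 ?_
  filter_upwards [energy_ae hw, ae_mt T] with t ht ht2
  have hE := data_energy_nonneg hw
  have a1 : (∫ z : E3 × E3, q z.2 * g (t, z))
      = (∫⁻ z : E3 × E3, ENNReal.ofReal (q z.2 * g (t, z))).toReal :=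
    integral_eq_lintegral_of_nonneg_ae
      (ae_of_all _ fun z => mul_nonneg (q_pos _).le (hw.g_nonneg _))
      ((continuous_q.measurable.comp measurable_snd).mul
        (hw.g_meas.comp measurable_prodMk_left)).aestronglyMeasurable
  have a2 : (∫ x, (‖E2 (t, x)‖ ^ 2 + ‖B2 (t, x)‖ ^ 2))
      = (∫⁻ x, ENNReal.ofReal (‖E2 (t, x)‖ ^ 2 + ‖B2 (t, x)‖ ^ 2)).toReal :=
    integral_eq_lintegral_of_nonneg_ae (ae_of_all _ fun x => by positivity)
      (((hw.E_meas.comp measurable_prodMk_left).norm.pow_const 2).add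
        ((hw.B_meas.comp measurable_prodMk_left).norm.pow_const 2)).aestronglyMeasurable
  have b1 : (∫⁻ z : E3 × E3, ENNReal.ofReal (q z.2 * g (t, z))) ≠ ⊤ :=
    ((le_self_add.trans ht).trans_lt ENNReal.ofReal_lt_top).ne
  have b2 : (∫⁻ x, ENNReal.ofReal (‖E2 (t, x)‖ ^ 2 + ‖B2 (t, x)‖ ^ 2)) / 2 ≠ ⊤ :=
    ((le_add_self.trans ht).trans_lt ENNReal.ofReal_lt_top).ne
  have a3 := ENNReal.toReal_le_of_le_ofReal hE ht
  rw [ENNReal.toReal_add b1 b2, ENNReal.toReal_div, ← a1, ← a2] at a3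
  have a4 := mul_le_mul_of_nonneg_left a3 (tha1_nonpos (T := T) (ν := ν) hk (t := t) (by linarith [ht2.1]))
  have e1 : (-tha1 T k ν t * (∫ z : E3 × E3, q z.2 * g (t, z))
      + -tha1 T k ν t * (∫ x, (‖E2 (t, x)‖ ^ 2 + ‖B2 (t, x)‖ ^ 2)) / 2)
      = -tha1 T k ν t * ((∫ z : E3 × E3, q z.2 * g (t, z))
        + (∫ x, (‖E2 (t, x)‖ ^ 2 + ‖B2 (t, x)‖ ^ 2)) / (2 : ℝ≥0∞).toReal) := by
    rw [ENNReal.toReal_ofNat]
    ring
  show -tha1 T k ν t * (∫ z : E3 × E3, q z.2 * g (t, z))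
      + -tha1 T k ν t * (∫ x, (‖E2 (t, x)‖ ^ 2 + ‖B2 (t, x)‖ ^ 2)) / 2 ≤ _
  rw [e1]
  exact a4

end weak

end Vale.Agent.P107.H706
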