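import Vale.Agent.P107.H706.WS4

/-!
Weak-strong uniqueness: the weak Vlasov equation tested with the strong solution.
-/

attribute [-instance] ProperSMul.toContinuousSMul IsTopologicalTorsor.toContinuousSMul
  IdemSemiring.toCanonicallyOrderedAdd IdemSemiring.toMulLeftMono IdemSemiring.toMulRightMono
  AddQuantale.instAddLeftMono AddQuantale.instAddRightMono Quantale.instMulLeftMono
  Quantale.instMulRightMono FiniteDimensional.rclike_to_real IsScalarTower.complexToReal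
  FiniteDimensional.complexToReal

open MeasureTheory Set Filter Topology
open scoped RealInnerProductSpace ENNReal NNReal

namespace Vale.Agent.P107.H706

open Cn

variable {T k Q c L C : ℝ} {ν : ℕ} {f g : ℝ × E3 × E3 → ℝ} {E B E2 B2 : ℝ × E3 → E3}
  {g0 : E3 × E3 → ℝ} {e0 b0 : E3 → E3}

/-- the argument of the ramp -/
noncomputable def yy (Q c : ℝ) (p : ℝ × E3 × E3) : ℝ := q p.2.2 - Q - c * p.1

/-- the difference of two fields -/
def dE (E E2 : ℝ × E3 → E3) (p : ℝ × E3 × E3) : E3 := E2 (p.1, p.2.1) - E (p.1, p.2.1)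

/-- the difference of the forces, applied to the gradient of the strong density -/
noncomputable def DD (f : ℝ × E3 × E3 → ℝ) (E B E2 B2 : ℝ × E3 → E3) (p : ℝ × E3 × E3) : ℝ :=
  fderiv ℝ f p (0, 0, dE E E2 p + cross (u p.2.2) (dE B B2 p))

/-- the terms with the strong density -/
noncomputable def V1 (T k : ℝ) (ν : ℕ) (f : ℝ × E3 × E3 → ℝ) (E B : ℝ × E3 → E3) (g : ℝ × E3 × E3 → ℝ)
    (E2 B2 : ℝ × E3 → E3) (p : ℝ × E3 × E3) : ℝ :=
  g p * (tha1 T k ν p.1 * f p + tha T k ν p.1 * DD f E B E2 B2 p)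

/-- the terms with the ramp -/
noncomputable def V2 (T k : ℝ) (ν : ℕ) (Q c : ℝ) (g : ℝ × E3 × E3 → ℝ) (E2 : ℝ × E3 → E3)
    (p : ℝ × E3 × E3) : ℝ :=
  g p * (tha1 T k ν p.1 * (q p.2.2 * (1 - Th (yy Q c p)))
    + tha T k ν p.1 * (⟪u p.2.2, E2 (p.1, p.2.1)⟫ * (1 - Th (yy Q c p))
      - q p.2.2 * (th1 (yy Q c p) * (⟪u p.2.2, E2 (p.1, p.2.1)⟫ - c))))

/-- the terms with the gradient of the cutoff -/
noncomputable def VW (T k : ℝ) (ν : ℕ) (Q c : ℝ) (g : ℝ × E3 × E3 → ℝ) (χ : E3 → ℝ)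
    (p : ℝ × E3 × E3) : ℝ :=
  g p * (tha T k ν p.1 * (fderiv ℝ χ p.2.1 (u p.2.2) * (q p.2.2 * (1 - Th (yy Q c p)))))

/-- the test function -/
noncomputable def tst (T k : ℝ) (ν : ℕ) (Q c : ℝ) (f : ℝ × E3 × E3 → ℝ) (χ : E3 → ℝ)
    (p : ℝ × E3 × E3) : ℝ :=
  tha T k ν p.1 * (f p + χ p.2.1 * (q p.2.2 * (1 - Th (yy Q c p))))

lemma contDiff_yy : ContDiff ℝ 1 (yy Q c) := by
  unfold yy
  exact ((q_contDiff.comp (contDiff_snd.comp contDiff_snd)).sub contDiff_const).sub
    (contDiff_const.mul contDiff_fst)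

lemma contDiff_tst (hf : ContDiff ℝ 1 f) {χ : E3 → ℝ} (hχ : ContDiff ℝ 1 χ) :
    ContDiff ℝ 1 (tst T k ν Q c f χ) := by
  unfold tst
  refine (contDiff_tha.comp contDiff_fst).mul (hf.add ?_)
  refine (hχ.comp (contDiff_fst.comp contDiff_snd)).mul ?_
  exact (q_contDiff.comp (contDiff_snd.comp contDiff_snd)).mul
    (contDiff_const.sub (contDiff_Th.comp contDiff_yy))

lemma SW.hasCompactSupport_tst (h : SW T Q c L f E B) {χ : E3 → ℝ} (hc : HasCompactSupport χ) :
    HasCompactSupport (tst T k ν Q c f χ) := by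
  obtain ⟨R, hR⟩ := h.supp
  obtain ⟨r, hr⟩ := hc.isCompact.isBounded.subset_closedBall (0 : E3)
  have hK : IsCompact (Icc (-2) T ×ˢ (Metric.closedBall (0 : E3) (max R r)
      ×ˢ Metric.closedBall (0 : E3) (max R (Q + c * T + 1)))) :=
    isCompact_Icc.prod ((isCompact_closedBall _ _).prod (isCompact_closedBall _ _))
  refine HasCompactSupport.intro hK fun p hp => ?_
  by_contra hne
  refine hp ?_
  unfold tst at hne
  have h1 := left_ne_zero_of_mul hne
  have h2 := right_ne_zero_of_mul hne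
  have ht : p.1 ∈ Icc (-2) T := by
    refine ⟨?_, ?_⟩
    · by_contra hlt
      exact h1 (tha_eq_zero' (le_of_not_ge hlt))
    · by_contra hlt
      exact h1 (tha_eq_zero (le_of_not_ge hlt))
  refine ⟨ht, ?_⟩
  by_cases hf : f p = 0
  · rw [hf, zero_add] at h2
    have h3 := left_ne_zero_of_mul h2
    have h4 := right_ne_zero_of_mul h2
    have h5 := right_ne_zero_of_mul h4
    have h6 := hr (subset_tsupport _ (Function.mem_support.2 h3))
    have h7 : q p.2.2 ≤ Q + c * T + 1 := by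
      by_contra hlt
      push Not at hlt
      apply h5
      have : c * p.1 ≤ c * T := mul_le_mul_of_nonneg_left ht.2 h.c_nonneg
      rw [Th_eq_one (by unfold yy; linarith), sub_self]
    refine ⟨Metric.closedBall_subset_closedBall (le_max_right _ _) h6, ?_⟩
    rw [mem_closedBall_zero_iff]
    exact ((norm_lt_q _).le.trans h7).trans (le_max_right _ _)
  · have h3 := hR p ht hf
    exact ⟨by simpa using Or.inl h3.1, by simpa using Or.inl h3.2⟩

/-- The derivative of the test function. -/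
lemma fderiv_tst (hf : ContDiff ℝ 1 f) {χ : E3 → ℝ} (hχ : ContDiff ℝ 1 χ)
    {p : ℝ × E3 × E3} (hp : -1 < p.1) (a b : E3) :
    fderiv ℝ (tst T k ν Q c f χ) p (1, a, b)
      = tha1 T k ν p.1 * (f p + χ p.2.1 * (q p.2.2 * (1 - Th (yy Q c p))))
        + tha T k ν p.1 * (fderiv ℝ f p (1, a, b)
          + fderiv ℝ χ p.2.1 a * (q p.2.2 * (1 - Th (yy Q c p)))
          + χ p.2.1 * (⟪u p.2.2, b⟫ * (1 - Th (yy Q c p))
            - q p.2.2 * (th1 (yy Q c p) * (⟪u p.2.2, b⟫ - c)))) := by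
  have d1 : HasFDerivAt (fun p : ℝ × E3 × E3 => tha T k ν p.1)
      (tha1 T k ν p.1 • ContinuousLinearMap.fst ℝ ℝ (E3 × E3)) p :=
    (hasDerivAt_tha hp).comp_hasFDerivAt p hasFDerivAt_fst
  have d2 : HasFDerivAt f (fderiv ℝ f p) p :=
    (hf.differentiable (by norm_num)).differentiableAt.hasFDerivAt
  have d3 : HasFDerivAt (fun p : ℝ × E3 × E3 => χ p.2.1)
      ((fderiv ℝ χ p.2.1).comp ((ContinuousLinearMap.fst ℝ E3 E3).comp
        (ContinuousLinearMap.snd ℝ ℝ (E3 × E3)))) p :=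
    ((hχ.differentiable (by norm_num)).differentiableAt.hasFDerivAt).comp p
      (hasFDerivAt_fst.comp p hasFDerivAt_snd)
  have d4 : HasFDerivAt (fun p : ℝ × E3 × E3 => q p.2.2)
      (((q p.2.2)⁻¹ • innerSL ℝ p.2.2).comp ((ContinuousLinearMap.snd ℝ E3 E3).comp
        (ContinuousLinearMap.snd ℝ ℝ (E3 × E3)))) p :=
    HasFDerivAt.comp (g := q) (f := fun p : ℝ × E3 × E3 => p.2.2) p (hasFDerivAt_q p.2.2)
      (HasFDerivAt.comp (g := fun z : E3 × E3 => z.2) (f := fun p : ℝ × E3 × E3 => p.2) p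
        hasFDerivAt_snd hasFDerivAt_snd)
  have d5 : HasFDerivAt (yy Q c) ((((q p.2.2)⁻¹ • innerSL ℝ p.2.2).comp
      ((ContinuousLinearMap.snd ℝ E3 E3).comp (ContinuousLinearMap.snd ℝ ℝ (E3 × E3))))
      - c • ContinuousLinearMap.fst ℝ ℝ (E3 × E3)) p :=
    (d4.sub_const Q).sub (hasFDerivAt_fst.const_mul c)
  have d6 := ((hasDerivAt_Th (yy Q c p)).comp_hasFDerivAt p d5).const_sub 1
  have d7 := d1.mul (d2.add (d3.mul (d4.mul d6)))
  have d8 : fderiv ℝ (tst T k ν Q c f χ) p = _ := d7.fderiv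
  rw [d8, inner_u_eq]
  simp
  ring

/-- The weak Vlasov equation with the test function. -/
lemma vlasov_n (h : SW T Q c L f E B) (hw : WK g0 e0 b0 g E2 B2) {χ : E3 → ℝ}
    (hχ : ContDiff ℝ 1 χ) (hc : HasCompactSupport χ) :
    (∫ p, (V1 T k ν f E B g E2 B2 p + χ p.2.1 * V2 T k ν Q c g E2 p
        + VW T k ν Q c g χ p) ∂(m6 T))
      + tha T k ν 0 * ∫ z : E3 × E3, (g0 z * f (0, z)
        + χ z.1 * (q z.2 * (1 - Th (yy Q c (0, z))) * g0 z)) = 0 := by
  have hv := hw.vlasov (tst T k ν Q c f χ) (contDiff_tst h.f_c1 hχ) (h.hasCompactSupport_tst hc)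
  rw [setIntegral_Ioi (T := T)] at hv
  · rw [← m6_eq] at hv
    refine Eq.trans ?_ hv
    congr 1
    · refine integral_congr_ae ?_
      filter_upwards [ae_m6 T] with p hp
      rw [fderiv_tst h.f_c1 hχ (by linarith [hp.1])]
      have e1 : ((1 : ℝ), u p.2.2, E2 (p.1, p.2.1) + cross (u p.2.2) (B2 (p.1, p.2.1)))
          = ((1 : ℝ), u p.2.2, E (p.1, p.2.1) + cross (u p.2.2) (B (p.1, p.2.1)))
            + ((0 : ℝ), (0 : E3), dE E E2 p + cross (u p.2.2) (dE B B2 p)) := by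
        unfold dE
        rw [← cross_sub]
        ext1
        · simp
        · ext1
          · simp
          · simp only [Prod.snd_add]
            abel
      have e2 : ⟪u p.2.2, E2 (p.1, p.2.1) + cross (u p.2.2) (B2 (p.1, p.2.1))⟫
          = ⟪u p.2.2, E2 (p.1, p.2.1)⟫ := by
        rw [inner_add_right, inner_cross_self, add_zero]
      have e3 : fderiv ℝ f p (1, u p.2.2, E2 (p.1, p.2.1) + cross (u p.2.2) (B2 (p.1, p.2.1)))
          = DD f E B E2 B2 p := by
        rw [e1, map_add, h.vlasov p hp, zero_add]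
        rfl
      rw [e2, e3]
      unfold V1 V2 VW
      ring
    · rw [← integral_const_mul]
      refine integral_congr_ae (ae_of_all _ fun z => ?_)
      show tha T k ν 0 * (g0 z * f (0, z) + χ z.1 * (q z.2 * (1 - Th (yy Q c (0, z))) * g0 z))
        = g0 z * (tha T k ν 0 * (f (0, z) + χ z.1 * (q z.2 * (1 - Th (yy Q c (0, z))))))
      ring
  · intro p hp
    rw [fderiv_tst h.f_c1 hχ (by linarith [h.T_pos]), tha_eq_zero hp, tha1_eq_zero hp]
    ring

end Vale.Agent.P107.H706
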