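import Vale.Agent.P107.H706.WS5

/-!
Weak-strong uniqueness: domination, and the limit in the weak Vlasov equation.
-/

attribute [-instance] ProperSMul.toContinuousSMul IsTopologicalTorsor.toContinuousSMul
  IdemSemiring.toCanonicallyOrderedAdd IdemSemiring.toMulLeftMono IdemSemiring.toMulRightMono
  AddQuantale.instAddLeftMono AddQuantale.instAddRightMono Quantale.instMulLeftMono
  Quantale.instMulRightMono FiniteDimensional.rclike_to_real IsScalarTower.complexToReal
  FiniteDimensional.complexToReal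

open MeasureTheory Set Filter Topology
open scoped RealInnerProductSpace ENNReal NNReal

namespace Vale.Agent.P107.H706

open Cn

variable {T k Q c L C : ℝ} {ν : ℕ} {f g : ℝ × E3 × E3 → ℝ} {E B E2 B2 : ℝ × E3 → E3}
  {g0 : E3 × E3 → ℝ} {e0 b0 : E3 → E3}

/-- the sum of the squares of the fields -/
noncomputable def SS (E B E2 B2 : ℝ × E3 → E3) (p : ℝ × E3) : ℝ :=
  (‖E2 p‖ ^ 2 + ‖B2 p‖ ^ 2) + (‖E p‖ ^ 2 + ‖B p‖ ^ 2)

/-- the dominating function -/
noncomputable def dom (P : ℝ) (f : ℝ × E3 × E3 → ℝ) (E B : ℝ × E3 → E3)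
    (g : ℝ × E3 × E3 → ℝ) (E2 B2 : ℝ × E3 → E3) (p : ℝ × E3 × E3) : ℝ :=
  g p ^ 2 + q p.2.2 * g p + f p ^ 2 + q p.2.2 * f p
    + SS E B E2 B2 (p.1, p.2.1) * ind P p.2.2

lemma int_mul_ind3 {S : ℝ × E3 → ℝ} (hS : Integrable S (m3 T)) (P : ℝ) :
    Integrable (fun p : ℝ × E3 × E3 => S (p.1, p.2.1) * ind P p.2.2) (m6 T) := by
  have h1 : Integrable (fun z : (ℝ × E3) × E3 => S z.1 * ind P z.2)
      ((m3 T).prod (volume : Measure E3)) := hS.mul_prod (integrable_ind P)
  exact ((mp_assoc T).integrable_comp_emb (MeasurableEquiv.measurableEmbedding _)).1 h1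

lemma integral_mul_ind3 (S : ℝ × E3 → ℝ) (P : ℝ) :
    ∫ p : ℝ × E3 × E3, S (p.1, p.2.1) * ind P p.2.2 ∂(m6 T) = vo P * ∫ p, S p ∂(m3 T) := by
  have h1 := (mp_assoc T).integral_comp' (fun p : ℝ × E3 × E3 => S (p.1, p.2.1) * ind P p.2.2)
  rw [← h1]
  have h2 : ∫ z : (ℝ × E3) × E3, S z.1 * ind P z.2 ∂((m3 T).prod (volume : Measure E3))
      = (∫ p, S p ∂(m3 T)) * ∫ v, ind P v := integral_prod_mul S (ind P)
  rw [mul_comm]
  exact h2

section

variable (h : SW T Q c L f E B) (hw : WK g0 e0 b0 g E2 B2)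

include h hw

lemma int_SS : Integrable (SS E B E2 B2) (m3 T) := (int_EB2 hw).add h.int_EB

lemma int_dom (P : ℝ) : Integrable (dom P f E B g E2 B2) (m6 T) :=
  ((((int_g2 hw).add (int_qg hw)).add h.int_f2).add h.int_qf).add
    (int_mul_ind3 (int_SS h hw) P)

lemma int_le_dom {G : ℝ × E3 × E3 → ℝ} (hG : Measurable G) {P M : ℝ}
    (hb : ∀ p : ℝ × E3 × E3, p.1 ∈ Ioo 0 T → |G p| ≤ M * dom P f E B g E2 B2 p) :
    Integrable G (m6 T) := by
  refine ((int_dom h hw P).const_mul M).mono' hG.aestronglyMeasurable ?_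
  filter_upwards [ae_m6 T] with p hp
  exact hb p hp

end

/-! ### Measurability -/

lemma meas_tha6 : Measurable fun p : ℝ × E3 × E3 => tha T k ν p.1 :=
  (contDiff_tha.continuous.comp continuous_fst).measurable

lemma meas_tha16 : Measurable fun p : ℝ × E3 × E3 => tha1 T k ν p.1 :=
  (continuous_tha1.comp continuous_fst).measurable

lemma meas_q6 : Measurable fun p : ℝ × E3 × E3 => q p.2.2 :=
  (continuous_q.comp (continuous_snd.comp continuous_snd)).measurable

lemma meas_u6 : Measurable fun p : ℝ × E3 × E3 => u p.2.2 :=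
  (continuous_u.comp (continuous_snd.comp continuous_snd)).measurable

lemma meas_Th6 : Measurable fun p : ℝ × E3 × E3 => Th (yy Q c p) :=
  (contDiff_Th.continuous.comp contDiff_yy.continuous).measurable

lemma meas_th16 : Measurable fun p : ℝ × E3 × E3 => th1 (yy Q c p) :=
  (continuous_th1.comp contDiff_yy.continuous).measurable

lemma meas_pr : Measurable fun p : ℝ × E3 × E3 => ((p.1, p.2.1) : ℝ × E3) := by
  fun_prop

lemma meas_dE (hE : Measurable E) (hE2 : Measurable E2) : Measurable (dE E E2) := by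
  unfold dE
  exact (hE2.comp meas_pr).sub (hE.comp meas_pr)

lemma meas_cross {X : Type*} [MeasurableSpace X] {a b : X → E3} (ha : Measurable a)
    (hb : Measurable b) : Measurable fun x => cross (a x) (b x) := by
  have h1 : Continuous fun z : E3 × E3 => cross z.1 z.2 :=
    (contDiff_cross contDiff_fst contDiff_snd).continuous
  exact h1.measurable.comp (ha.prodMk hb)

lemma meas_DD (hf : ContDiff ℝ 1 f) (hE : Measurable E) (hB : Measurable B)
    (hE2 : Measurable E2) (hB2 : Measurable B2) : Measurable (DD f E B E2 B2) := by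
  have h1 : StronglyMeasurable (fderiv ℝ f) :=
    (hf.continuous_fderiv (by norm_num)).stronglyMeasurable
  have h2 : Measurable fun p : ℝ × E3 × E3 =>
      ((0 : ℝ), (0 : E3), dE E E2 p + cross (u p.2.2) (dE B B2 p)) :=
    measurable_const.prodMk (measurable_const.prodMk
      ((meas_dE hE hE2).add (meas_cross meas_u6 (meas_dE hB hB2))))
  have h3 : Continuous fun z : ((ℝ × E3 × E3) →L[ℝ] ℝ) × (ℝ × E3 × E3) => z.1 z.2 :=
    isBoundedBilinearMap_apply.continuous
  exact (h3.comp_stronglyMeasurable (h1.prodMk h2.stronglyMeasurable)).measurable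

/-! ### Bounds -/

/-- the radius -/
def PP (T Q c : ℝ) : ℝ := Q + c * T + 1

lemma ind_le_one (P : ℝ) (v : E3) : ind P v ≤ 1 := indicator_le_self' (fun _ _ => zero_le_one) v

lemma ind_mono {P P' : ℝ} (hP : P ≤ P') (v : E3) : ind P v ≤ ind P' v := by
  by_cases hv : ‖v‖ ≤ P
  · rw [ind_eq_one hv, ind_eq_one (hv.trans hP)]
  · have : ind P v = 0 := indicator_of_notMem (by simpa using hv) _
    rw [this]
    exact ind_nonneg _ _

lemma abs_inner_u_le (v e : E3) : |⟪u v, e⟫| ≤ ‖e‖ := by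
  refine (abs_real_inner_le_norm _ _).trans ?_
  exact mul_le_of_le_one_left (norm_nonneg _) (norm_u_lt_one _).le

section

variable (h : SW T Q c L f E B)

include h

lemma PP_nonneg : 0 ≤ PP T Q c := by
  have := mul_nonneg h.c_nonneg h.T_pos.le
  have := h.Q_nonneg
  unfold PP
  linarith

lemma Q_le_PP : Q ≤ PP T Q c := by
  have := mul_nonneg h.c_nonneg h.T_pos.le
  unfold PP
  linarith

lemma one_sub_Th_le {p : ℝ × E3 × E3} (hp : p.1 ∈ Ioo 0 T) :
    1 - Th (yy Q c p) ≤ ind (PP T Q c) p.2.2 := by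
  by_cases hv : ‖p.2.2‖ ≤ PP T Q c
  · rw [ind_eq_one hv]
    linarith [Th_nonneg (yy Q c p)]
  · push Not at hv
    have h1 := norm_lt_q p.2.2
    have h2 : c * p.1 ≤ c * T := mul_le_mul_of_nonneg_left hp.2.le h.c_nonneg
    have h3 : 1 ≤ yy Q c p := by
      unfold yy
      unfold PP at hv
      linarith
    rw [Th_eq_one h3, sub_self]
    exact ind_nonneg _ _

lemma q_th1_le {p : ℝ × E3 × E3} (hp : p.1 ∈ Ioo 0 T) :
    q p.2.2 * th1 (yy Q c p) ≤ 2 * PP T Q c * ind (PP T Q c) p.2.2 := by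
  have hP := PP_nonneg h
  by_cases hy : 1 ≤ yy Q c p
  · rw [th1_eq_zero' hy, mul_zero]
    have := ind_nonneg (PP T Q c) p.2.2
    positivity
  · push Not at hy
    have h2 : c * p.1 ≤ c * T := mul_le_mul_of_nonneg_left hp.2.le h.c_nonneg
    have h3 : q p.2.2 ≤ PP T Q c := by
      unfold yy at hy
      unfold PP
      linarith
    rw [ind_eq_one ((norm_lt_q _).le.trans h3), mul_one, mul_comm 2]
    exact mul_le_mul h3 (th1_le_two _) (th1_nonneg _) hP

lemma abs_DD_le {p : ℝ × E3 × E3} (hp : p.1 ∈ Ioo 0 T) :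
    |DD f E B E2 B2 p| ≤ L * (‖dE E E2 p‖ + ‖dE B B2 p‖) * ind (PP T Q c) p.2.2 := by
  unfold DD
  refine (h.D_le p hp _).trans ?_
  have h1 : ‖dE E E2 p + cross (u p.2.2) (dE B B2 p)‖ ≤ ‖dE E E2 p‖ + ‖dE B B2 p‖ := by
    refine (norm_add_le _ _).trans (by
      gcongr
      refine (norm_cross_le _ _).trans ?_
      exact mul_le_of_le_one_left (norm_nonneg _) (norm_u_lt_one _).le)
  have h2 := ind_mono (Q_le_PP h) p.2.2
  exact mul_le_mul (mul_le_mul_of_nonneg_left h1 h.L_nonneg) h2 (ind_nonneg _ _)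
    (mul_nonneg h.L_nonneg (by positivity))

end

lemma dE_sq_le (p : ℝ × E3 × E3) :
    ‖dE E E2 p‖ ^ 2 + ‖dE B B2 p‖ ^ 2 ≤ 2 * SS E B E2 B2 (p.1, p.2.1) := by
  have h1 : ∀ a b : E3, ‖a - b‖ ^ 2 ≤ 2 * ‖a‖ ^ 2 + 2 * ‖b‖ ^ 2 := by
    intro a b
    have h2 := norm_sub_le a b
    nlinarith [norm_nonneg (a - b), norm_nonneg a, norm_nonneg b, sq_nonneg (‖a‖ - ‖b‖)]
  have h2 := h1 (E2 (p.1, p.2.1)) (E (p.1, p.2.1))
  have h3 := h1 (B2 (p.1, p.2.1)) (B (p.1, p.2.1))
  unfold dE SS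
  linarith

lemma SS_nonneg (p : ℝ × E3) : 0 ≤ SS E B E2 B2 p := by
  unfold SS
  positivity

section

variable (h : SW T Q c L f E B) (hw : WK g0 e0 b0 g E2 B2)

include h hw

/-- A nonnegative function times the field difference is dominated. -/
lemma mul_dE_le (p : ℝ × E3 × E3) {a : ℝ} :
    a * (‖dE E E2 p‖ + ‖dE B B2 p‖) * ind (PP T Q c) p.2.2
      ≤ a ^ 2 + SS E B E2 B2 (p.1, p.2.1) * ind (PP T Q c) p.2.2 := by
  have h1 := dE_sq_le (E := E) (B := B) (E2 := E2) (B2 := B2) p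
  have h2 : a * (‖dE E E2 p‖ + ‖dE B B2 p‖) ≤ a ^ 2 + SS E B E2 B2 (p.1, p.2.1) := by
    nlinarith [sq_nonneg (a - ‖dE E E2 p‖), sq_nonneg (a - ‖dE B B2 p‖)]
  have h3 := mul_le_mul_of_nonneg_right h2 (ind_nonneg (PP T Q c) p.2.2)
  have h4 := mul_le_of_le_one_right (sq_nonneg a) (ind_le_one (PP T Q c) p.2.2)
  linarith

lemma int_V1 : Integrable (V1 T k ν f E B g E2 B2) (m6 T) := by
  obtain ⟨K, hK0, hK⟩ := exists_tha_bound T k ν
  have hm : Measurable (V1 T k ν f E B g E2 B2) := by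
    unfold V1
    exact hw.g_meas.mul ((meas_tha16.mul h.f_c1.continuous.measurable).add (meas_tha6.mul
      (meas_DD h.f_c1 h.E_c1.continuous.measurable h.B_c1.continuous.measurable
        hw.E_meas hw.B_meas)))
  refine int_le_dom h hw hm (P := PP T Q c) (M := K + K * L) fun p hp => ?_
  have hg := hw.g_nonneg p
  have hf := h.f_nonneg p
  have hq := q_pos p.2.2
  have hL := h.L_nonneg
  obtain ⟨k1, k2⟩ := hK p.1 (Ioo_subset_Icc_self hp)
  have k0 := tha_nonneg (T := T) (k := k) (ν := ν) p.1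
  have hD := abs_DD_le (E2 := E2) (B2 := B2) h hp
  have hd := mul_dE_le h hw p (a := g p)
  have hS := mul_nonneg (SS_nonneg (E := E) (B := B) (E2 := E2) (B2 := B2) (p.1, p.2.1))
    (ind_nonneg (PP T Q c) p.2.2)
  unfold V1
  rw [abs_mul, abs_of_nonneg hg]
  have b1 : |tha1 T k ν p.1 * f p + tha T k ν p.1 * DD f E B E2 B2 p|
      ≤ K * f p + K * (L * (‖dE E E2 p‖ + ‖dE B B2 p‖) * ind (PP T Q c) p.2.2) := by
    refine (abs_add_le _ _).trans (add_le_add ?_ ?_)
    · rw [abs_mul, abs_of_nonneg hf]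
      exact mul_le_mul_of_nonneg_right k2 hf
    · rw [abs_mul, abs_of_nonneg k0]
      exact mul_le_mul k1 hD (abs_nonneg _) hK0
  have b2 := mul_le_mul_of_nonneg_left b1 hg
  have b3 : g p * (K * f p + K * (L * (‖dE E E2 p‖ + ‖dE B B2 p‖) * ind (PP T Q c) p.2.2))
      = K * (g p * f p) + K * L * (g p * (‖dE E E2 p‖ + ‖dE B B2 p‖) * ind (PP T Q c) p.2.2) := by
    ring
  rw [b3] at b2
  have b4 : g p * f p ≤ g p ^ 2 + f p ^ 2 := by nlinarith [sq_nonneg (g p - f p)]
  have b5 := mul_le_mul_of_nonneg_left b4 hK0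
  have b6 := mul_le_mul_of_nonneg_left hd (mul_nonneg hK0 hL)
  have b7 : g p ^ 2 + f p ^ 2 ≤ dom (PP T Q c) f E B g E2 B2 p := by
    unfold dom
    have := mul_nonneg hq.le hg
    have := mul_nonneg hq.le hf
    linarith
  have b8 : g p ^ 2 + SS E B E2 B2 (p.1, p.2.1) * ind (PP T Q c) p.2.2
      ≤ dom (PP T Q c) f E B g E2 B2 p := by
    unfold dom
    have := mul_nonneg hq.le hg
    have := mul_nonneg hq.le hf
    have := sq_nonneg (f p)
    linarith
  have b9 := mul_le_mul_of_nonneg_left b7 hK0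
  have b10 := mul_le_mul_of_nonneg_left b8 (mul_nonneg hK0 hL)
  linarith

lemma int_V2 : Integrable (V2 T k ν Q c g E2) (m6 T) := by
  obtain ⟨K, hK0, hK⟩ := exists_tha_bound T k ν
  have hin : Measurable fun p : ℝ × E3 × E3 => ⟪u p.2.2, E2 (p.1, p.2.1)⟫ :=
    meas_u6.inner (hw.E_meas.comp meas_pr)
  have hm : Measurable (V2 T k ν Q c g E2) := by
    unfold V2
    exact hw.g_meas.mul ((meas_tha16.mul (meas_q6.mul (measurable_const.sub meas_Th6))).add
      (meas_tha6.mul ((hin.mul (measurable_const.sub meas_Th6)).sub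
        (meas_q6.mul (meas_th16.mul (hin.sub measurable_const))))))
  have hP := PP_nonneg h
  have hc := h.c_nonneg
  refine int_le_dom h hw hm (P := PP T Q c) (M := K + K * (1 + 2 * PP T Q c)
    + K * (2 * PP T Q c) * c) fun p hp => ?_
  have hg := hw.g_nonneg p
  have hf := h.f_nonneg p
  have hq := q_pos p.2.2
  have hq1 := one_le_q p.2.2
  obtain ⟨k1, k2⟩ := hK p.1 (Ioo_subset_Icc_self hp)
  have k0 := tha_nonneg (T := T) (k := k) (ν := ν) p.1
  have t0 : 0 ≤ 1 - Th (yy Q c p) := by linarith [Th_le_one (yy Q c p)]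
  have t1 : 1 - Th (yy Q c p) ≤ 1 := by linarith [Th_nonneg (yy Q c p)]
  have t2 := one_sub_Th_le h hp
  have t3 := q_th1_le h hp
  have t4 : 0 ≤ q p.2.2 * th1 (yy Q c p) := mul_nonneg hq.le (th1_nonneg _)
  have hu := abs_inner_u_le p.2.2 (E2 (p.1, p.2.1))
  have hi := ind_nonneg (PP T Q c) p.2.2
  have hi1 := ind_le_one (PP T Q c) p.2.2
  set I := ⟪u p.2.2, E2 (p.1, p.2.1)⟫ with hI
  set e := ‖E2 (p.1, p.2.1)‖ with he
  have he0 : 0 ≤ e := norm_nonneg _
  unfold V2
  rw [abs_mul, abs_of_nonneg hg]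
  have b1 : |tha1 T k ν p.1 * (q p.2.2 * (1 - Th (yy Q c p)))
      + tha T k ν p.1 * (I * (1 - Th (yy Q c p)) - q p.2.2 * (th1 (yy Q c p) * (I - c)))|
      ≤ K * q p.2.2 + K * (e * ind (PP T Q c) p.2.2
        + 2 * PP T Q c * ind (PP T Q c) p.2.2 * (e + c)) := by
    refine (abs_add_le _ _).trans (add_le_add ?_ ?_)
    · rw [abs_mul, abs_mul, abs_of_nonneg hq.le, abs_of_nonneg t0]
      exact mul_le_mul k2 (mul_le_of_le_one_right hq.le t1) (mul_nonneg hq.le t0) hK0
    · rw [abs_mul, abs_of_nonneg k0]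
      refine mul_le_mul k1 ?_ (abs_nonneg _) hK0
      refine (abs_sub _ _).trans (add_le_add ?_ ?_)
      · rw [abs_mul, abs_of_nonneg t0]
        exact mul_le_mul hu t2 t0 he0
      · rw [← mul_assoc, abs_mul, abs_of_nonneg t4]
        refine mul_le_mul t3 ?_ (abs_nonneg _) (by positivity)
        refine (abs_sub _ _).trans (add_le_add hu ?_)
        rw [abs_of_nonneg hc]
  have b2 := mul_le_mul_of_nonneg_left b1 hg
  refine b2.trans ?_
  have c1 : g p * e * ind (PP T Q c) p.2.2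
      ≤ g p ^ 2 + SS E B E2 B2 (p.1, p.2.1) * ind (PP T Q c) p.2.2 := by
    have d1 : g p * e ≤ g p ^ 2 + SS E B E2 B2 (p.1, p.2.1) := by
      unfold SS
      rw [← he]
      nlinarith [sq_nonneg (g p - e), sq_nonneg ‖B2 (p.1, p.2.1)‖, sq_nonneg ‖E (p.1, p.2.1)‖,
        sq_nonneg ‖B (p.1, p.2.1)‖, sq_nonneg (g p), sq_nonneg e]
    have d2 := mul_le_mul_of_nonneg_right d1 hi
    have d3 := mul_le_of_le_one_right (sq_nonneg (g p)) hi1
    linarith
  have c2 : g p * ind (PP T Q c) p.2.2 ≤ q p.2.2 * g p := by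
    have d1 := mul_le_of_le_one_right hg hi1
    have d2 := le_mul_of_one_le_left hg hq1
    linarith
  have c3 : g p ^ 2 + SS E B E2 B2 (p.1, p.2.1) * ind (PP T Q c) p.2.2
      ≤ dom (PP T Q c) f E B g E2 B2 p := by
    unfold dom
    have := mul_nonneg hq.le hg
    have := mul_nonneg hq.le hf
    have := sq_nonneg (f p)
    linarith
  have c4 : q p.2.2 * g p ≤ dom (PP T Q c) f E B g E2 B2 p := by
    unfold dom
    have := mul_nonneg hq.le hf
    have := sq_nonneg (f p)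
    have := sq_nonneg (g p)
    have hS := mul_nonneg (SS_nonneg (E := E) (B := B) (E2 := E2) (B2 := B2) (p.1, p.2.1)) hi
    linarith
  have e1 : g p * (K * q p.2.2 + K * (e * ind (PP T Q c) p.2.2
        + 2 * PP T Q c * ind (PP T Q c) p.2.2 * (e + c)))
      = K * (q p.2.2 * g p) + K * (1 + 2 * PP T Q c) * (g p * e * ind (PP T Q c) p.2.2)
        + K * (2 * PP T Q c) * c * (g p * ind (PP T Q c) p.2.2) := by ring
  rw [e1]
  have f1 := mul_le_mul_of_nonneg_left c4 hK0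
  have f2 := mul_le_mul_of_nonneg_left (c1.trans c3)
    (mul_nonneg hK0 (by linarith : 0 ≤ 1 + 2 * PP T Q c))
  have f3 := mul_le_mul_of_nonneg_left (c2.trans c4)
    (mul_nonneg (mul_nonneg hK0 (by linarith : 0 ≤ 2 * PP T Q c)) hc)
  linarith

end

end Vale.Agent.P107.H706
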