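import Vale.Agent.P107.H706.WS6

/-!
Weak-strong uniqueness: the limit in the weak Vlasov equation, and the divergence-free identity.
-/

attribute [-instance] ProperSMul.toContinuousSMul IsTopologicalTorsor.toContinuousSMul
  IdemSemiring.toCanonicallyOrderedAdd IdemSemiring.toMulLeftMono IdemSemiring.toMulRightMono
  AddQuantale.instAddLeftMono AddQuantale.instAddRightMono Quantale.instMulLeftMono
  Quantale.instMulRightMono FiniteDimensional.rclike_to_real IsScalarTower.complexToReal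
  FiniteDimensional.complexToReal

open MeasureTheory Set Filter Topology
open scoped RealInnerProductSpace ENNReal NNReal

namespace Vale.Agent.P107.H706

open Cn

variable {T k Q c L C : ℝ} {ν : ℕ} {f g : ℝ × E3 × E3 → ℝ} {E B E2 B2 : ℝ × E3 → E3}
  {g0 : E3 × E3 → ℝ} {e0 b0 : E3 → E3}
  {χ : ℕ → E3 → ℝ}

lemma int_g0f (h : SW T Q c L f E B) (hw : WK g0 e0 b0 g E2 B2) :
    Integrable fun z : E3 × E3 => g0 z * f (0, z) := by
  refine (hw.d_sq.add (h.int_f20 h.zero_mem)).mono'
    (hw.d_meas.mul (h.f_c1.continuous.measurable.comp measurable_prodMk_left)).aestronglyMeasurable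
    (ae_of_all _ fun z => ?_)
  rw [Real.norm_of_nonneg (mul_nonneg (hw.d_nonneg _) (h.f_nonneg _))]
  show g0 z * f (0, z) ≤ g0 z ^ 2 + f (0, z) ^ 2
  nlinarith only [sq_nonneg (g0 z - f (0, z)), sq_nonneg (g0 z), sq_nonneg (f (0, z))]

lemma meas_Th0 : Measurable fun z : E3 × E3 => Th (yy Q c (0, z)) :=
  meas_Th6.comp measurable_prodMk_left

lemma int_qThg (hw : WK g0 e0 b0 g E2 B2) :
    Integrable fun z : E3 × E3 => q z.2 * (1 - Th (yy Q c (0, z))) * g0 z := by
  refine hw.d_q.mono' ((((continuous_q.measurable.comp measurable_snd).mul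
    (measurable_const.sub meas_Th0)).mul hw.d_meas).aestronglyMeasurable)
    (ae_of_all _ fun z => ?_)
  have h0 := Th_nonneg (yy Q c (0, z))
  have h1 := Th_le_one (yy Q c (0, z))
  have hq := (q_pos z.2).le
  rw [Real.norm_of_nonneg (mul_nonneg (mul_nonneg hq (by linarith)) (hw.d_nonneg _))]
  exact mul_le_mul_of_nonneg_right (mul_le_of_le_one_right hq (by linarith)) (hw.d_nonneg _)

section

variable (h : SW T Q c L f E B) (hw : WK g0 e0 b0 g E2 B2)

include h hw

lemma VW_le (hχ : CS C χ) : ∃ K : ℝ, 0 ≤ K ∧ ∀ n : ℕ, ∀ p : ℝ × E3 × E3, p.1 ∈ Ioo 0 T →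
    |VW T k ν Q c g (χ n) p| ≤ C / ((n : ℝ) + 1) * (K * (q p.2.2 * g p)) := by
  obtain ⟨K, hK0, hK⟩ := exists_tha_bound T k ν
  refine ⟨K, hK0, fun n p hp => ?_⟩
  have hg := hw.g_nonneg p
  have hq := q_pos p.2.2
  obtain ⟨k1, -⟩ := hK p.1 (Ioo_subset_Icc_self hp)
  have k0 := tha_nonneg (T := T) (k := k) (ν := ν) p.1
  have t0 : 0 ≤ 1 - Th (yy Q c p) := by linarith [Th_le_one (yy Q c p)]
  have t1 : 1 - Th (yy Q c p) ≤ 1 := by linarith [Th_nonneg (yy Q c p)]
  have hC : 0 ≤ C / ((n : ℝ) + 1) := div_nonneg hχ.C_nonneg (by positivity)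
  have h1 : |fderiv ℝ (χ n) p.2.1 (u p.2.2)| ≤ C / ((n : ℝ) + 1) :=
    (hχ.grad n _ _).trans (mul_le_of_le_one_right hC (norm_u_lt_one _).le)
  unfold VW
  rw [abs_mul, abs_mul, abs_mul, abs_mul, abs_of_nonneg hg, abs_of_nonneg k0, abs_of_nonneg hq.le,
    abs_of_nonneg t0]
  have h2 : q p.2.2 * (1 - Th (yy Q c p)) ≤ q p.2.2 := mul_le_of_le_one_right hq.le t1
  have h3 : |fderiv ℝ (χ n) p.2.1 (u p.2.2)| * (q p.2.2 * (1 - Th (yy Q c p)))
      ≤ C / ((n : ℝ) + 1) * q p.2.2 := mul_le_mul h1 h2 (mul_nonneg hq.le t0) hC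
  have h4 : tha T k ν p.1 * (|fderiv ℝ (χ n) p.2.1 (u p.2.2)| * (q p.2.2 * (1 - Th (yy Q c p))))
      ≤ K * (C / ((n : ℝ) + 1) * q p.2.2) :=
    mul_le_mul k1 h3 (mul_nonneg (abs_nonneg _) (mul_nonneg hq.le t0)) hK0
  have h5 := mul_le_mul_of_nonneg_left h4 hg
  linarith

lemma int_VW (hχ : CS C χ) (n : ℕ) : Integrable (VW T k ν Q c g (χ n)) (m6 T) := by
  obtain ⟨K, hK0, hK⟩ := VW_le (k := k) (ν := ν) h hw hχ
  have hm : Measurable (VW T k ν Q c g (χ n)) := by
    unfold VW
    have h1 : StronglyMeasurable fun p : ℝ × E3 × E3 => fderiv ℝ (χ n) p.2.1 :=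
      (((hχ.c1 n).continuous_fderiv (by norm_num)).comp
        (continuous_fst.comp continuous_snd)).stronglyMeasurable
    have h3 : Continuous fun z : (E3 →L[ℝ] ℝ) × E3 => z.1 z.2 :=
      isBoundedBilinearMap_apply.continuous
    have h4 := (h3.comp_stronglyMeasurable (h1.prodMk meas_u6.stronglyMeasurable)).measurable
    exact hw.g_meas.mul (meas_tha6.mul (h4.mul (meas_q6.mul (measurable_const.sub meas_Th6))))
  refine (((int_qg hw).const_mul K).const_mul (C / ((n : ℝ) + 1))).mono'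
    hm.aestronglyMeasurable ?_
  filter_upwards [ae_m6 T] with p hp
  exact hK n p hp

/-- **The weak Vlasov equation** tested with the strong solution. -/
lemma vlasov_lim : (∫ p, V1 T k ν f E B g E2 B2 p ∂(m6 T)) + (∫ p, V2 T k ν Q c g E2 p ∂(m6 T))
    + tha T k ν 0 * ((∫ z : E3 × E3, g0 z * f (0, z))
      + ∫ z : E3 × E3, q z.2 * (1 - Th (yy Q c (0, z))) * g0 z) = 0 := by
  obtain ⟨C, χ, hχ⟩ := exists_CS
  have i1 : Integrable (V1 T k ν f E B g E2 B2) (m6 T) := int_V1 h hw
  have i2 : Integrable (V2 T k ν Q c g E2) (m6 T) := int_V2 h hw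
  have hπ : Measurable fun p : ℝ × E3 × E3 => p.2.1 := by fun_prop
  have j1 := int_g0f h hw
  have j2 := int_qThg (Q := Q) (c := c) hw
  have hn : ∀ n, (∫ p, V1 T k ν f E B g E2 B2 p ∂(m6 T))
      + (∫ p : ℝ × E3 × E3, χ n p.2.1 * V2 T k ν Q c g E2 p ∂(m6 T))
      + (∫ p, VW T k ν Q c g (χ n) p ∂(m6 T))
      + tha T k ν 0 * ((∫ z : E3 × E3, g0 z * f (0, z))
        + ∫ z : E3 × E3, χ n z.1 * (q z.2 * (1 - Th (yy Q c (0, z))) * g0 z)) = 0 := by
    intro n
    have h1 := vlasov_n (k := k) (ν := ν) h hw (hχ.c1 n) (hχ.supp n)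
    have i3 := hχ.int_mul hπ i2 n
    have i4 : Integrable (fun p => V1 T k ν f E B g E2 B2 p + χ n p.2.1 * V2 T k ν Q c g E2 p)
      (m6 T) := i1.add i3
    rw [integral_add i4 (int_VW h hw hχ n), integral_add i1 i3,
      integral_add j1 (hχ.int_mul measurable_fst j2 n)] at h1
    exact h1
  obtain ⟨K, hK0, hK⟩ := VW_le (k := k) (ν := ν) h hw hχ
  have l1 := hχ.lim hπ i2
  have l2 := lim_zero (W := fun n p => VW T k ν Q c g (χ n) p) ((int_qg hw).const_mul K)
    (fun n => by
      filter_upwards [ae_m6 T] with p hp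
      exact hK n p hp)
  have l3 := hχ.lim measurable_fst j2
  have l4 := ((tendsto_const_nhds (x := ∫ p, V1 T k ν f E B g E2 B2 p ∂(m6 T))).add l1).add l2
  have l5 := l4.add (((tendsto_const_nhds (x := ∫ z : E3 × E3, g0 z * f (0, z))).add l3).const_mul
    (tha T k ν 0))
  have l6 := tendsto_nhds_unique l5 (tendsto_const_nhds.congr fun n => (hn n).symm)
  rw [add_zero] at l6
  exact l6

end

/-! ### The divergence-free identity -/

/-- The force field of constant fields is divergence free. -/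
lemma force_ibp {m : E3 → ℝ} (hm : ContDiff ℝ 1 m) (hmc : HasCompactSupport m) (e b : E3) :
    ∫ v, fderiv ℝ m v (e + cross (u v) b) = 0 := by
  have := isAddHaar_prod
  let φ : ContDiffBump (0 : E3) := ⟨1, 2, one_pos, one_lt_two⟩
  have hφ : ContDiff ℝ 1 φ := φ.contDiff
  have hφc : HasCompactSupport φ := φ.hasCompactSupport
  set G : E3 × E3 → ℝ := fun z => φ z.1 * m z.2 with hG
  have hG1 : ContDiff ℝ 1 G := (hφ.comp contDiff_fst).mul (hm.comp contDiff_snd)
  have hGc : HasCompactSupport G := by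
    refine HasCompactSupport.intro (hφc.isCompact.prod hmc.isCompact) fun z hz => ?_
    by_contra hne
    exact hz ⟨subset_tsupport _ (Function.mem_support.2 (left_ne_zero_of_mul hne)),
      subset_tsupport _ (Function.mem_support.2 (right_ne_zero_of_mul hne))⟩
  have h1 := transport_ibp hG1 hGc (F := fun _ => e) (H := fun _ => b) contDiff_const contDiff_const
  have h2 := transport_ibp hG1 hGc (F := fun _ => 0) (H := fun _ => 0) contDiff_const contDiff_const
  have hGd : ∀ z a : E3 × E3, fderiv ℝ G z a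
      = fderiv ℝ φ z.1 a.1 * m z.2 + φ z.1 * fderiv ℝ m z.2 a.2 := by
    intro z a
    have a1 : HasFDerivAt (fun z : E3 × E3 => φ z.1)
        ((fderiv ℝ φ z.1).comp (ContinuousLinearMap.fst ℝ E3 E3)) z :=
      ((hφ.differentiable (by norm_num)).differentiableAt.hasFDerivAt).comp z hasFDerivAt_fst
    have a2 : HasFDerivAt (fun z : E3 × E3 => m z.2)
        ((fderiv ℝ m z.2).comp (ContinuousLinearMap.snd ℝ E3 E3)) z :=
      ((hm.differentiable (by norm_num)).differentiableAt.hasFDerivAt).comp z hasFDerivAt_snd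
    have a3 : fderiv ℝ G z = _ := (a1.mul a2).fderiv
    rw [a3]
    simp
    ring
  have hc0 : ∀ v : E3, cross (u v) 0 = 0 := by
    intro v
    ext i
    fin_cases i <;> simp [cross]
  have i1 : ∀ e b : E3, Integrable fun z : E3 × E3 => fderiv ℝ G z (u z.2, e + cross (u z.2) b) := by
    intro e b
    refine Continuous.integrable_of_hasCompactSupport ?_ ?_
    · refine (hG1.continuous_fderiv (by norm_num)).clm_apply ?_
      refine (continuous_u.comp continuous_snd).prodMk (continuous_const.add ?_)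
      exact (contDiff_cross (u_contDiff.comp contDiff_snd) contDiff_const).continuous
    · refine HasCompactSupport.intro (hGc.fderiv (𝕜 := ℝ)) fun x hx => ?_
      rw [image_eq_zero_of_notMem_tsupport hx]
      simp
  have h3 : ∫ z : E3 × E3, φ z.1 * fderiv ℝ m z.2 (e + cross (u z.2) b) = 0 := by
    have h4 : ∀ z : E3 × E3, φ z.1 * fderiv ℝ m z.2 (e + cross (u z.2) b)
        = fderiv ℝ G z (u z.2, e + cross (u z.2) b)
          - fderiv ℝ G z (u z.2, 0 + cross (u z.2) 0) := by
      intro z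
      rw [hGd, hGd, hc0, add_zero, map_zero]
      ring
    simp_rw [h4]
    rw [integral_sub (i1 e b) (i1 0 0), h1, h2, sub_zero]
  rw [Measure.volume_eq_prod, integral_prod_mul (μ := (volume : Measure E3))
    (ν := (volume : Measure E3)) (fun x => φ x) (fun v => fderiv ℝ m v (e + cross (u v) b))] at h3
  exact (mul_eq_zero.1 h3).resolve_left φ.integral_pos.ne'

section

variable (h : SW T Q c L f E B) (hw : WK g0 e0 b0 g E2 B2)

include h hw

lemma int_fD : Integrable (fun p => tha T k ν p.1 * (f p * DD f E B E2 B2 p)) (m6 T) := by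
  obtain ⟨K, hK0, hK⟩ := exists_tha_bound T k ν
  have hm : Measurable fun p => tha T k ν p.1 * (f p * DD f E B E2 B2 p) :=
    meas_tha6.mul (h.f_c1.continuous.measurable.mul
      (meas_DD h.f_c1 h.E_c1.continuous.measurable h.B_c1.continuous.measurable
        hw.E_meas hw.B_meas))
  refine int_le_dom h hw hm (P := PP T Q c) (M := K * L) fun p hp => ?_
  have hg := hw.g_nonneg p
  have hf := h.f_nonneg p
  have hq := q_pos p.2.2
  have hL := h.L_nonneg
  obtain ⟨k1, k2⟩ := hK p.1 (Ioo_subset_Icc_self hp)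
  have k0 := tha_nonneg (T := T) (k := k) (ν := ν) p.1
  have hD := abs_DD_le (E2 := E2) (B2 := B2) h hp
  have hd := mul_dE_le h hw p (a := f p)
  rw [abs_mul, abs_mul, abs_of_nonneg hf, abs_of_nonneg k0]
  have b1 := mul_le_mul_of_nonneg_left hD hf
  have b2 : tha T k ν p.1 * (f p * |DD f E B E2 B2 p|)
      ≤ K * (f p * (L * (‖dE E E2 p‖ + ‖dE B B2 p‖) * ind (PP T Q c) p.2.2)) :=
    mul_le_mul k1 b1 (mul_nonneg hf (abs_nonneg _)) hK0
  have b3 := mul_le_mul_of_nonneg_left hd (mul_nonneg hK0 hL)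
  have b8 : f p ^ 2 + SS E B E2 B2 (p.1, p.2.1) * ind (PP T Q c) p.2.2
      ≤ dom (PP T Q c) f E B g E2 B2 p := by
    unfold dom
    have := mul_nonneg hq.le hg
    have := mul_nonneg hq.le hf
    have := sq_nonneg (g p)
    linarith
  have b10 := mul_le_mul_of_nonneg_left b8 (mul_nonneg hK0 hL)
  linarith

/-- The strong density times the force difference has integral zero. -/
lemma fD_zero : ∫ p, tha T k ν p.1 * (f p * DD f E B E2 B2 p) ∂(m6 T) = 0 := by
  have i := int_fD (k := k) (ν := ν) h hw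
  have h1 := (mp_assoc T).integral_comp' (fun p => tha T k ν p.1 * (f p * DD f E B E2 B2 p))
  have i2 : Integrable (fun z : (ℝ × E3) × E3 => tha T k ν z.1.1 * (f (z.1.1, z.1.2, z.2)
      * DD f E B E2 B2 (z.1.1, z.1.2, z.2))) ((m3 T).prod (volume : Measure E3)) :=
    ((mp_assoc T).integrable_comp_emb (MeasurableEquiv.measurableEmbedding _)).2 i
  rw [← h1]
  have h2 : ∫ z : (ℝ × E3) × E3, tha T k ν z.1.1 * (f (z.1.1, z.1.2, z.2)
      * DD f E B E2 B2 (z.1.1, z.1.2, z.2)) ∂((m3 T).prod (volume : Measure E3)) = 0 := by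
    rw [integral_prod _ i2]
    refine integral_eq_zero_of_ae ?_
    filter_upwards [ae_m3 T] with z hz
    show ∫ v, tha T k ν z.1 * (f (z.1, z.2, v) * DD f E B E2 B2 (z.1, z.2, v)) = 0
    rw [integral_const_mul]
    set m : E3 → ℝ := fun v => (1 / 2 : ℝ) * f (z.1, z.2, v) ^ 2 with hm
    have hin : ContDiff ℝ 1 fun v : E3 => ((z.1, z.2, v) : ℝ × E3 × E3) := by fun_prop
    have hm1 : ContDiff ℝ 1 m := contDiff_const.mul ((h.f_c1.comp hin).pow 2)
    have hmc : HasCompactSupport m := by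
      obtain ⟨R, hR⟩ := h.supp
      refine HasCompactSupport.intro (isCompact_closedBall (0 : E3) R) fun v hv => ?_
      by_contra hne
      have h3 : f (z.1, z.2, v) ≠ 0 := by
        intro h0
        apply hne
        simp only [hm, h0]
        norm_num
      have h4 := (hR (z.1, z.2, v) ⟨by linarith [hz.1], hz.2.le⟩ h3).2
      exact hv (by simpa using h4)
    have h5 := force_ibp hm1 hmc (E2 z - E z) (B2 z - B z)
    have h6 : ∀ v, fderiv ℝ m v ((E2 z - E z) + cross (u v) (B2 z - B z))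
        = f (z.1, z.2, v) * DD f E B E2 B2 (z.1, z.2, v) := by
      intro v
      have a1 : HasFDerivAt (fun v : E3 => ((z.1, z.2, v) : ℝ × E3 × E3))
          ((0 : E3 →L[ℝ] ℝ).prod ((0 : E3 →L[ℝ] E3).prod (ContinuousLinearMap.id ℝ E3))) v :=
        (hasFDerivAt_const z.1 v).prodMk ((hasFDerivAt_const z.2 v).prodMk (hasFDerivAt_id v))
      have a2 : HasFDerivAt f (fderiv ℝ f (z.1, z.2, v)) (z.1, z.2, v) :=
        (h.f_c1.differentiable (by norm_num)).differentiableAt.hasFDerivAt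
      have a3 := a2.comp v a1
      have a4 : HasFDerivAt m _ v := (a3.pow 2).const_mul (1 / 2 : ℝ)
      rw [a4.fderiv]
      unfold DD dE
      simp
      ring
    simp_rw [h6] at h5
    rw [h5, mul_zero]
  exact h2

end

end Vale.Agent.P107.H706
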