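import Vale.Agent.P107.H706.WS7

/-!
Weak-strong uniqueness: the weak Maxwell equations tested with the strong fields.
-/

attribute [-instance] ProperSMul.toContinuousSMul IsTopologicalTorsor.toContinuousSMul
  IdemSemiring.toCanonicallyOrderedAdd IdemSemiring.toMulLeftMono IdemSemiring.toMulRightMono
  AddQuantale.instAddLeftMono AddQuantale.instAddRightMono Quantale.instMulLeftMono
  Quantale.instMulRightMono FiniteDimensional.rclike_to_real IsScalarTower.complexToReal
  FiniteDimensional.complexToReal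

open MeasureTheory Set Filter Topology
open scoped RealInnerProductSpace ENNReal NNReal

namespace Vale.Agent.P107.H706

open Cn

variable {T k Q c L C : ℝ} {ν : ℕ} {f g : ℝ × E3 × E3 → ℝ} {E B E2 B2 : ℝ × E3 → E3}
  {χ : ℕ → E3 → ℝ}

/-- The curl of a product, paired with a vector. -/
lemma inner_curl_smul {ψ : E3 → ℝ} {F : E3 → E3} (hψ : ContDiff ℝ 1 ψ) (hF : ContDiff ℝ 1 F)
    (x b : E3) :
    ⟪b, curl (fun y => ψ y • F y) x⟫
      = ψ x * ⟪b, curl F x⟫ + fderiv ℝ ψ x (cross (F x) b) := by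
  have hψd : DifferentiableAt ℝ ψ x := (hψ.differentiable (by norm_num)).differentiableAt
  have hFi : ∀ i, DifferentiableAt ℝ (fun y => F y i) x := fun i =>
    ((contDiff_euclidean.1 hF i).differentiable (by norm_num)).differentiableAt
  have e0 : ∀ i, (fun y => (ψ y • F y) i) = fun y => ψ y * F y i := fun i => rfl
  have e1 : ∀ i j, pd i (fun y => (ψ y • F y) j) x
      = ψ x * pd i (fun y => F y j) x + F x j * pd i ψ x := by
    intro i j
    unfold pd
    rw [e0, fderiv_fun_mul hψd (hFi j)]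
    simp
  have e2 : fderiv ℝ ψ x (cross (F x) b)
      = ∑ i, cross (F x) b i * pd i ψ x := by
    conv_lhs => rw [vec_eq_sum (cross (F x) b)]
    rw [map_sum]
    simp [pd]
  rw [e2]
  simp only [PiLp.inner_apply, Fin.sum_univ_three, curl, e1, cross]
  simp
  ring

/-- Partial derivatives of time slices. -/
lemma pd_slice {η : ℝ × E3 → E3} (hη : ContDiff ℝ 1 η) (p : ℝ × E3) (i j : Fin 3) :
    pd i (fun y => η (p.1, y) j) p.2 = fderiv ℝ η p (0, EuclideanSpace.single i 1) j := by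
  have a1 : HasFDerivAt (fun y : E3 => ((p.1, y) : ℝ × E3))
      ((0 : E3 →L[ℝ] ℝ).prod (ContinuousLinearMap.id ℝ E3)) p.2 :=
    (hasFDerivAt_const p.1 p.2).prodMk (hasFDerivAt_id p.2)
  have a2 : HasFDerivAt η (fderiv ℝ η p) (p.1, p.2) :=
    (hη.differentiable (by norm_num)).differentiableAt.hasFDerivAt
  have a3 := a2.comp p.2 a1
  have a4 : HasFDerivAt (fun y => η (p.1, y) j) _ p.2 :=
    ((EuclideanSpace.proj j : E3 →L[ℝ] ℝ).hasFDerivAt).comp p.2 a3
  unfold pd
  rw [a4.fderiv]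
  simp

lemma continuous_curl_slice {η : ℝ × E3 → E3} (hη : ContDiff ℝ 1 η) :
    Continuous fun p : ℝ × E3 => curl (fun y => η (p.1, y)) p.2 := by
  have h : ∀ i j, Continuous fun p : ℝ × E3 => pd i (fun y => η (p.1, y) j) p.2 := by
    intro i j
    simp_rw [pd_slice hη]
    exact (EuclideanSpace.proj j : E3 →L[ℝ] ℝ).continuous.comp
      ((hη.continuous_fderiv (by norm_num)).clm_apply continuous_const)
  refine (PiLp.continuous_toLp 2 _).comp (continuous_pi fun i => ?_)
  fin_cases i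
  · exact (h 1 2).sub (h 2 1)
  · exact (h 2 0).sub (h 0 2)
  · exact (h 0 1).sub (h 1 0)

lemma hasCompactSupport_curl_slice {η : ℝ × E3 → E3} (hη : ContDiff ℝ 1 η)
    (hc : HasCompactSupport η) :
    HasCompactSupport fun p : ℝ × E3 => curl (fun y => η (p.1, y)) p.2 := by
  refine HasCompactSupport.intro (hc.fderiv (𝕜 := ℝ)) fun p hp => ?_
  have h0 := image_eq_zero_of_notMem_tsupport hp
  have h1 : ∀ i j, pd i (fun y => η (p.1, y) j) p.2 = 0 := by
    intro i j
    rw [pd_slice hη, h0]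
    simp
  unfold curl
  simp only [h1, sub_self]
  ext i
  fin_cases i <;> simp

/-- Pairings with compactly supported continuous fields are integrable. -/
lemma int_pair {F W : ℝ × E3 → E3} (hF : Measurable F)
    (hF2 : Integrable (fun p => ‖F p‖ ^ 2) (m3 T))
    (hW : Continuous W) (hc : HasCompactSupport W) :
    Integrable (fun p => ⟪F p, W p⟫) (m3 T) := by
  have h1 : Integrable (fun p => ‖W p‖ ^ 2) (m3 T) := by
    rw [m3_eq]
    have hcc : Continuous fun p : ℝ × E3 => ‖W p‖ ^ 2 := hW.norm.pow 2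
    have hK : IntegrableOn (fun p : ℝ × E3 => ‖W p‖ ^ 2) (tsupport W) volume :=
      hcc.continuousOn.integrableOn_compact hc.isCompact
    have h2 : IntegrableOn (fun p : ℝ × E3 => ‖W p‖ ^ 2) univ volume := by
      refine hK.of_forall_sdiff_eq_zero MeasurableSet.univ fun p hp => ?_
      rw [image_eq_zero_of_notMem_tsupport hp.2, norm_zero]
      norm_num
    exact h2.mono_set (subset_univ _)
  refine (hF2.add h1).mono' (hF.inner hW.measurable).aestronglyMeasurable ?_
  refine ae_of_all _ fun p => ?_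
  have h2 := abs_real_inner_le_norm (F p) (W p)
  rw [Real.norm_eq_abs]
  show |⟪F p, W p⟫| ≤ ‖F p‖ ^ 2 + ‖W p‖ ^ 2
  nlinarith [sq_nonneg (‖F p‖ - ‖W p‖), sq_nonneg ‖F p‖, sq_nonneg ‖W p‖]

/-- the test field -/
noncomputable def tfd (T k : ℝ) (ν : ℕ) (χ : E3 → ℝ) (F : ℝ × E3 → E3) (p : ℝ × E3) : E3 :=
  (tha T k ν p.1 * χ p.2) • F p

lemma contDiff_tfd {χ : E3 → ℝ} {F : ℝ × E3 → E3} (hχ : ContDiff ℝ 1 χ) (hF : ContDiff ℝ 1 F) :
    ContDiff ℝ 1 (tfd T k ν χ F) := by
  unfold tfd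
  exact ((contDiff_tha.comp contDiff_fst).mul (hχ.comp contDiff_snd)).smul hF

lemma hasCompactSupport_tfd {χ : E3 → ℝ} {F : ℝ × E3 → E3} (hc : HasCompactSupport χ) :
    HasCompactSupport (tfd T k ν χ F) := by
  refine HasCompactSupport.intro ((isCompact_Icc (a := (-2 : ℝ)) (b := T)).prod hc.isCompact)
    fun p hp => ?_
  by_contra hne
  refine hp ?_
  unfold tfd at hne
  have h1 := left_ne_zero_of_smul hne
  have h2 := left_ne_zero_of_mul h1
  refine ⟨⟨?_, ?_⟩, subset_tsupport _ (Function.mem_support.2 (right_ne_zero_of_mul h1))⟩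
  · by_contra hlt
    exact h2 (tha_eq_zero' (le_of_not_ge hlt))
  · by_contra hlt
    exact h2 (tha_eq_zero (le_of_not_ge hlt))

lemma fderiv_tfd {χ : E3 → ℝ} {F : ℝ × E3 → E3} (hχ : ContDiff ℝ 1 χ) (hF : ContDiff ℝ 1 F)
    {p : ℝ × E3} (hp : -1 < p.1) :
    fderiv ℝ (tfd T k ν χ F) p (1, 0)
      = (tha1 T k ν p.1 * χ p.2) • F p + (tha T k ν p.1 * χ p.2) • fderiv ℝ F p (1, 0) := by
  have d1 : HasFDerivAt (fun p : ℝ × E3 => tha T k ν p.1)
      (tha1 T k ν p.1 • ContinuousLinearMap.fst ℝ ℝ E3) p :=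
    (hasDerivAt_tha hp).comp_hasFDerivAt p hasFDerivAt_fst
  have d2 : HasFDerivAt (fun p : ℝ × E3 => χ p.2)
      ((fderiv ℝ χ p.2).comp (ContinuousLinearMap.snd ℝ ℝ E3)) p :=
    ((hχ.differentiable (by norm_num)).differentiableAt.hasFDerivAt).comp p hasFDerivAt_snd
  have d3 : HasFDerivAt F (fderiv ℝ F p) p :=
    (hF.differentiable (by norm_num)).differentiableAt.hasFDerivAt
  have d4 : fderiv ℝ (tfd T k ν χ F) p = _ := ((d1.mul d2).smul d3).fderiv
  rw [d4]
  simp
  rw [add_comm, mul_comm (χ p.2)]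

lemma inner_curl_tfd {χ : E3 → ℝ} {F : ℝ × E3 → E3} (hχ : ContDiff ℝ 1 χ) (hF : ContDiff ℝ 1 F)
    (p : ℝ × E3) (b : E3) :
    ⟪b, curl (fun y => tfd T k ν χ F (p.1, y)) p.2⟫
      = tha T k ν p.1 * (χ p.2 * ⟪b, curl (fun y => F (p.1, y)) p.2⟫
        + fderiv ℝ χ p.2 (cross (F p) b)) := by
  have hFs : ContDiff ℝ 1 fun y : E3 => F (p.1, y) := hF.comp (by fun_prop)
  have h1 := inner_curl_smul (ψ := fun y => tha T k ν p.1 * χ y) (contDiff_const.mul hχ) hFs p.2 b
  have h2 : fderiv ℝ (fun y => tha T k ν p.1 * χ y) p.2 = tha T k ν p.1 • fderiv ℝ χ p.2 := by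
    rw [fderiv_const_mul (hχ.differentiable (by norm_num)).differentiableAt]
  rw [h2] at h1
  refine h1.trans ?_
  simp
  ring

end Vale.Agent.P107.H706
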