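import Vale.Agent.P107.H706.WS8

/-!
Weak-strong uniqueness: the limit in the weak Maxwell equations.
-/

attribute [-instance] ProperSMul.toContinuousSMul IsTopologicalTorsor.toContinuousSMul
  IdemSemiring.toCanonicallyOrderedAdd IdemSemiring.toMulLeftMono IdemSemiring.toMulRightMono
  AddQuantale.instAddLeftMono AddQuantale.instAddRightMono Quantale.instMulLeftMono
  Quantale.instMulRightMono FiniteDimensional.rclike_to_real IsScalarTower.complexToReal
  FiniteDimensional.complexToReal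

open MeasureTheory Set Filter Topology
open scoped RealInnerProductSpace ENNReal NNReal

namespace Vale.Agent.P107.H706

open Cn

variable {T k Q c L C : ℝ} {ν : ℕ} {f g : ℝ × E3 × E3 → ℝ} {E B E2 B2 : ℝ × E3 → E3}
  {g0 : E3 × E3 → ℝ} {e0 b0 : E3 → E3}
  {χ : ℕ → E3 → ℝ}

/-- the products of the fields -/
noncomputable def M1 (T k : ℝ) (ν : ℕ) (E B E2 B2 : ℝ × E3 → E3) (p : ℝ × E3) : ℝ :=
  tha1 T k ν p.1 * (⟪E2 p, E p⟫ + ⟪B2 p, B p⟫)

/-- the work of the weak field on the strong current -/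
noncomputable def M2 (T k : ℝ) (ν : ℕ) (f : ℝ × E3 × E3 → ℝ) (E2 : ℝ × E3 → E3) (p : ℝ × E3) : ℝ :=
  tha T k ν p.1 * ⟪E2 p, ∫ v, f (p.1, p.2, v) • u v⟫

/-- the work of the strong field on the weak current -/
noncomputable def M3 (T k : ℝ) (ν : ℕ) (g : ℝ × E3 × E3 → ℝ) (E : ℝ × E3 → E3) (p : ℝ × E3 × E3) : ℝ :=
  tha T k ν p.1 * (g p * ⟪u p.2.2, E (p.1, p.2.1)⟫)

/-- the terms with the gradient of the cutoff -/
noncomputable def MW (T k : ℝ) (ν : ℕ) (χ : E3 → ℝ) (E B E2 B2 : ℝ × E3 → E3) (p : ℝ × E3) : ℝ :=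
  tha T k ν p.1 * (fderiv ℝ χ p.2 (cross (E p) (B2 p)) - fderiv ℝ χ p.2 (cross (B p) (E2 p)))

/-- Pairings with compactly supported continuous fields are integrable. -/
lemma int_pair0 {F W : E3 → E3} (hF : Measurable F) (hF2 : Integrable (fun x => ‖F x‖ ^ 2))
    (hW : Continuous W) (hc : HasCompactSupport W) : Integrable (fun x => ⟪F x, W x⟫) := by
  have h1 : Integrable (fun x => ‖W x‖ ^ 2) := by
    refine (hW.norm.pow 2).integrable_of_hasCompactSupport ?_
    refine HasCompactSupport.intro hc.isCompact fun x hx => ?_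
    show ‖W x‖ ^ 2 = 0
    rw [image_eq_zero_of_notMem_tsupport hx, norm_zero]
    norm_num
  refine (hF2.add h1).mono' (hF.inner hW.measurable).aestronglyMeasurable ?_
  refine ae_of_all _ fun p => ?_
  have h2 := abs_real_inner_le_norm (F p) (W p)
  rw [Real.norm_eq_abs]
  show |⟪F p, W p⟫| ≤ ‖F p‖ ^ 2 + ‖W p‖ ^ 2
  nlinarith [sq_nonneg (‖F p‖ - ‖W p‖), sq_nonneg ‖F p‖, sq_nonneg ‖W p‖]

lemma int_de (hw : WK g0 e0 b0 g E2 B2) : Integrable (fun x => ‖e0 x‖ ^ 2) := by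
  refine hw.d_fields.mono' (hw.de_meas.norm.pow_const 2).aestronglyMeasurable
    (ae_of_all _ fun x => ?_)
  rw [Real.norm_of_nonneg (by positivity)]
  linarith [sq_nonneg ‖b0 x‖]

lemma int_db (hw : WK g0 e0 b0 g E2 B2) : Integrable (fun x => ‖b0 x‖ ^ 2) := by
  refine hw.d_fields.mono' (hw.db_meas.norm.pow_const 2).aestronglyMeasurable
    (ae_of_all _ fun x => ?_)
  rw [Real.norm_of_nonneg (by positivity)]
  linarith [sq_nonneg ‖e0 x‖]

/-- the product of the initial fields -/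
lemma int_ini (h : SW T Q c L f E B) (hw : WK g0 e0 b0 g E2 B2) :
    Integrable (fun x => ⟪e0 x, E (0, x)⟫ + ⟪b0 x, B (0, x)⟫) := by
  have mE : Measurable fun x : E3 => E (0, x) :=
    h.E_c1.continuous.measurable.comp measurable_prodMk_left
  have mB : Measurable fun x : E3 => B (0, x) :=
    h.B_c1.continuous.measurable.comp measurable_prodMk_left
  refine (hw.d_fields.add (h.fields 0 h.zero_mem)).mono'
    ((hw.de_meas.inner mE).add (hw.db_meas.inner mB)).aestronglyMeasurable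
    (ae_of_all _ fun x => ?_)
  have h1 := abs_real_inner_le_norm (e0 x) (E (0, x))
  have h2 := abs_real_inner_le_norm (b0 x) (B (0, x))
  have h3 := abs_add_le (⟪e0 x, E (0, x)⟫) (⟪b0 x, B (0, x)⟫)
  rw [Real.norm_eq_abs]
  show _ ≤ ‖e0 x‖ ^ 2 + ‖b0 x‖ ^ 2 + (‖E (0, x)‖ ^ 2 + ‖B (0, x)‖ ^ 2)
  nlinarith [sq_nonneg (‖e0 x‖ - ‖E (0, x)‖), sq_nonneg (‖b0 x‖ - ‖B (0, x)‖), sq_nonneg ‖e0 x‖,
    sq_nonneg ‖b0 x‖, sq_nonneg ‖E (0, x)‖, sq_nonneg ‖B (0, x)‖]

section

variable (h : SW T Q c L f E B) (hw : WK g0 e0 b0 g E2 B2)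

include h hw

lemma int_nE2 : Integrable (fun p => ‖E2 p‖ ^ 2) (m3 T) := by
  refine (int_EB2 hw).mono' (hw.E_meas.norm.pow_const 2).aestronglyMeasurable
    (ae_of_all _ fun p => ?_)
  rw [Real.norm_of_nonneg (by positivity)]
  linarith [sq_nonneg ‖B2 p‖]

lemma int_nB2 : Integrable (fun p => ‖B2 p‖ ^ 2) (m3 T) := by
  refine (int_EB2 hw).mono' (hw.B_meas.norm.pow_const 2).aestronglyMeasurable
    (ae_of_all _ fun p => ?_)
  rw [Real.norm_of_nonneg (by positivity)]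
  linarith [sq_nonneg ‖E2 p‖]

/-- The weak Maxwell equations with the test fields. -/
lemma maxwell_n {χ : E3 → ℝ} (hχ : ContDiff ℝ 1 χ) (hc : HasCompactSupport χ) :
    (∫ p, (χ p.2 * (M1 T k ν E B E2 B2 p - M2 T k ν f E2 p) + MW T k ν χ E B E2 B2 p) ∂(m3 T))
      - (∫ p : ℝ × E3 × E3, χ p.2.1 * M3 T k ν g E p ∂(m6 T))
      + tha T k ν 0 * ∫ x, χ x * (⟪e0 x, E (0, x)⟫ + ⟪b0 x, B (0, x)⟫) = 0 := by
  have hE1 := contDiff_tfd (T := T) (k := k) (ν := ν) hχ h.E_c1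
  have hB1 := contDiff_tfd (T := T) (k := k) (ν := ν) hχ h.B_c1
  have hEc : HasCompactSupport (tfd T k ν χ E) := hasCompactSupport_tfd hc
  have hBc : HasCompactSupport (tfd T k ν χ B) := hasCompactSupport_tfd hc
  have ha := hw.ampere (tfd T k ν χ E) hE1 hEc
  have hf := hw.faraday (tfd T k ν χ B) hB1 hBc
  have hT := h.T_pos
  rw [setIntegral_Ioi (T := T), setIntegral_Ioi (T := T)] at ha
  · rw [setIntegral_Ioi (T := T)] at hf
    · rw [← m3_eq, ← m6_eq] at ha
      rw [← m3_eq] at hf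
      have c1 : Continuous fun p : ℝ × E3 => fderiv ℝ (tfd T k ν χ E) p (1, 0) :=
        (hE1.continuous_fderiv (by norm_num)).clm_apply continuous_const
      have c2 : Continuous fun p : ℝ × E3 => fderiv ℝ (tfd T k ν χ B) p (1, 0) :=
        (hB1.continuous_fderiv (by norm_num)).clm_apply continuous_const
      have i1 := int_pair hw.E_meas (int_nE2 h hw) c1 (hEc.fderiv_apply ℝ _)
      have i2 := int_pair hw.B_meas (int_nB2 h hw) (continuous_curl_slice hE1)
        (hasCompactSupport_curl_slice hE1 hEc)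
      have i3 := int_pair hw.B_meas (int_nB2 h hw) c2 (hBc.fderiv_apply ℝ _)
      have i4 := int_pair hw.E_meas (int_nE2 h hw) (continuous_curl_slice hB1)
        (hasCompactSupport_curl_slice hB1 hBc)
      have e1 : (∫ p, (χ p.2 * (M1 T k ν E B E2 B2 p - M2 T k ν f E2 p)
            + MW T k ν χ E B E2 B2 p) ∂(m3 T))
          = (∫ p, (⟪E2 p, fderiv ℝ (tfd T k ν χ E) p (1, 0)⟫
              + ⟪B2 p, curl (fun y => tfd T k ν χ E (p.1, y)) p.2⟫) ∂(m3 T))
            + ∫ p, (⟪B2 p, fderiv ℝ (tfd T k ν χ B) p (1, 0)⟫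
              - ⟪E2 p, curl (fun y => tfd T k ν χ B (p.1, y)) p.2⟫) ∂(m3 T) := by
        have i12 : Integrable (fun p => ⟪E2 p, fderiv ℝ (tfd T k ν χ E) p (1, 0)⟫
            + ⟪B2 p, curl (fun y => tfd T k ν χ E (p.1, y)) p.2⟫) (m3 T) := i1.add i2
        have i34 : Integrable (fun p => ⟪B2 p, fderiv ℝ (tfd T k ν χ B) p (1, 0)⟫
            - ⟪E2 p, curl (fun y => tfd T k ν χ B (p.1, y)) p.2⟫) (m3 T) := i3.sub i4
        rw [← integral_add i12 i34]
        refine integral_congr_ae ?_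
        filter_upwards [ae_m3 T] with p hp
        have hp1 : -1 < p.1 := by linarith [hp.1]
        rw [fderiv_tfd hχ h.E_c1 hp1, fderiv_tfd hχ h.B_c1 hp1, inner_curl_tfd hχ h.E_c1,
          inner_curl_tfd hχ h.B_c1, h.ampere p hp, h.faraday p hp]
        unfold M1 M2 MW
        simp only [inner_add_right, real_inner_smul_right, inner_sub_right, inner_neg_right]
        ring
      have e2 : (∫ p : ℝ × E3 × E3, χ p.2.1 * M3 T k ν g E p ∂(m6 T))
          = ∫ p : ℝ × E3 × E3, g p * ⟪u p.2.2, tfd T k ν χ E (p.1, p.2.1)⟫ ∂(m6 T) := by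
        refine integral_congr_ae (ae_of_all _ fun p => ?_)
        unfold M3 tfd
        simp only [real_inner_smul_right]
        ring
      have j1 : Integrable fun x : E3 => ⟪e0 x, tfd T k ν χ E (0, x)⟫ := by
        have a2 : Continuous fun x : E3 => tfd T k ν χ E (0, x) :=
          hE1.continuous.comp (by fun_prop)
        refine int_pair0 hw.de_meas (int_de hw) a2 (HasCompactSupport.intro hc.isCompact
          fun x hx => ?_)
        unfold tfd
        simp only [image_eq_zero_of_notMem_tsupport hx, mul_zero, zero_smul]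
      have j2 : Integrable fun x : E3 => ⟪b0 x, tfd T k ν χ B (0, x)⟫ := by
        have a2 : Continuous fun x : E3 => tfd T k ν χ B (0, x) :=
          hB1.continuous.comp (by fun_prop)
        refine int_pair0 hw.db_meas (int_db hw) a2 (HasCompactSupport.intro hc.isCompact
          fun x hx => ?_)
        unfold tfd
        simp only [image_eq_zero_of_notMem_tsupport hx, mul_zero, zero_smul]
      have e3 : tha T k ν 0 * ∫ x, χ x * (⟪e0 x, E (0, x)⟫ + ⟪b0 x, B (0, x)⟫)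
          = (∫ x : E3, ⟪e0 x, tfd T k ν χ E (0, x)⟫)
            + ∫ x : E3, ⟪b0 x, tfd T k ν χ B (0, x)⟫ := by
        rw [← integral_add j1 j2, ← integral_const_mul]
        refine integral_congr_ae (ae_of_all _ fun x => ?_)
        unfold tfd
        simp only [real_inner_smul_right]
        ring
      rw [e1, e2, e3]
      linarith
    · intro p hp
      have hp1 : -1 < p.1 := by linarith
      rw [fderiv_tfd hχ h.B_c1 hp1, inner_curl_tfd hχ h.B_c1, tha_eq_zero hp, tha1_eq_zero hp]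
      simp
  · intro p hp
    unfold tfd
    rw [tha_eq_zero hp]
    simp
  · intro p hp
    have hp1 : -1 < p.1 := by linarith
    rw [fderiv_tfd hχ h.E_c1 hp1, inner_curl_tfd hχ h.E_c1, tha_eq_zero hp, tha1_eq_zero hp]
    simp

lemma int_M1 : Integrable (M1 T k ν E B E2 B2) (m3 T) := by
  obtain ⟨K, hK0, hK⟩ := exists_tha_bound T k ν
  have hm : Measurable (M1 T k ν E B E2 B2) := by
    unfold M1
    exact ((continuous_tha1.comp continuous_fst).measurable).mul
      ((hw.E_meas.inner h.E_c1.continuous.measurable).add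
        (hw.B_meas.inner h.B_c1.continuous.measurable))
  refine ((int_SS h hw).const_mul K).mono' hm.aestronglyMeasurable ?_
  filter_upwards [ae_m3 T] with p hp
  obtain ⟨-, k2⟩ := hK p.1 (Ioo_subset_Icc_self hp)
  rw [Real.norm_eq_abs]
  unfold M1
  rw [abs_mul]
  refine mul_le_mul k2 ?_ (abs_nonneg _) hK0
  have h1 := abs_real_inner_le_norm (E2 p) (E p)
  have h2 := abs_real_inner_le_norm (B2 p) (B p)
  have h3 := abs_add_le (⟪E2 p, E p⟫) (⟪B2 p, B p⟫)
  unfold SS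
  nlinarith [sq_nonneg (‖E2 p‖ - ‖E p‖), sq_nonneg (‖B2 p‖ - ‖B p‖), sq_nonneg ‖E2 p‖,
    sq_nonneg ‖E p‖, sq_nonneg ‖B2 p‖, sq_nonneg ‖B p‖]

lemma int_M3 : Integrable (M3 T k ν g E) (m6 T) := by
  obtain ⟨K, hK0, hK⟩ := exists_tha_bound T k ν
  have hm : Measurable (M3 T k ν g E) := by
    unfold M3
    exact meas_tha6.mul (hw.g_meas.mul (meas_u6.inner (h.E_c1.continuous.measurable.comp meas_pr)))
  refine ((int_qg hw).const_mul (K * c)).mono' hm.aestronglyMeasurable ?_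
  filter_upwards [ae_m6 T] with p hp
  obtain ⟨k1, -⟩ := hK p.1 (Ioo_subset_Icc_self hp)
  have k0 := tha_nonneg (T := T) (k := k) (ν := ν) p.1
  have hg := hw.g_nonneg p
  have hq1 := one_le_q p.2.2
  rw [Real.norm_eq_abs]
  unfold M3
  rw [abs_mul, abs_mul, abs_of_nonneg k0, abs_of_nonneg hg]
  have h1 : |⟪u p.2.2, E (p.1, p.2.1)⟫| ≤ c :=
    (abs_inner_u_le _ _).trans (h.E_le (p.1, p.2.1) (Ioo_subset_Icc_self hp))
  have h2 : g p * |⟪u p.2.2, E (p.1, p.2.1)⟫| ≤ (q p.2.2 * g p) * c :=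
    mul_le_mul (le_mul_of_one_le_left hg hq1) h1 (abs_nonneg _)
      (mul_nonneg (q_pos _).le hg)
  have h3 := mul_le_mul k1 h2 (mul_nonneg hg (abs_nonneg _)) hK0
  linarith

/-- the work of the weak field on the strong current, in phase space -/
lemma int_fE2 : Integrable (fun p : ℝ × E3 × E3 =>
    tha T k ν p.1 * (f p * ⟪u p.2.2, E2 (p.1, p.2.1)⟫)) (m6 T) := by
  obtain ⟨K, hK0, hK⟩ := exists_tha_bound T k ν
  have hm : Measurable (fun p : ℝ × E3 × E3 =>
      tha T k ν p.1 * (f p * ⟪u p.2.2, E2 (p.1, p.2.1)⟫)) :=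
    meas_tha6.mul (h.f_c1.continuous.measurable.mul (meas_u6.inner (hw.E_meas.comp meas_pr)))
  refine int_le_dom h hw hm (P := PP T Q c) (M := K) fun p hp => ?_
  obtain ⟨k1, -⟩ := hK p.1 (Ioo_subset_Icc_self hp)
  have k0 := tha_nonneg (T := T) (k := k) (ν := ν) p.1
  have hg := hw.g_nonneg p
  have hf := h.f_nonneg p
  have hq := q_pos p.2.2
  have hS := SS_nonneg (E := E) (B := B) (E2 := E2) (B2 := B2) (p.1, p.2.1)
  have hi := ind_nonneg (PP T Q c) p.2.2
  have h1 := abs_inner_u_le p.2.2 (E2 (p.1, p.2.1))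
  rw [abs_mul, abs_mul, abs_of_nonneg k0, abs_of_nonneg hf]
  refine mul_le_mul k1 ?_ (mul_nonneg hf (abs_nonneg _)) hK0
  have hqg := mul_nonneg hq.le hg
  have hqf := mul_nonneg hq.le hf
  by_cases hf0 : f p = 0
  · rw [hf0, zero_mul]
    unfold dom
    positivity
  · have h2 := h.supp_Q p (Ioo_subset_Icc_self hp) hf0
    have h3 : ind (PP T Q c) p.2.2 = 1 :=
      ind_eq_one ((norm_lt_q _).le.trans (h2.trans (Q_le_PP h)))
    unfold dom
    rw [h3, mul_one]
    unfold SS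
    have h4 := mul_le_mul_of_nonneg_left h1 hf
    nlinarith [sq_nonneg (f p - ‖E2 (p.1, p.2.1)‖), sq_nonneg ‖B2 (p.1, p.2.1)‖,
      sq_nonneg ‖E (p.1, p.2.1)‖, sq_nonneg ‖B (p.1, p.2.1)‖, sq_nonneg (g p), sq_nonneg (f p),
      sq_nonneg ‖E2 (p.1, p.2.1)‖]

lemma M2_aux : Integrable (M2 T k ν f E2) (m3 T) ∧ ∫ p, M2 T k ν f E2 p ∂(m3 T)
    = ∫ p : ℝ × E3 × E3, tha T k ν p.1 * (f p * ⟪u p.2.2, E2 (p.1, p.2.1)⟫) ∂(m6 T) := by
  have i := int_fE2 (k := k) (ν := ν) h hw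
  have h1 := (mp_assoc T).integral_comp' (fun p : ℝ × E3 × E3 =>
    tha T k ν p.1 * (f p * ⟪u p.2.2, E2 (p.1, p.2.1)⟫))
  have i2 : Integrable (fun z : (ℝ × E3) × E3 => tha T k ν z.1.1 * (f (z.1.1, z.1.2, z.2)
      * ⟪u z.2, E2 (z.1.1, z.1.2)⟫)) ((m3 T).prod (volume : Measure E3)) :=
    ((mp_assoc T).integrable_comp_emb (MeasurableEquiv.measurableEmbedding _)).2 i
  have h3 : ∀ᵐ z ∂(m3 T), ∫ v, tha T k ν z.1 * (f (z.1, z.2, v) * ⟪u v, E2 (z.1, z.2)⟫)
      = M2 T k ν f E2 z := by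
    filter_upwards [ae_m3 T] with z hz
    rw [integral_const_mul]
    unfold M2
    congr 1
    obtain ⟨R, hR⟩ := h.supp
    have hfc : Continuous fun v : E3 => f (z.1, z.2, v) := h.f_c1.continuous.comp (by fun_prop)
    have hi : Integrable fun v : E3 => f (z.1, z.2, v) • u v := by
      refine (hfc.smul continuous_u).integrable_of_hasCompactSupport ?_
      refine HasCompactSupport.intro (isCompact_closedBall (0 : E3) R) fun v hv => ?_
      have h4 : f (z.1, z.2, v) = 0 := by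
        by_contra hne
        have h5 := (hR (z.1, z.2, v) ⟨by linarith [hz.1], hz.2.le⟩ hne).2
        exact hv (by simpa using h5)
      show f (z.1, z.2, v) • u v = 0
      rw [h4, zero_smul]
    rw [← integral_inner hi]
    refine integral_congr_ae (ae_of_all _ fun v => ?_)
    show f (z.1, z.2, v) * ⟪u v, E2 z⟫ = ⟪E2 z, f (z.1, z.2, v) • u v⟫
    rw [real_inner_smul_right, real_inner_comm]
  refine ⟨i2.integral_prod_left.congr h3, ?_⟩
  rw [← h1]
  have h2 : ∫ z : (ℝ × E3) × E3, tha T k ν z.1.1 * (f (z.1.1, z.1.2, z.2)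
      * ⟪u z.2, E2 (z.1.1, z.1.2)⟫) ∂((m3 T).prod (volume : Measure E3))
      = ∫ p, M2 T k ν f E2 p ∂(m3 T) := by
    rw [integral_prod _ i2]
    exact integral_congr_ae h3
  exact h2.symm

lemma MW_le (hχ : CS C χ) : ∃ K : ℝ, 0 ≤ K ∧ ∀ n : ℕ, ∀ p : ℝ × E3, p.1 ∈ Ioo 0 T →
    |MW T k ν (χ n) E B E2 B2 p| ≤ C / ((n : ℝ) + 1) * (K * SS E B E2 B2 p) := by
  obtain ⟨K, hK0, hK⟩ := exists_tha_bound T k ν
  refine ⟨K, hK0, fun n p hp => ?_⟩
  obtain ⟨k1, -⟩ := hK p.1 (Ioo_subset_Icc_self hp)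
  have k0 := tha_nonneg (T := T) (k := k) (ν := ν) p.1
  have hC : 0 ≤ C / ((n : ℝ) + 1) := div_nonneg hχ.C_nonneg (by positivity)
  unfold MW
  rw [abs_mul, abs_of_nonneg k0]
  have h1 : |fderiv ℝ (χ n) p.2 (cross (E p) (B2 p)) - fderiv ℝ (χ n) p.2 (cross (B p) (E2 p))|
      ≤ C / ((n : ℝ) + 1) * SS E B E2 B2 p := by
    refine (abs_sub _ _).trans ?_
    have a1 := (hχ.grad n p.2 (cross (E p) (B2 p))).trans
      (mul_le_mul_of_nonneg_left (norm_cross_le _ _) hC)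
    have a2 := (hχ.grad n p.2 (cross (B p) (E2 p))).trans
      (mul_le_mul_of_nonneg_left (norm_cross_le _ _) hC)
    have a3 : ‖E p‖ * ‖B2 p‖ + ‖B p‖ * ‖E2 p‖ ≤ SS E B E2 B2 p := by
      unfold SS
      nlinarith [sq_nonneg (‖E p‖ - ‖B2 p‖), sq_nonneg (‖B p‖ - ‖E2 p‖), sq_nonneg ‖E2 p‖,
        sq_nonneg ‖E p‖, sq_nonneg ‖B2 p‖, sq_nonneg ‖B p‖]
    have a4 := mul_le_mul_of_nonneg_left a3 hC
    linarith
  have h2 := mul_le_mul k1 h1 (abs_nonneg _) hK0
  linarith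

lemma int_MW (hχ : CS C χ) (n : ℕ) : Integrable (MW T k ν (χ n) E B E2 B2) (m3 T) := by
  obtain ⟨K, hK0, hK⟩ := MW_le (k := k) (ν := ν) h hw hχ
  have hm : Measurable (MW T k ν (χ n) E B E2 B2) := by
    unfold MW
    have h1 : StronglyMeasurable fun p : ℝ × E3 => fderiv ℝ (χ n) p.2 :=
      (((hχ.c1 n).continuous_fderiv (by norm_num)).comp continuous_snd).stronglyMeasurable
    have h3 : Continuous fun z : (E3 →L[ℝ] ℝ) × E3 => z.1 z.2 :=
      isBoundedBilinearMap_apply.continuous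
    have h4 := (h3.comp_stronglyMeasurable (h1.prodMk
      (meas_cross h.E_c1.continuous.measurable hw.B_meas).stronglyMeasurable)).measurable
    have h5 := (h3.comp_stronglyMeasurable (h1.prodMk
      (meas_cross h.B_c1.continuous.measurable hw.E_meas).stronglyMeasurable)).measurable
    exact ((contDiff_tha.continuous.comp continuous_fst).measurable).mul (h4.sub h5)
  refine (((int_SS h hw).const_mul K).const_mul (C / ((n : ℝ) + 1))).mono'
    hm.aestronglyMeasurable ?_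
  filter_upwards [ae_m3 T] with p hp
  exact hK n p hp

/-- **The weak Maxwell equations** tested with the strong fields. -/
lemma maxwell_lim : (∫ p, M1 T k ν E B E2 B2 p ∂(m3 T))
    - (∫ p : ℝ × E3 × E3, tha T k ν p.1 * (f p * ⟪u p.2.2, E2 (p.1, p.2.1)⟫) ∂(m6 T))
    - (∫ p : ℝ × E3 × E3, tha T k ν p.1 * (g p * ⟪u p.2.2, E (p.1, p.2.1)⟫) ∂(m6 T))
    + tha T k ν 0 * ∫ x, (⟪e0 x, E (0, x)⟫ + ⟪b0 x, B (0, x)⟫) = 0 := by
  obtain ⟨C, χ, hχ⟩ := exists_CS
  have i1 : Integrable (M1 T k ν E B E2 B2) (m3 T) := int_M1 h hw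
  obtain ⟨i2, e2⟩ := M2_aux (k := k) (ν := ν) h hw
  have i12 : Integrable (fun p => M1 T k ν E B E2 B2 p - M2 T k ν f E2 p) (m3 T) := i1.sub i2
  have i3 : Integrable (M3 T k ν g E) (m6 T) := int_M3 h hw
  have hπ : Measurable fun p : ℝ × E3 × E3 => p.2.1 := by fun_prop
  have j1 := int_ini h hw
  have hn : ∀ n, (∫ p : ℝ × E3, χ n p.2 * (M1 T k ν E B E2 B2 p - M2 T k ν f E2 p) ∂(m3 T))
      + (∫ p, MW T k ν (χ n) E B E2 B2 p ∂(m3 T))
      - (∫ p : ℝ × E3 × E3, χ n p.2.1 * M3 T k ν g E p ∂(m6 T))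
      + tha T k ν 0 * ∫ x, χ n x * (⟪e0 x, E (0, x)⟫ + ⟪b0 x, B (0, x)⟫) = 0 := by
    intro n
    have h1 := maxwell_n (k := k) (ν := ν) h hw (hχ.c1 n) (hχ.supp n)
    rw [integral_add (hχ.int_mul measurable_snd i12 n) (int_MW h hw hχ n)] at h1
    exact h1
  obtain ⟨K, hK0, hK⟩ := MW_le (k := k) (ν := ν) h hw hχ
  have l1 := hχ.lim measurable_snd i12
  have l2 := lim_zero (W := fun n p => MW T k ν (χ n) E B E2 B2 p) ((int_SS h hw).const_mul K)
    (fun n => by
      filter_upwards [ae_m3 T] with p hp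
      exact hK n p hp)
  have l3 := hχ.lim hπ i3
  have l4 := hχ.lim (π := fun x : E3 => x) measurable_id j1
  have l5 := ((l1.add l2).sub l3).add (l4.const_mul (tha T k ν 0))
  have l6 := tendsto_nhds_unique l5 (tendsto_const_nhds.congr fun n => (hn n).symm)
  rw [add_zero, integral_sub i1 i2, e2] at l6
  exact l6

end

end Vale.Agent.P107.H706
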