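import Vale.Agent.P107.H706.WeakDist

/-!
Finite-energy weak solutions of the three-dimensional one-species relativistic Vlasov-Maxwell
system, and uniqueness and stability in the class of these solutions.
-/

open MeasureTheory Set
open scoped ENNReal NNReal

namespace Vale.Agent.P107.RVM

/-- `C¹` functions of `(t, x, v)` with compact support. -/
def IsTestFun (φ : ℝ × V3 × V3 → ℝ) : Prop := ContDiff ℝ 1 φ ∧ HasCompactSupport φ

/-- `C¹` vector fields of `(t, x)` with compact support. -/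
def IsTestField (η : ℝ × V3 → V3) : Prop := ContDiff ℝ 1 η ∧ HasCompactSupport η

/-- `∂ₜφ + u·∇ₓφ + (E + u × B)·∇ᵥφ` at the point `p = (t, x, v)`. -/
noncomputable def transport (E B : ℝ → V3 → V3) (φ : ℝ × V3 × V3 → ℝ) (p : ℝ × V3 × V3) : ℝ :=
  fderiv ℝ φ p (1, u p.2.2, E p.1 p.2.1 + cross (u p.2.2) (B p.1 p.2.1))

/-- The action `∫₀^∞ ∫ (F·∂ₜη + G·curl η) dx dt` of the fields `F` and `G` on the field `η`. -/
noncomputable def action (F G : ℝ → V3 → V3) (η : ℝ × V3 → V3) : ℝ :=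
  ∫ p in Ioi (0 : ℝ) ×ˢ (univ : Set V3), ∑ i, (F p.1 p.2 i * fderiv ℝ η p (1, 0) i
    + G p.1 p.2 i * curl (fun y => η (p.1, y)) p.2 i)

/-- The Vlasov equation with the initial density `f₀`, in the sense of distributions. -/
def WeakVlasov (f₀ : V3 → V3 → ℝ) (g : ℝ → V3 → V3 → ℝ) (E B : ℝ → V3 → V3) : Prop :=
  ∀ φ, IsTestFun φ →
    (∫ p in Ioi (0 : ℝ) ×ˢ (univ : Set (V3 × V3)), g p.1 p.2.1 p.2.2 * transport E B φ p)
      + ∫ z : V3 × V3, f₀ z.1 z.2 * φ (0, z) = 0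

/-- The Ampère law with the initial field `E₀`, in the sense of distributions. -/
def WeakAmpere (E₀ : V3 → V3) (g : ℝ → V3 → V3 → ℝ) (E B : ℝ → V3 → V3) : Prop :=
  ∀ η, IsTestField η →
    action E B η
      - (∫ p in Ioi (0 : ℝ) ×ˢ (univ : Set (V3 × V3)), g p.1 p.2.1 p.2.2
        * ∑ i, u p.2.2 i * η (p.1, p.2.1) i)
      + ∫ x, ∑ i, E₀ x i * η (0, x) i = 0

/-- The Faraday law with the initial field `B₀`, in the sense of distributions. -/
def WeakFaraday (B₀ : V3 → V3) (E B : ℝ → V3 → V3) : Prop :=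
  ∀ η, IsTestField η → action B (fun t x => - E t x) η + ∫ x, ∑ i, B₀ x i * η (0, x) i = 0

/-- The kinetic energy plus the field energy of a state, a number in `[0,∞]`. -/
noncomputable def energy (f : V3 → V3 → ℝ) (E B : V3 → V3) : ℝ≥0∞ :=
  (∫⁻ z : V3 × V3, ENNReal.ofReal (q z.2 * f z.1 z.2))
    + (∫⁻ x, ENNReal.ofReal (len (E x) ^ 2 + len (B x) ^ 2)) / 2

/-- `(g, E, B)` is a finite-energy weak solution on `[0,∞)` of the relativistic Vlasov-Maxwell
system with the initial values `(f₀, E₀, B₀)`: `g ≥ 0`, `E` and `B` are measurable, the `L²` norm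
of `g(t)` and the energy at time `t` do not exceed their initial values for almost every `t > 0`,
and the Vlasov equation, the Ampère law and the Faraday law hold in the sense of distributions on
`[0,∞)`, with the initial values. -/
structure IsWeak (f₀ : V3 → V3 → ℝ) (E₀ B₀ : V3 → V3) (g : ℝ → V3 → V3 → ℝ)
    (E B : ℝ → V3 → V3) : Prop where
  g_meas : Measurable (fun p : ℝ × V3 × V3 => g p.1 p.2.1 p.2.2)
  E_meas : Measurable (fun p : ℝ × V3 => E p.1 p.2)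
  B_meas : Measurable (fun p : ℝ × V3 => B p.1 p.2)
  g_nonneg : ∀ t x v, 0 ≤ g t x v
  l2_le : ∀ᵐ t : ℝ, 0 < t → ∫⁻ z : V3 × V3, ENNReal.ofReal (g t z.1 z.2 ^ 2)
    ≤ ∫⁻ z : V3 × V3, ENNReal.ofReal (f₀ z.1 z.2 ^ 2)
  energy_le : ∀ᵐ t : ℝ, 0 < t → energy (g t) (E t) (B t) ≤ energy f₀ E₀ B₀
  vlasov : WeakVlasov f₀ g E B
  ampere : WeakAmpere E₀ g E B
  faraday : WeakFaraday B₀ E B

/-- `(f, E, B)` is, for positive times, a finite-energy weak solution, and the only one with its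
initial values. -/
def IsOnlyWeak (f : ℝ → V3 → V3 → ℝ) (E B : ℝ → V3 → V3) : Prop :=
  IsWeak (f 0) (E 0) (B 0) f E B ∧
  ∀ (g : ℝ → V3 → V3 → ℝ) (E' B' : ℝ → V3 → V3), IsWeak (f 0) (E 0) (B 0) g E' B' →
    (∀ᵐ p : ℝ × V3 × V3, 0 < p.1 → g p.1 p.2.1 p.2.2 = f p.1 p.2.1 p.2.2) ∧
    ∀ᵐ p : ℝ × V3, 0 < p.1 → E' p.1 p.2 = E p.1 p.2 ∧ B' p.1 p.2 = B p.1 p.2

/-- `(f, E, B)` is stable in the class of all finite-energy weak solutions: on each time interval
`(0,T)` the `L²` distance to a weak solution is controlled by the initial distance in the energy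
space. -/
def IsStableAmongWeak (f : ℝ → V3 → V3 → ℝ) (E B : ℝ → V3 → V3) : Prop :=
  ∀ T : ℝ, ∃ C : ℝ≥0, ∀ (g₀ : V3 → V3 → ℝ) (E₀' B₀' : V3 → V3) (g : ℝ → V3 → V3 → ℝ)
    (E' B' : ℝ → V3 → V3), Measurable (fun z : V3 × V3 => g₀ z.1 z.2) → Measurable E₀' →
    Measurable B₀' → (∀ x v, 0 ≤ g₀ x v) → IsWeak g₀ E₀' B₀' g E' B' →
      ∀ᵐ t : ℝ, t ∈ Ioo 0 T → l2Dist (f t) (g t) (E t) (B t) (E' t) (B' t)
        ≤ C * stateDist (f 0) g₀ (E 0) (B 0) E₀' B₀'

end Vale.Agent.P107.RVM
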