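import Vale.Agent.P107.H706.WeakFinal
import Vale.Agent.P107.H706.WeakProps

/-!
Uniqueness and stability in the class of the finite-energy weak solutions: the final form.
-/

open MeasureTheory Set
open scoped ENNReal NNReal

namespace Vale.Agent.P107.RVM

variable {f₀ : V3 → V3 → ℝ} {E₀ B₀ : V3 → V3} {f g : ℝ → V3 → V3 → ℝ} {E B : ℝ → V3 → V3}

lemma IsWeak.toSolution (h : IsWeak f₀ E₀ B₀ g E B) : IsWeakSolution f₀ E₀ B₀ g E B where
  g_meas := h.g_meas
  E_meas := h.E_meas
  B_meas := h.B_meas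
  g_nonneg := h.g_nonneg
  l2_le := h.l2_le
  energy_le := h.energy_le
  vlasov := fun φ h1 h2 => h.vlasov φ ⟨h1, h2⟩
  ampere := fun η h1 h2 => h.ampere η ⟨h1, h2⟩
  faraday := fun η h1 h2 => by
    have h3 := h.faraday η ⟨h1, h2⟩
    unfold action at h3
    simpa only [Pi.neg_apply, neg_mul, ← sub_eq_add_neg] using h3

lemma IsWeakSolution.toWeak (h : IsWeakSolution f₀ E₀ B₀ g E B) : IsWeak f₀ E₀ B₀ g E B where
  g_meas := h.g_meas
  E_meas := h.E_meas
  B_meas := h.B_meas
  g_nonneg := h.g_nonneg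
  l2_le := h.l2_le
  energy_le := h.energy_le
  vlasov := fun φ h1 => h.vlasov φ h1.1 h1.2
  ampere := fun η h1 => h.ampere η h1.1 h1.2
  faraday := fun η h1 => by
    have h3 := h.faraday η h1.1 h1.2
    unfold action
    simpa only [Pi.neg_apply, neg_mul, ← sub_eq_add_neg] using h3

theorem isOnlyWeak (h : IsEternalSolution f E B) (h0 : IsAdmissible (f 0) (E 0) (B 0))
    (h1 : IsWeakSolution (f 0) (E 0) (B 0) f E B) : IsOnlyWeak f E B :=
  ⟨h1.toWeak, fun _ _ _ h' => P107.H706.weak_eq_classical h h0 h'.toSolution⟩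

theorem isStableAmongWeak (h : IsEternalSolution f E B) (h0 : IsAdmissible (f 0) (E 0) (B 0)) :
    IsStableAmongWeak f E B := by
  intro T
  obtain ⟨C, hC⟩ := P107.H706.weak_stability h h0 T
  exact ⟨C, fun g₀ E₀' B₀' g E' B' mg me mb hg hw => hC g₀ E₀' B₀' g E' B' mg me mb hg
    hw.toSolution⟩

end Vale.Agent.P107.RVM
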