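import Vale.Agent.P107.LE.Datum

/-!
Finite-energy weak solutions of the three-dimensional one-species relativistic Vlasov-Maxwell
system.
-/

open MeasureTheory Set
open scoped ENNReal

namespace Vale.Agent.P107.RVM

/-- `(g, E, B)` is a finite-energy weak solution on `[0,∞)` of the relativistic Vlasov-Maxwell
system with the initial values `(f₀, E₀, B₀)`: `g ≥ 0`, `E` and `B` are measurable, the `L²` norm
of `g(t)` and the total energy at time `t` do not exceed their initial values for almost every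
`t > 0`, and the Vlasov equation, the Ampère law and the Faraday law hold in the sense of
distributions on `[0,∞)`, with the initial values. -/
structure IsWeakSolution (f₀ : V3 → V3 → ℝ) (E₀ B₀ : V3 → V3) (g : ℝ → V3 → V3 → ℝ)
    (E B : ℝ → V3 → V3) : Prop where
  g_meas : Measurable (fun p : ℝ × V3 × V3 => g p.1 p.2.1 p.2.2)
  E_meas : Measurable (fun p : ℝ × V3 => E p.1 p.2)
  B_meas : Measurable (fun p : ℝ × V3 => B p.1 p.2)
  g_nonneg : ∀ t x v, 0 ≤ g t x v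
  l2_le : ∀ᵐ t : ℝ, 0 < t → ∫⁻ z : V3 × V3, ENNReal.ofReal (g t z.1 z.2 ^ 2)
    ≤ ∫⁻ z : V3 × V3, ENNReal.ofReal (f₀ z.1 z.2 ^ 2)
  energy_le : ∀ᵐ t : ℝ, 0 < t →
    (∫⁻ z : V3 × V3, ENNReal.ofReal (q z.2 * g t z.1 z.2))
      + (∫⁻ x, ENNReal.ofReal (len (E t x) ^ 2 + len (B t x) ^ 2)) / 2
    ≤ (∫⁻ z : V3 × V3, ENNReal.ofReal (q z.2 * f₀ z.1 z.2))
      + (∫⁻ x, ENNReal.ofReal (len (E₀ x) ^ 2 + len (B₀ x) ^ 2)) / 2
  vlasov : ∀ φ : ℝ × V3 × V3 → ℝ, ContDiff ℝ 1 φ → HasCompactSupport φ →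
    (∫ p in Ioi (0 : ℝ) ×ˢ (univ : Set (V3 × V3)), g p.1 p.2.1 p.2.2
        * fderiv ℝ φ p (1, u p.2.2, E p.1 p.2.1 + cross (u p.2.2) (B p.1 p.2.1)))
      + ∫ z : V3 × V3, f₀ z.1 z.2 * φ (0, z) = 0
  ampere : ∀ η : ℝ × V3 → V3, ContDiff ℝ 1 η → HasCompactSupport η →
    (∫ p in Ioi (0 : ℝ) ×ˢ (univ : Set V3), ∑ i, (E p.1 p.2 i * fderiv ℝ η p (1, 0) i
        + B p.1 p.2 i * curl (fun y => η (p.1, y)) p.2 i))
      - (∫ p in Ioi (0 : ℝ) ×ˢ (univ : Set (V3 × V3)), g p.1 p.2.1 p.2.2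
        * ∑ i, u p.2.2 i * η (p.1, p.2.1) i)
      + ∫ x, ∑ i, E₀ x i * η (0, x) i = 0
  faraday : ∀ η : ℝ × V3 → V3, ContDiff ℝ 1 η → HasCompactSupport η →
    (∫ p in Ioi (0 : ℝ) ×ˢ (univ : Set V3), ∑ i, (B p.1 p.2 i * fderiv ℝ η p (1, 0) i
        - E p.1 p.2 i * curl (fun y => η (p.1, y)) p.2 i))
      + ∫ x, ∑ i, B₀ x i * η (0, x) i = 0

end Vale.Agent.P107.RVM
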