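import Vale.Agent.P107.LE.Datum

/-!
Distances between two states of the system, with integrals in `[0,∞]`.
-/

open MeasureTheory Set
open scoped ENNReal

namespace Vale.Agent.P107.RVM

/-- The squared distance in the energy space of two states `(f, E, B)` and `(g, E', B')`:
`∬ (q |g - f| + |g - f|²) dx dv + ∫ (|E' - E|² + |B' - B|²) dx`, a number in `[0,∞]`. -/
noncomputable def stateDist (f g : V3 → V3 → ℝ) (E B E' B' : V3 → V3) : ℝ≥0∞ :=
  (∫⁻ z : V3 × V3, ENNReal.ofReal (q z.2 * |g z.1 z.2 - f z.1 z.2| + (g z.1 z.2 - f z.1 z.2) ^ 2))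
    + ∫⁻ x, ENNReal.ofReal (len (E' x - E x) ^ 2 + len (B' x - B x) ^ 2)

/-- The squared `L²` distance of two states `(f, E, B)` and `(g, E', B')`:
`∬ |g - f|² dx dv + ∫ (|E' - E|² + |B' - B|²) dx`, a number in `[0,∞]`. -/
noncomputable def l2Dist (f g : V3 → V3 → ℝ) (E B E' B' : V3 → V3) : ℝ≥0∞ :=
  (∫⁻ z : V3 × V3, ENNReal.ofReal ((g z.1 z.2 - f z.1 z.2) ^ 2))
    + ∫⁻ x, ENNReal.ofReal (len (E' x - E x) ^ 2 + len (B' x - B x) ^ 2)

end Vale.Agent.P107.RVM
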