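import Vale.Agent.P107.H706.WS12
import Vale.Agent.P107.H706.WeakDist
import Vale.Agent.P107.H706.Final
import Vale.Agent.P107.H429.WeakTransfer
import Vale.Agent.P107.H429.StrongFacts

/-!
Finite-energy weak solutions with smooth data are the classical solutions, and classical solutions
are stable in the class of the finite-energy weak solutions.
-/

attribute [-instance] ProperSMul.toContinuousSMul IsTopologicalTorsor.toContinuousSMul
  IdemSemiring.toCanonicallyOrderedAdd IdemSemiring.toMulLeftMono IdemSemiring.toMulRightMono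
  AddQuantale.instAddLeftMono AddQuantale.instAddRightMono Quantale.instMulLeftMono
  Quantale.instMulRightMono FiniteDimensional.rclike_to_real IsScalarTower.complexToReal
  FiniteDimensional.complexToReal

open MeasureTheory Set Filter Topology
open scoped RealInnerProductSpace ENNReal NNReal

namespace Vale.Agent.P107.H706

open RVM (V3)
open H429

variable {f g : ℝ → V3 → V3 → ℝ} {E B E' B' : ℝ → V3 → V3}

lemma norm_symm_sub (a b : V3) : ‖coo.symm a - coo.symm b‖ = RVM.len (a - b) := by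
  rw [← map_sub, norm_symm]

/-- **Weak-strong stability.** -/
theorem weak_stability (h : RVM.IsEternalSolution f E B)
    (h0 : RVM.IsAdmissible (f 0) (E 0) (B 0)) (T : ℝ) :
    ∃ C : ℝ≥0, ∀ (g₀ : V3 → V3 → ℝ) (E₀' B₀' : V3 → V3) (g : ℝ → V3 → V3 → ℝ)
      (E' B' : ℝ → V3 → V3), Measurable (fun z : V3 × V3 => g₀ z.1 z.2) → Measurable E₀' →
      Measurable B₀' → (∀ x v, 0 ≤ g₀ x v) → RVM.IsWeakSolution g₀ E₀' B₀' g E' B' →
        ∀ᵐ t : ℝ, t ∈ Ioo 0 T → RVM.l2Dist (f t) (g t) (E t) (B t) (E' t) (B' t)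
          ≤ C * RVM.stateDist (f 0) g₀ (E 0) (B 0) E₀' B₀' := by
  rcases le_or_gt T 0 with hT | hT
  · refine ⟨0, fun g₀ E₀' B₀' g E' B' _ _ _ _ _ => ae_of_all _ fun t ht => ?_⟩
    exact absurd (ht.1.trans ht.2) (not_lt.2 hT)
  have hb : ∀ T : ℝ, ∃ M : ℝ, ∀ t x, |t| ≤ T → RVM.len (E t x) ≤ M := by
    intro T
    obtain ⟨M, hM⟩ := RVM.H706.bounded_eternal h h0 T
    exact ⟨M, fun t x ht => (hM t x ht).1⟩
  obtain ⟨Q, c, L, hs⟩ := exists_SW h hb hT
  refine ⟨Real.toNNReal (4 * Real.exp (kk T Q c L * T)),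
    fun g₀ E₀' B₀' g E' B' mg me mb hg hw => ?_⟩
  have hw3 := weak3_of_weak hw
  have mco : Measurable (coo : E3 → V3) := coo.continuous.measurable
  have mcs : Measurable (coo.symm : V3 → E3) := coo.symm.continuous.measurable
  have key := weak_strong_lint hs hw3
    (mg.comp ((mco.comp measurable_fst).prodMk (mco.comp measurable_snd)))
    (mcs.comp (me.comp mco)) (mcs.comp (mb.comp mco)) (fun z => hg _ _)
  have e3 : (∫⁻ z : E3 × E3, ENNReal.ofReal (q z.2 * |g₀ (coo z.1) (coo z.2)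
        - f 0 (coo z.1) (coo z.2)| + (g₀ (coo z.1) (coo z.2) - f 0 (coo z.1) (coo z.2)) ^ 2))
      = ∫⁻ z : V3 × V3, ENNReal.ofReal (RVM.q z.2 * |g₀ z.1 z.2 - f 0 z.1 z.2|
        + (g₀ z.1 z.2 - f 0 z.1 z.2) ^ 2) := by
    rw [← lint_c2]
    simp_rw [q_coo]
  have e4 : (∫⁻ x : E3, ENNReal.ofReal (‖coo.symm (E₀' (coo x)) - coo.symm (E 0 (coo x))‖ ^ 2
        + ‖coo.symm (B₀' (coo x)) - coo.symm (B 0 (coo x))‖ ^ 2))
      = ∫⁻ x, ENNReal.ofReal (RVM.len (E₀' x - E 0 x) ^ 2 + RVM.len (B₀' x - B 0 x) ^ 2) := by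
    simp_rw [norm_symm_sub]
    exact lint_coo fun x => ENNReal.ofReal (RVM.len (E₀' x - E 0 x) ^ 2
      + RVM.len (B₀' x - B 0 x) ^ 2)
  filter_upwards [key] with t ht htT
  have e1 : (∫⁻ z : E3 × E3, ENNReal.ofReal ((g t (coo z.1) (coo z.2)
        - f t (coo z.1) (coo z.2)) ^ 2))
      = ∫⁻ z : V3 × V3, ENNReal.ofReal ((g t z.1 z.2 - f t z.1 z.2) ^ 2) :=
    lint_c2 fun z => ENNReal.ofReal ((g t z.1 z.2 - f t z.1 z.2) ^ 2)
  have e2 : (∫⁻ x : E3, ENNReal.ofReal (‖coo.symm (E' t (coo x)) - coo.symm (E t (coo x))‖ ^ 2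
        + ‖coo.symm (B' t (coo x)) - coo.symm (B t (coo x))‖ ^ 2))
      = ∫⁻ x, ENNReal.ofReal (RVM.len (E' t x - E t x) ^ 2 + RVM.len (B' t x - B t x) ^ 2) := by
    simp_rw [norm_symm_sub]
    exact lint_coo fun x => ENNReal.ofReal (RVM.len (E' t x - E t x) ^ 2
      + RVM.len (B' t x - B t x) ^ 2)
  unfold RVM.l2Dist RVM.stateDist
  rw [← e1, ← e2, ← e3, ← e4]
  exact ht htT

lemma stateDist_self (f : V3 → V3 → ℝ) (E B : V3 → V3) : RVM.stateDist f f E B E B = 0 := by
  have h1 : RVM.len (0 : V3) = 0 := by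
    have := len_coo (0 : E3)
    rw [map_zero, norm_zero] at this
    exact this
  unfold RVM.stateDist
  simp [h1]

/-- **Weak-strong uniqueness.** A finite-energy weak solution with smooth admissible initial values
is the classical solution. -/
theorem weak_eq_classical (h : RVM.IsEternalSolution f E B)
    (h0 : RVM.IsAdmissible (f 0) (E 0) (B 0))
    (h' : RVM.IsWeakSolution (f 0) (E 0) (B 0) g E' B') :
    (∀ᵐ p : ℝ × V3 × V3, 0 < p.1 → g p.1 p.2.1 p.2.2 = f p.1 p.2.1 p.2.2) ∧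
      ∀ᵐ p : ℝ × V3, 0 < p.1 → E' p.1 p.2 = E p.1 p.2 ∧ B' p.1 p.2 = B p.1 p.2 := by
  have mf : Measurable fun p : ℝ × V3 × V3 => f p.1 p.2.1 p.2.2 := h.f_c1.continuous.measurable
  have mE : Measurable fun p : ℝ × V3 => E p.1 p.2 := h.E_c1.continuous.measurable
  have mB : Measurable fun p : ℝ × V3 => B p.1 p.2 := h.B_c1.continuous.measurable
  have mlen : Measurable (RVM.len : V3 → ℝ) := by
    have h1 : (RVM.len : V3 → ℝ) = fun a => ‖coo.symm a‖ := by
      funext a
      rw [norm_symm]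
    rw [h1]
    exact (coo.symm.continuous.norm).measurable
  have key : ∀ᵐ t : ℝ, 0 < t → RVM.l2Dist (f t) (g t) (E t) (B t) (E' t) (B' t) = 0 := by
    have h1 : ∀ n : ℕ, ∀ᵐ t : ℝ, t ∈ Ioo 0 ((n : ℝ) + 1) →
        RVM.l2Dist (f t) (g t) (E t) (B t) (E' t) (B' t) = 0 := by
      intro n
      obtain ⟨C, hC⟩ := weak_stability h h0 ((n : ℝ) + 1)
      have h1 := hC (f 0) (E 0) (B 0) g E' B' (mf.comp measurable_prodMk_left)
        (mE.comp measurable_prodMk_left) (mB.comp measurable_prodMk_left)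
        (fun x v => h.f_nonneg 0 x v) h'
      rw [stateDist_self, mul_zero] at h1
      filter_upwards [h1] with t ht htn
      exact le_antisymm (ht htn) (zero_le)
    filter_upwards [ae_all_iff.2 h1] with t ht htp
    obtain ⟨n, hn⟩ := exists_nat_ge t
    exact ht n ⟨htp, by linarith⟩
  refine ⟨?_, ?_⟩
  · rw [Measure.volume_eq_prod ℝ]
    refine (Measure.ae_prod_iff_ae_ae (p := fun p : ℝ × V3 × V3 =>
      0 < p.1 → g p.1 p.2.1 p.2.2 = f p.1 p.2.1 p.2.2) ?_).2 ?_
    · have m1 : MeasurableSet {p : ℝ × V3 × V3 | g p.1 p.2.1 p.2.2 = f p.1 p.2.1 p.2.2} :=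
        measurableSet_eq_fun h'.g_meas mf
      have m2 : MeasurableSet {p : ℝ × V3 × V3 | 0 < p.1} :=
        measurableSet_lt measurable_const measurable_fst
      exact m2.imp m1
    · filter_upwards [key] with t ht
      by_cases htp : 0 < t
      · have h1 : (∫⁻ z : V3 × V3, ENNReal.ofReal ((g t z.1 z.2 - f t z.1 z.2) ^ 2)) = 0 :=
          (add_eq_zero.1 (ht htp)).1
        have m1 : Measurable fun z : V3 × V3 =>
            ENNReal.ofReal ((g t z.1 z.2 - f t z.1 z.2) ^ 2) :=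
          (((h'.g_meas.comp measurable_prodMk_left).sub
            (mf.comp measurable_prodMk_left)).pow_const 2).ennreal_ofReal
        filter_upwards [(lintegral_eq_zero_iff m1).1 h1] with z hz _
        have h2 : (g t z.1 z.2 - f t z.1 z.2) ^ 2 ≤ 0 := ENNReal.ofReal_eq_zero.1 hz
        have h3 := pow_eq_zero_iff (two_ne_zero) |>.1 (le_antisymm h2 (sq_nonneg _))
        show g t z.1 z.2 = f t z.1 z.2
        linarith
      · exact ae_of_all _ fun z hz => absurd hz htp
  · rw [Measure.volume_eq_prod ℝ]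
    refine (Measure.ae_prod_iff_ae_ae (p := fun p : ℝ × V3 =>
      0 < p.1 → E' p.1 p.2 = E p.1 p.2 ∧ B' p.1 p.2 = B p.1 p.2) ?_).2 ?_
    · have m1 : MeasurableSet {p : ℝ × V3 | E' p.1 p.2 = E p.1 p.2 ∧ B' p.1 p.2 = B p.1 p.2} :=
        (measurableSet_eq_fun h'.E_meas mE).inter (measurableSet_eq_fun h'.B_meas mB)
      have m2 : MeasurableSet {p : ℝ × V3 | 0 < p.1} :=
        measurableSet_lt measurable_const measurable_fst
      exact m2.imp m1
    · filter_upwards [key] with t ht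
      by_cases htp : 0 < t
      · have h1 : (∫⁻ x, ENNReal.ofReal (RVM.len (E' t x - E t x) ^ 2
            + RVM.len (B' t x - B t x) ^ 2)) = 0 := (add_eq_zero.1 (ht htp)).2
        have m1 : Measurable fun x : V3 => ENNReal.ofReal (RVM.len (E' t x - E t x) ^ 2
            + RVM.len (B' t x - B t x) ^ 2) :=
          (((mlen.comp ((h'.E_meas.comp measurable_prodMk_left).sub
            (mE.comp measurable_prodMk_left))).pow_const 2).add
            ((mlen.comp ((h'.B_meas.comp measurable_prodMk_left).sub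
            (mB.comp measurable_prodMk_left))).pow_const 2)).ennreal_ofReal
        filter_upwards [(lintegral_eq_zero_iff m1).1 h1] with x hx _
        have h2 : RVM.len (E' t x - E t x) ^ 2 + RVM.len (B' t x - B t x) ^ 2 ≤ 0 :=
          ENNReal.ofReal_eq_zero.1 hx
        have h3 : ∀ a b : V3, RVM.len (a - b) ^ 2 ≤ 0 → a = b := by
          intro a b hab
          have h4 := pow_eq_zero_iff (two_ne_zero) |>.1 (le_antisymm hab (sq_nonneg _))
          rw [← norm_symm_sub, norm_eq_zero, sub_eq_zero] at h4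
          exact coo.symm.injective h4
        have h5 := sq_nonneg (RVM.len (E' t x - E t x))
        have h6 := sq_nonneg (RVM.len (B' t x - B t x))
        exact ⟨h3 _ _ (by linarith), h3 _ _ (by linarith)⟩
      · exact ae_of_all _ fun x hx => absurd hx htp

end Vale.Agent.P107.H706
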